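import Vale.Agent.P028.Wide.Config

namespace Vale.Agent.P028.Div

open Finset
open scoped Classical
open Vale.Agent.P028.Wide (Conf)

/-- The number of divisors as a real number. -/
noncomputable def tau (n : ℕ) : ℝ := (n.divisors.card : ℝ)

/-- The second moment of the divisor function. -/
lemma sum_tau_sq (N : ℕ) (hN : 1 ≤ N) :
    ∑ n ∈ Finset.Icc 1 N, tau n ^ 2 ≤ (N:ℝ) * (1 + Real.log N) ^ 3 := by
  set I := Finset.Icc 1 N
  have hH : ∑ d ∈ I, 1 / (d:ℝ) ≤ 1 + Real.log N := by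
    have := harmonic_le_one_add_log N
    rw [harmonic_eq_sum_Icc] at this
    push_cast at this
    simpa [I, one_div] using this
  have hexp : ∀ n ∈ I, tau n ^ 2 ≤ ∑ z ∈ I ×ˢ I, if Nat.lcm z.1 z.2 ∣ n then (1:ℝ) else 0 := by
    intro n hn
    obtain ⟨h1, h2⟩ := Finset.mem_Icc.1 hn
    rw [← Finset.sum_filter, Finset.sum_const, nsmul_one, tau, sq, ← Nat.cast_mul, ← Finset.card_product]
    refine Nat.cast_le.2 (Finset.card_le_card fun z hz => ?_)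
    obtain ⟨hz1, hz2⟩ := Finset.mem_product.1 hz
    have a1 := Nat.dvd_of_mem_divisors hz1
    have a2 := Nat.dvd_of_mem_divisors hz2
    refine Finset.mem_filter.2 ⟨Finset.mem_product.2 ⟨?_, ?_⟩, Nat.lcm_dvd a1 a2⟩
    · exact Finset.mem_Icc.2 ⟨Nat.pos_of_mem_divisors hz1, le_trans (Nat.le_of_dvd h1 a1) h2⟩
    · exact Finset.mem_Icc.2 ⟨Nat.pos_of_mem_divisors hz2, le_trans (Nat.le_of_dvd h1 a2) h2⟩
  refine (Finset.sum_le_sum hexp).trans ?_
  rw [Finset.sum_comm]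
  have hz : ∀ z ∈ I ×ˢ I, (∑ n ∈ I, if Nat.lcm z.1 z.2 ∣ n then (1:ℝ) else 0)
      ≤ (N:ℝ) * ((Nat.gcd z.1 z.2 : ℝ) / ((z.1:ℝ) * z.2)) := by
    intro z hz
    obtain ⟨h1, h2⟩ := Finset.mem_product.1 hz
    have a1 := (Finset.mem_Icc.1 h1).1
    have a2 := (Finset.mem_Icc.1 h2).1
    have hl : 0 < Nat.lcm z.1 z.2 := Nat.lcm_pos a1 a2
    have e := Nat.gcd_mul_lcm z.1 z.2
    rw [← Finset.sum_filter, Finset.sum_const, nsmul_one]
    refine (card_multiples_le N _ hl).trans (le_of_eq ?_)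
    have e' : ((Nat.gcd z.1 z.2 : ℕ):ℝ) * (Nat.lcm z.1 z.2 : ℕ) = (z.1:ℝ) * z.2 := by exact_mod_cast e
    rw [← e']
    have : (Nat.gcd z.1 z.2 : ℝ) ≠ 0 := by exact_mod_cast (Nat.gcd_pos_of_pos_left _ a1).ne'
    field_simp
  refine (Finset.sum_le_sum hz).trans ?_
  rw [← Finset.mul_sum]
  refine mul_le_mul_of_nonneg_left ?_ (Nat.cast_nonneg _)
  set g := fun z : ℕ × ℕ => (Nat.gcd z.1 z.2, z.1 / Nat.gcd z.1 z.2, z.2 / Nat.gcd z.1 z.2)
  have hinv : ∀ z : ℕ × ℕ, z.1 = (g z).1 * (g z).2.1 ∧ z.2 = (g z).1 * (g z).2.2 := fun z =>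
    ⟨(Nat.mul_div_cancel' (Nat.gcd_dvd_left _ _)).symm, (Nat.mul_div_cancel' (Nat.gcd_dvd_right _ _)).symm⟩
  have hterm : ∀ z ∈ I ×ˢ I, (Nat.gcd z.1 z.2 : ℝ) / ((z.1:ℝ) * z.2)
      = 1 / ((g z).1:ℝ) * (1 / ((g z).2.1:ℝ) * (1 / ((g z).2.2:ℝ))) := by
    intro z hz
    obtain ⟨h1, h2⟩ := Finset.mem_product.1 hz
    obtain ⟨e1, e2⟩ := hinv z
    have hg : ((g z).1:ℝ) ≠ 0 := by
      exact_mod_cast (Nat.gcd_pos_of_pos_left z.2 (Finset.mem_Icc.1 h1).1).ne'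
    conv_lhs => rw [show (z.1:ℝ) = ((g z).1:ℝ) * ((g z).2.1:ℝ) by exact_mod_cast e1,
      show (z.2:ℝ) = ((g z).1:ℝ) * ((g z).2.2:ℝ) by exact_mod_cast e2]
    show ((g z).1:ℝ) / _ = _
    field_simp
  rw [Finset.sum_congr rfl hterm,
    ← Finset.sum_image (g := g) (f := fun w : ℕ × ℕ × ℕ => 1 / (w.1:ℝ) * (1 / (w.2.1:ℝ) * (1 / (w.2.2:ℝ))))
      (fun x _ y _ e => by
        obtain ⟨a1, a2⟩ := hinv x
        obtain ⟨b1, b2⟩ := hinv y
        exact Prod.ext (by rw [a1, b1, e]) (by rw [a2, b2, e]))]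
  refine (Finset.sum_le_sum_of_subset_of_nonneg (t := I ×ˢ (I ×ˢ I)) (fun w hw => ?_)
    fun w _ _ => by positivity).trans ?_
  · obtain ⟨z, hz, rfl⟩ := Finset.mem_image.1 hw
    obtain ⟨h1, h2⟩ := Finset.mem_product.1 hz
    obtain ⟨a1, a2⟩ := Finset.mem_Icc.1 h1
    obtain ⟨b1, b2⟩ := Finset.mem_Icc.1 h2
    have hgp : 0 < Nat.gcd z.1 z.2 := Nat.gcd_pos_of_pos_left _ a1
    simp only [g, I, Finset.mem_product, Finset.mem_Icc]
    refine ⟨⟨hgp, le_trans (Nat.le_of_dvd a1 (Nat.gcd_dvd_left _ _)) a2⟩, ⟨?_, ?_⟩, ?_, ?_⟩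
    · exact Nat.div_pos (Nat.le_of_dvd a1 (Nat.gcd_dvd_left _ _)) hgp
    · exact le_trans (Nat.div_le_self _ _) a2
    · exact Nat.div_pos (Nat.le_of_dvd b1 (Nat.gcd_dvd_right _ _)) hgp
    · exact le_trans (Nat.div_le_self _ _) b2
  rw [Finset.sum_product]
  simp only [← Finset.mul_sum, Finset.sum_product]
  rw [← Finset.sum_mul, ← Finset.sum_mul]
  have h0 : 0 ≤ ∑ d ∈ I, 1 / (d:ℝ) := Finset.sum_nonneg fun d _ => by positivity
  calc _ ≤ (1 + Real.log N) * ((1 + Real.log N) * (1 + Real.log N)) :=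
        mul_le_mul hH (mul_le_mul hH hH h0 (h0.trans hH)) (mul_nonneg h0 h0) (h0.trans hH)
    _ = _ := by ring

/-- Edges counted through their pairs of reduced cofactors. -/
lemma edge_to_pairs {E : Finset (ℕ × ℕ)} (S : Conf E) (G : ℕ × ℕ → ℝ) (hG : ∀ z, 0 ≤ G z) :
    ∑ x ∈ S.E2, G (S.Vf x.2 * ∏ p ∈ S.Tl x.1, p, S.Uf x.1 * ∏ p ∈ S.Tr x.2, p)
      ≤ ∑ z ∈ S.E2.image (fun x => (S.Vf x.2 * ∏ p ∈ S.Tl x.1, p, S.Uf x.1 * ∏ p ∈ S.Tr x.2, p)),
          tau z.1 * tau z.2 * G z := by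
  set key := fun x : ℕ × ℕ => (S.Vf x.2 * ∏ p ∈ S.Tl x.1, p, S.Uf x.1 * ∏ p ∈ S.Tr x.2, p)
  rw [← Finset.sum_fiberwise_of_maps_to (g := key) (fun x hx => Finset.mem_image_of_mem key hx)]
  refine Finset.sum_le_sum fun z _ => ?_
  rw [Finset.sum_congr rfl (g := fun _ => G z) fun x hx => by
    show G (key x) = G z
    rw [(Finset.mem_filter.1 hx).2]]
  rw [Finset.sum_const, nsmul_eq_mul]
  refine mul_le_mul_of_nonneg_right ?_ (hG z)
  rw [tau, tau, ← Nat.cast_mul, ← Finset.card_product]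
  refine Nat.cast_le.2 (Finset.card_le_card_of_injOn (fun x => (S.Vf x.2, S.Uf x.1)) (fun x hx0 => ?_)
    fun x hx y hy e => ?_)
  · obtain ⟨hx, hk⟩ := Finset.mem_filter.1 (Finset.mem_coe.1 hx0)
    subst hk
    simp only [Finset.coe_product, Set.mem_prod, Finset.mem_coe, key, Nat.mem_divisors]
    have hl : 0 < ∏ p ∈ S.Tl x.1, p := Finset.prod_pos fun p hp => (S.primeG p ((S.left x hx).2 hp)).pos
    have hr : 0 < ∏ p ∈ S.Tr x.2, p := Finset.prod_pos fun p hp => (S.primeG p ((S.right x hx).2 hp)).pos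
    exact ⟨⟨dvd_mul_right _ _, (Nat.mul_pos (S.right x hx).1 hl).ne'⟩,
      dvd_mul_right _ _, (Nat.mul_pos (S.left x hx).1 hr).ne'⟩
  · simp only [Finset.mem_coe] at hx hy
    obtain ⟨hx, hkx⟩ := Finset.mem_filter.1 hx
    obtain ⟨hy, hky⟩ := Finset.mem_filter.1 hy
    obtain ⟨eV, eU⟩ := Prod.mk.injEq _ _ _ _ ▸ e
    have h := hkx.trans hky.symm
    simp only [key, Prod.mk.injEq] at h
    obtain ⟨h1, h2⟩ := h
    rw [eV] at h1
    rw [eU] at h2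
    have hT : ∀ {T T' : Finset ℕ}, T ⊆ S.G → T' ⊆ S.G → ∏ p ∈ T, p = ∏ p ∈ T', p → T = T' :=
      fun {T T'} hT hT' e => by
        rw [← Nat.primeFactors_prod (fun p hp => S.primeG p (hT hp)),
          ← Nat.primeFactors_prod (fun p hp => S.primeG p (hT' hp)), e]
    have t1 := hT (S.left x hx).2 (S.left y hy).2 (Nat.eq_of_mul_eq_mul_left (S.right y hy).1 h1)
    have t2 := hT (S.right x hx).2 (S.right y hy).2 (Nat.eq_of_mul_eq_mul_left (S.left y hy).1 h2)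
    exact Prod.ext (S.injL x hx y hy eU t1) (S.injR x hx y hy eV t2)

/-- Summation over binary boxes. -/
lemma box_sum {N : ℕ} (hN : 1 ≤ N) (P : Finset (ℕ × ℕ))
    (hP : ∀ z ∈ P, 1 ≤ z.1 ∧ z.1 ≤ N ∧ 1 ≤ z.2 ∧ z.2 ≤ N) (f f' : ℕ → ℝ) (hf : ∀ a, 0 ≤ f a)
    (hf' : ∀ a, 0 ≤ f' a) (hfm : Monotone f) (hfm' : Monotone f') {Φ : ℝ} (hΦ : 0 ≤ Φ)
    (h : ∀ A B : ℕ, 1 ≤ A → 1 ≤ B → A ≤ 2 * N → B ≤ 2 * N →
      ((P.filter (fun z => z.1 ≤ A ∧ z.2 ≤ B)).card : ℝ) * (f A * f' B) ^ 2 ≤ Φ * ((A:ℝ) * B)) :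
    ∑ z ∈ P, tau z.1 * tau z.2 * (f z.1 * f' z.2 / ((z.1:ℝ) * z.2))
      ≤ 1000 * Real.sqrt Φ * (1 + Real.log N) ^ 5 := by
  have hlN : 0 ≤ Real.log N := Real.log_nonneg (by exact_mod_cast hN)
  set L1 := 1 + Real.log N
  set key := fun z : ℕ × ℕ => (Nat.log 2 z.1, Nat.log 2 z.2)
  set K := Nat.log 2 N
  have hmap : ∀ z ∈ P, key z ∈ Finset.range (K + 1) ×ˢ Finset.range (K + 1) := fun z hz => by
    obtain ⟨-, h1, -, h2⟩ := hP z hz
    have a := Nat.log_mono_right (b := 2) h1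
    have b := Nat.log_mono_right (b := 2) h2
    exact Finset.mem_product.2 ⟨Finset.mem_range.2 (show Nat.log 2 z.1 < K + 1 by omega),
      Finset.mem_range.2 (show Nat.log 2 z.2 < K + 1 by omega)⟩
  rw [← Finset.sum_fiberwise_of_maps_to hmap]
  refine (Finset.sum_le_card_nsmul _ _ (32 * Real.sqrt Φ * L1 ^ 3) fun κ hκ => ?_).trans ?_
  · obtain ⟨h1, h2⟩ := Finset.mem_product.1 hκ
    have hA2 : 2 ^ (κ.1 + 1) ≤ 2 * N := by
      rw [pow_succ']
      exact Nat.mul_le_mul_left 2 (le_trans (Nat.pow_le_pow_right (by norm_num)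
        (by have := Finset.mem_range.1 h1; omega)) (Nat.pow_log_le_self 2 (by omega)))
    have hB2 : 2 ^ (κ.2 + 1) ≤ 2 * N := by
      rw [pow_succ']
      exact Nat.mul_le_mul_left 2 (le_trans (Nat.pow_le_pow_right (by norm_num)
        (by have := Finset.mem_range.1 h2; omega)) (Nat.pow_log_le_self 2 (by omega)))
    set A := 2 ^ (κ.1 + 1) with hAdef
    set B := 2 ^ (κ.2 + 1) with hBdef
    have hA1 : 1 ≤ A := Nat.one_le_two_pow
    have hB1 : 1 ≤ B := Nat.one_le_two_pow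
    have hA0 : (0:ℝ) < A := by exact_mod_cast hA1
    have hB0 : (0:ℝ) < B := by exact_mod_cast hB1
    set T := P.filter (fun z => key z = κ)
    have hT : ∀ z ∈ T, z ∈ P ∧ z.1 ≤ A ∧ z.2 ≤ B ∧ (A:ℝ) ≤ 2 * z.1 ∧ (B:ℝ) ≤ 2 * z.2 := by
      intro z hz
      obtain ⟨hz, hk⟩ := Finset.mem_filter.1 hz
      obtain ⟨a1, -, b1, -⟩ := hP z hz
      simp only [hAdef, hBdef, ← hk, key]
      refine ⟨hz, (Nat.lt_pow_succ_log_self one_lt_two _).le, (Nat.lt_pow_succ_log_self one_lt_two _).le, ?_, ?_⟩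
      · rw [pow_succ']; push_cast
        exact mul_le_mul_of_nonneg_left (by exact_mod_cast Nat.pow_log_le_self 2 (by omega : z.1 ≠ 0)) (by norm_num)
      · rw [pow_succ']; push_cast
        exact mul_le_mul_of_nonneg_left (by exact_mod_cast Nat.pow_log_le_self 2 (by omega : z.2 ≠ 0)) (by norm_num)
    set F := f A * f' B
    have hF : 0 ≤ F := mul_nonneg (hf _) (hf' _)
    have hstep : ∑ z ∈ T, tau z.1 * tau z.2 * (f z.1 * f' z.2 / ((z.1:ℝ) * z.2))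
        ≤ 4 * F / ((A:ℝ) * B) * ∑ z ∈ T, tau z.1 * tau z.2 := by
      rw [Finset.mul_sum]
      refine Finset.sum_le_sum fun z hz => ?_
      obtain ⟨hzP, a1, b1, a2, b2⟩ := hT z hz
      rw [mul_comm (4 * F / ((A:ℝ) * B))]
      refine mul_le_mul_of_nonneg_left ?_ (mul_nonneg (Nat.cast_nonneg _) (Nat.cast_nonneg _))
      have hz1 : (0:ℝ) < z.1 := by exact_mod_cast (hP z hzP).1
      have hz2 : (0:ℝ) < z.2 := by exact_mod_cast (hP z hzP).2.2.1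
      rw [div_le_div_iff₀ (by positivity) (by positivity)]
      calc f z.1 * f' z.2 * ((A:ℝ) * B) ≤ F * ((2 * z.1) * (2 * z.2)) :=
            mul_le_mul (mul_le_mul (hfm a1) (hfm' b1) (hf' _) (hf _)) (mul_le_mul a2 b2 hB0.le (by positivity))
              (by positivity) hF
        _ = _ := by ring
    refine hstep.trans ?_
    have hcs := Finset.sum_mul_sq_le_sq_mul_sq T (fun _ => (1:ℝ)) (fun z => tau z.1 * tau z.2)
    simp only [one_mul, one_pow, Finset.sum_const, nsmul_one] at hcs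
    have hlog : ∀ {X : ℕ}, 1 ≤ X → X ≤ 2 * N → 1 + Real.log X ≤ 2 * L1 := fun {X} hX hX' => by
      have h := Real.log_le_log (by exact_mod_cast hX : (0:ℝ) < X) (Nat.cast_le.2 hX')
      push_cast at h
      rw [Real.log_mul (by norm_num) (by positivity)] at h
      have := Real.log_two_lt_d9
      simp only [L1]
      linarith
    have htau : ∑ z ∈ T, (tau z.1 * tau z.2) ^ 2 ≤ ((A:ℝ) * (2 * L1) ^ 3) * ((B:ℝ) * (2 * L1) ^ 3) := by
      refine (Finset.sum_le_sum_of_subset_of_nonneg (t := Finset.Icc 1 A ×ˢ Finset.Icc 1 B) (fun z hz => ?_)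
        fun z _ _ => sq_nonneg _).trans ?_
      · obtain ⟨hzP, a1, b1, -, -⟩ := hT z hz
        exact Finset.mem_product.2 ⟨Finset.mem_Icc.2 ⟨(hP z hzP).1, a1⟩, Finset.mem_Icc.2 ⟨(hP z hzP).2.2.1, b1⟩⟩
      rw [Finset.sum_product]
      simp only [mul_pow, ← Finset.mul_sum]
      rw [← Finset.sum_mul]
      have hlA : 0 ≤ Real.log A := Real.log_natCast_nonneg A
      have hlB : 0 ≤ Real.log B := Real.log_natCast_nonneg B
      refine mul_le_mul ((sum_tau_sq A hA1).trans ?_) ((sum_tau_sq B hB1).trans ?_)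
        (Finset.sum_nonneg fun _ _ => sq_nonneg _) (by positivity)
      · refine mul_le_mul_of_nonneg_left ?_ hA0.le
        exact (pow_le_pow_left₀ (by linarith) (hlog hA1 hA2) 3).trans (le_of_eq (by ring))
      · refine mul_le_mul_of_nonneg_left ?_ hB0.le
        exact (pow_le_pow_left₀ (by linarith) (hlog hB1 hB2) 3).trans (le_of_eq (by ring))
    have hcount : (T.card:ℝ) * F ^ 2 ≤ Φ * ((A:ℝ) * B) := by
      refine le_trans (mul_le_mul_of_nonneg_right (Nat.cast_le.2 (Finset.card_le_card fun z hz => ?_))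
        (sq_nonneg _)) (h A B hA1 hB1 hA2 hB2)
      obtain ⟨hzP, a1, b1, -, -⟩ := hT z hz
      exact Finset.mem_filter.2 ⟨hzP, a1, b1⟩
    set S1 := ∑ z ∈ T, tau z.1 * tau z.2
    have hS1 : 0 ≤ S1 := Finset.sum_nonneg fun z _ => mul_nonneg (Nat.cast_nonneg _) (Nat.cast_nonneg _)
    rw [div_mul_eq_mul_div, div_le_iff₀ (by positivity)]
    refine le_of_sq_le_sq ?_ (by positivity)
    calc (4 * F * S1) ^ 2 = 16 * F ^ 2 * S1 ^ 2 := by ring
      _ ≤ 16 * F ^ 2 * ((T.card:ℝ) * (((A:ℝ) * (2 * L1) ^ 3) * ((B:ℝ) * (2 * L1) ^ 3))) :=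
          mul_le_mul_of_nonneg_left (hcs.trans (mul_le_mul_of_nonneg_left htau (Nat.cast_nonneg _)))
            (by positivity)
      _ = 1024 * ((T.card:ℝ) * F ^ 2) * ((A:ℝ) * B) * L1 ^ 6 := by ring
      _ ≤ 1024 * (Φ * ((A:ℝ) * B)) * ((A:ℝ) * B) * L1 ^ 6 := by gcongr
      _ = _ := by
          rw [mul_pow, mul_pow, mul_pow, Real.sq_sqrt hΦ]; ring
  · rw [nsmul_eq_mul, Finset.card_product, Finset.card_range]
    push_cast
    have hK : (K:ℝ) + 1 ≤ 2 * L1 := by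
      have h1 : ((K:ℕ):ℝ) * Real.log 2 ≤ Real.log N := by
        rw [← Real.log_pow]
        exact Real.log_le_log (by positivity) (by exact_mod_cast Nat.pow_log_le_self 2 (by omega))
      have := Real.log_two_gt_d9
      have : (0:ℝ) ≤ K := Nat.cast_nonneg _
      simp only [L1]
      nlinarith
    calc ((K:ℝ) + 1) * ((K:ℝ) + 1) * (32 * Real.sqrt Φ * L1 ^ 3) ≤ (2 * L1) * (2 * L1) * (32 * Real.sqrt Φ * L1 ^ 3) := by
          gcongr
      _ = 128 * (Real.sqrt Φ * L1 ^ 5) := by ring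
      _ ≤ _ := by
          have : 0 ≤ Real.sqrt Φ * L1 ^ 5 := by positivity
          linarith

end Vale.Agent.P028.Div
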