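import Vale.Agent.P028.Div.Sel
import Vale.Agent.P028.Wide.Lattice

namespace Vale.Agent.P028.Div

open Finset
open scoped Classical

/-- The integer `n` has a hit off the degenerate line. -/
def HitN (γ t : ℝ) (xf : ℕ × ℤ) (n : ℤ) : Prop :=
  ∃ k : ℤ, |(k:ℝ) + γ * n| < t ∧ k * (xf.1 : ℤ) + xf.2 * n ≠ 0

lemma HitN.neg {γ t : ℝ} {xf : ℕ × ℤ} {n : ℤ} (h : HitN γ t xf n) : HitN γ t xf (-n) := by
  obtain ⟨k, h1, h2⟩ := h
  refine ⟨-k, ?_, ?_⟩
  · push_cast
    rw [show -(k:ℝ) + γ * -(n:ℝ) = -((k:ℝ) + γ * n) by ring, abs_neg]; exact h1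
  · intro h; exact h2 (by linarith)

lemma HitN.mono {γ t t' : ℝ} {xf : ℕ × ℤ} {n : ℤ} (h : HitN γ t xf n) (ht : t ≤ t') : HitN γ t' xf n := by
  obtain ⟨k, h1, h2⟩ := h
  exact ⟨k, lt_of_lt_of_le h1 ht, h2⟩

/-- Solutions of a linear condition with an approximation of positive error. -/
lemma arc_count (α φ t : ℝ) (ht : 0 ≤ t) (N d : ℕ) (a : ℤ) (hd : 1 ≤ d) (hco : IsCoprime (d:ℤ) a)
    (he : 0 < |(d:ℝ) * α - a|) (s : Finset ℕ)
    (hs : ∀ V ∈ s, 1 ≤ V ∧ V ≤ N ∧ ∃ z : ℤ, |(z:ℝ) + α * V - φ| < t) :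
    (s.card : ℝ) ≤ (2 * ((d:ℝ) * t + (N:ℝ) * |(d:ℝ) * α - a|) + 1) * (2 * t / |(d:ℝ) * α - a| + 1) := by
  set ε := (d:ℝ) * α - a with hε
  have hd0 : (0:ℝ) < d := by exact_mod_cast hd
  have hs' : ∀ V : ℕ, ∃ z : ℤ, V ∈ s → |(z:ℝ) + α * V - φ| < t := fun V => by
    by_cases h : V ∈ s
    · obtain ⟨z, hz⟩ := (hs V h).2.2; exact ⟨z, fun _ => hz⟩
    · exact ⟨0, fun h' => absurd h' h⟩
  choose z hz using hs'
  set j := fun V => z V * (d:ℤ) + a * (V:ℤ)
  have hnear : ∀ V ∈ s, |((j V : ℤ):ℝ) + ε * V - (d:ℝ) * φ| < (d:ℝ) * t := by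
    intro V hV
    have e : ((j V : ℤ):ℝ) + ε * V - (d:ℝ) * φ = (d:ℝ) * ((z V : ℝ) + α * V - φ) := by
      simp only [j, hε]; push_cast; ring
    rw [e, abs_mul, abs_of_pos hd0]
    exact mul_lt_mul_of_pos_left (hz V hV) hd0
  have hrow : (((s.image j).card : ℕ):ℝ) ≤ 2 * ((d:ℝ) * t + (N:ℝ) * |ε|) + 1 := by
    refine card_int_near _ (-((d:ℝ) * φ)) _ (by positivity) fun i hi => ?_
    obtain ⟨V, hV, rfl⟩ := Finset.mem_image.1 hi
    have h1 := hnear V hV
    have h2 : |ε * (V:ℝ)| ≤ (N:ℝ) * |ε| := by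
      rw [abs_mul, Nat.abs_cast, mul_comm]
      exact mul_le_mul_of_nonneg_right (Nat.cast_le.2 (hs V hV).2.1) (abs_nonneg _)
    have h3 := abs_sub (((j V : ℤ):ℝ) + ε * V - (d:ℝ) * φ) (ε * V)
    rw [show ((j V : ℤ):ℝ) + ε * V - (d:ℝ) * φ - ε * V = ((j V : ℤ):ℝ) + -((d:ℝ) * φ) by ring] at h3
    linarith
  have hfib : ∀ i : ℤ, (((s.filter (fun V => j V = i)).card : ℕ):ℝ) ≤ 2 * t / |ε| + 1 := by
    intro i
    set T := s.filter (fun V => j V = i)
    rw [← Finset.card_image_of_injective T (Nat.cast_injective (R := ℤ))]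
    refine (card_progression _ d hd (2 * (d:ℝ) * t / |ε|) (by positivity) ?_).trans (le_of_eq ?_)
    · intro x hx y hy
      obtain ⟨V, hV, rfl⟩ := Finset.mem_image.1 hx
      obtain ⟨V', hV', rfl⟩ := Finset.mem_image.1 hy
      obtain ⟨hV, hVi⟩ := Finset.mem_filter.1 hV
      obtain ⟨hV', hVi'⟩ := Finset.mem_filter.1 hV'
      refine ⟨?_, ?_⟩
      · have h := hVi.trans hVi'.symm
        simp only [j] at h
        exact hco.dvd_of_dvd_mul_left ⟨z V' - z V, by linear_combination h⟩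
      · rw [le_div_iff₀ he]
        have h1 := hnear V hV
        have h2 := hnear V' hV'
        rw [hVi] at h1
        rw [hVi'] at h2
        have h3 : |((V:ℝ) - V') * ε| ≤ 2 * (d:ℝ) * t := by
          have h := abs_sub ((i:ℝ) + ε * V - (d:ℝ) * φ) ((i:ℝ) + ε * V' - (d:ℝ) * φ)
          rw [show (i:ℝ) + ε * V - (d:ℝ) * φ - ((i:ℝ) + ε * V' - (d:ℝ) * φ) = ((V:ℝ) - V') * ε by ring] at h
          linarith
        rw [abs_mul] at h3
        push_cast
        have := mul_le_mul_of_nonneg_right (le_abs_self ((V:ℝ) - V')) (abs_nonneg ε)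
        linarith
    · field_simp
  rw [Finset.card_eq_sum_card_fiberwise (t := s.image j) (f := j) fun V hV => Finset.mem_image_of_mem _ hV]
  push_cast
  refine (Finset.sum_le_sum fun i _ => hfib i).trans ?_
  rw [Finset.sum_const, nsmul_eq_mul]
  exact mul_le_mul_of_nonneg_right hrow (by positivity)

/-- Hits along a progression, for the exceptional fraction. -/
lemma major_count (γ t : ℝ) (ht : 0 ≤ t) (xf : ℕ × ℤ) (hB : 1 ≤ xf.1) (hco : IsCoprime (xf.1:ℤ) xf.2)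
    (M N : ℕ) (hM : 1 ≤ M) (w : ℤ) (U : ℝ) (hMU : (M:ℝ) * N ≤ U) (s : Finset ℕ)
    (hs : ∀ a ∈ s, 1 ≤ a ∧ a ≤ N ∧ |(((M:ℤ) * a - w : ℤ):ℝ)| ≤ U ∧ HitN γ t xf ((M:ℤ) * a - w)) :
    (s.card : ℝ) ≤ 6 * t * N + 2 * ((xf.1:ℝ) * t + (M:ℝ) * N * |(xf.1:ℝ) * γ - xf.2|) + 1
      + (Nat.gcd xf.1 M : ℝ) * min ((N:ℝ) / xf.1) (4 * t * U / M) := by
  set B := xf.1
  set A := xf.2
  set ε := (B:ℝ) * γ - A with hε
  set d := Nat.gcd B M with hd
  have hB0 : (0:ℝ) < B := by exact_mod_cast hB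
  have hM0 : (0:ℝ) < M := by exact_mod_cast hM
  have hd0 : 0 < d := Nat.gcd_pos_of_pos_left _ hB
  have hd1 : (1:ℝ) ≤ d := by exact_mod_cast hd0
  have hU : 0 ≤ U := le_trans (by positivity) hMU
  set R := (B:ℝ) * t + (M:ℝ) * N * |ε| with hR
  have hR0 : 0 ≤ R := by positivity
  rcases s.eq_empty_or_nonempty with h0 | ⟨a0, ha0⟩
  · rw [h0, Finset.card_empty, Nat.cast_zero]; positivity
  have hs' : ∀ a : ℕ, ∃ z : ℤ, a ∈ s → |(z:ℝ) + γ * (((M:ℤ) * a - w : ℤ):ℝ)| < t ∧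
      z * (B:ℤ) + A * ((M:ℤ) * a - w) ≠ 0 := fun a => by
    by_cases h : a ∈ s
    · obtain ⟨z, hz⟩ := (hs a h).2.2.2; exact ⟨z, fun _ => hz⟩
    · exact ⟨0, fun h' => absurd h' h⟩
  choose z hz using hs'
  set J := fun a => z a * (B:ℤ) + A * ((M:ℤ) * a - w)
  have hnear : ∀ a ∈ s, |((J a : ℤ):ℝ) + (((M:ℤ) * a - w : ℤ):ℝ) * ε| < (B:ℝ) * t := by
    intro a ha
    have e : ((J a : ℤ):ℝ) + (((M:ℤ) * a - w : ℤ):ℝ) * ε
        = (B:ℝ) * ((z a : ℝ) + γ * (((M:ℤ) * a - w : ℤ):ℝ)) := by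
      simp only [J, hε]; push_cast; ring
    rw [e, abs_mul, abs_of_pos hB0]
    exact mul_lt_mul_of_pos_left (hz a ha).1 hB0
  have hbig : 1 ≤ (B:ℝ) * t + U * |ε| := by
    have h1 : (1:ℝ) ≤ |((J a0 : ℤ):ℝ)| := by
      rw [← Int.cast_abs]; exact_mod_cast Int.one_le_abs (hz a0 ha0).2
    have h2 := abs_sub (((J a0 : ℤ):ℝ) + (((M:ℤ) * a0 - w : ℤ):ℝ) * ε) ((((M:ℤ) * a0 - w : ℤ):ℝ) * ε)
    rw [add_sub_cancel_right, abs_mul] at h2
    have h3 := mul_le_mul_of_nonneg_right (hs a0 ha0).2.2.1 (abs_nonneg ε)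
    linarith [hnear a0 ha0]
  -- the values of `J`
  have hJset : (((s.image J).card : ℕ):ℝ) ≤ 2 * R / d + 1 := by
    refine card_progression _ d hd0 (2 * R) (by linarith) ?_
    intro x hx y hy
    obtain ⟨V, hV, rfl⟩ := Finset.mem_image.1 hx
    obtain ⟨V', hV', rfl⟩ := Finset.mem_image.1 hy
    refine ⟨?_, ?_⟩
    · have dB : (d:ℤ) ∣ (B:ℤ) := Int.natCast_dvd_natCast.2 (Nat.gcd_dvd_left _ _)
      have dM : (d:ℤ) ∣ (M:ℤ) := Int.natCast_dvd_natCast.2 (Nat.gcd_dvd_right _ _)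
      have e : J V - J V' = (B:ℤ) * (z V - z V') + (M:ℤ) * (A * ((V:ℤ) - V')) := by
        simp only [J]; ring
      rw [e]
      exact dvd_add (dB.mul_right _) (dM.mul_right _)
    · have h1 := abs_lt.1 (hnear V hV)
      have h2 := abs_lt.1 (hnear V' hV')
      have e : ((((M:ℤ) * V' - w : ℤ):ℝ) - (((M:ℤ) * V - w : ℤ):ℝ)) * ε = (M:ℝ) * ((V':ℝ) - V) * ε := by
        push_cast; ring
      have h3 : (M:ℝ) * ((V':ℝ) - V) * ε ≤ (M:ℝ) * N * |ε| := by
        refine (le_abs_self _).trans ?_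
        rw [abs_mul, abs_mul, Nat.abs_cast]
        refine mul_le_mul_of_nonneg_right (mul_le_mul_of_nonneg_left ?_ hM0.le) (abs_nonneg _)
        have a1 : (V:ℝ) ≤ N := by exact_mod_cast (hs V hV).2.1
        have a2 : (V':ℝ) ≤ N := by exact_mod_cast (hs V' hV').2.1
        have a3 : (0:ℝ) ≤ V := Nat.cast_nonneg _
        have a4 : (0:ℝ) ≤ V' := Nat.cast_nonneg _
        rw [abs_le]; constructor <;> linarith
      have : 0 ≤ (M:ℝ) * N * |ε| := by positivity
      simp only [hR]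
      linarith
  -- one fibre
  set F := min ((N:ℝ) / B) (if ε = 0 then (N:ℝ) / B else 2 * t / ((M:ℝ) * |ε|))
  have hF : 0 ≤ F := by
    refine le_min (by positivity) ?_
    split_ifs <;> positivity
  have hfib : ∀ j : ℤ, (((s.filter (fun a => J a = j)).card : ℕ):ℝ) ≤ (d:ℝ) * F + 1 := by
    intro j
    set T := s.filter (fun a => J a = j)
    rw [← Finset.card_image_of_injective T (Nat.cast_injective (R := ℤ))]
    obtain ⟨B', hB'⟩ : d ∣ B := Nat.gcd_dvd_left _ _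
    have hB'0 : 0 < B' := Nat.pos_of_ne_zero fun h => by simp [h] at hB'; omega
    refine (card_progression _ B' hB'0 (F * B) (mul_nonneg hF hB0.le) ?_).trans (le_of_eq ?_)
    · intro x hx y hy
      obtain ⟨V, hV, rfl⟩ := Finset.mem_image.1 hx
      obtain ⟨V', hV', rfl⟩ := Finset.mem_image.1 hy
      obtain ⟨hV, hVj⟩ := Finset.mem_filter.1 hV
      obtain ⟨hV', hVj'⟩ := Finset.mem_filter.1 hV'
      refine ⟨?_, ?_⟩
      · obtain ⟨M', hM'⟩ : d ∣ M := Nat.gcd_dvd_right _ _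
        have hcop : Nat.Coprime B' M' := by
          have := Nat.coprime_div_gcd_div_gcd (m := B) (n := M) hd0
          rwa [← hd, show B / d = B' by rw [hB']; exact Nat.mul_div_cancel_left _ hd0,
            show M / d = M' by rw [hM']; exact Nat.mul_div_cancel_left _ hd0] at this
        have h0 : (z V - z V') * (B:ℤ) + A * ((M:ℤ) * ((V:ℤ) - V')) = 0 := by
          have h := hVj.trans hVj'.symm
          simp only [J] at h
          linear_combination h
        have h1 : (B:ℤ) ∣ (M:ℤ) * ((V:ℤ) - V') :=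
          hco.dvd_of_dvd_mul_left ⟨z V' - z V, by linear_combination h0⟩
        have h2 : (B':ℤ) ∣ (M':ℤ) * ((V:ℤ) - V') := by
          rw [hB', hM'] at h1
          push_cast at h1
          rw [mul_assoc] at h1
          exact Int.dvd_of_mul_dvd_mul_left (by exact_mod_cast hd0.ne') h1
        exact (Int.isCoprime_iff_nat_coprime.2 (by simpa using hcop)).dvd_of_dvd_mul_left h2
      · push_cast
        have a1 : (V:ℝ) ≤ N := by exact_mod_cast (hs V hV).2.1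
        have a2 : (0:ℝ) ≤ (V':ℝ) := Nat.cast_nonneg _
        rw [min_mul_of_nonneg _ _ hB0.le, div_mul_cancel₀ _ hB0.ne']
        refine le_min (by linarith) ?_
        split_ifs with hz0
        · rw [div_mul_cancel₀ _ hB0.ne']; linarith
        have he : 0 < (M:ℝ) * |ε| := mul_pos hM0 (abs_pos.2 hz0)
        rw [div_mul_eq_mul_div, le_div_iff₀ he]
        have b1 := hnear V hV
        have b2 := hnear V' hV'
        rw [hVj] at b1
        rw [hVj'] at b2
        have h3 := abs_sub ((j:ℝ) + (((M:ℤ) * V - w : ℤ):ℝ) * ε) ((j:ℝ) + (((M:ℤ) * V' - w : ℤ):ℝ) * ε)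
        rw [show (j:ℝ) + (((M:ℤ) * V - w : ℤ):ℝ) * ε - ((j:ℝ) + (((M:ℤ) * V' - w : ℤ):ℝ) * ε)
          = ((V:ℝ) - V') * (M:ℝ) * ε by push_cast; ring, abs_mul, abs_mul, Nat.abs_cast, mul_assoc] at h3
        have := mul_le_mul_of_nonneg_right (le_abs_self ((V:ℝ) - V')) he.le
        linarith
    · have hB'' : (B:ℝ) = (d:ℝ) * B' := by exact_mod_cast hB'
      rw [hB'']; field_simp
  rw [Finset.card_eq_sum_card_fiberwise (t := s.image J) (f := J) fun V hV => Finset.mem_image_of_mem _ hV]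
  push_cast
  refine (Finset.sum_le_sum fun j _ => hfib j).trans ?_
  rw [Finset.sum_const, nsmul_eq_mul]
  refine (mul_le_mul_of_nonneg_right hJset (by positivity)).trans ?_
  have e1 : (2 * R / (d:ℝ) + 1) * ((d:ℝ) * F + 1) = 2 * (R * F) + 2 * R / d + (d:ℝ) * F + 1 := by
    field_simp; ring
  have h1 : R * F ≤ 3 * t * N := by
    rw [hR, add_mul]
    have hA1 : (B:ℝ) * t * F ≤ t * N := by
      refine (mul_le_mul_of_nonneg_left (min_le_left _ _) (by positivity)).trans (le_of_eq ?_)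
      field_simp
    have hA2 : (M:ℝ) * N * |ε| * F ≤ 2 * (t * N) := by
      by_cases hz0 : ε = 0
      · rw [hz0]; simp; positivity
      refine (mul_le_mul_of_nonneg_left (min_le_right _ _) (by positivity)).trans (le_of_eq ?_)
      have := abs_pos.2 hz0
      rw [if_neg hz0]; field_simp
    linarith
  have h2 : 2 * R / d ≤ 2 * R := div_le_self (by linarith) hd1
  have h3 : F ≤ min ((N:ℝ) / B) (4 * t * U / M) := by
    refine le_min (min_le_left _ _) ?_
    rcases le_or_gt (1/2) ((B:ℝ) * t) with hbt | hbt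
    · refine (min_le_left _ _).trans ?_
      rw [div_le_div_iff₀ hB0 hM0]
      have h5 : 2 * U ≤ 4 * t * U * B := by
        have := mul_le_mul_of_nonneg_left hbt (by linarith : (0:ℝ) ≤ 4 * U)
        linarith
      linarith
    · have hz0 : ε ≠ 0 := fun h => by rw [h] at hbig; simp at hbig; linarith
      refine (min_le_right _ _).trans ?_
      rw [if_neg hz0, div_le_div_iff₀ (mul_pos hM0 (abs_pos.2 hz0)) hM0]
      have h5 : 1 / 2 ≤ U * |ε| := by linarith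
      have := mul_le_mul_of_nonneg_left h5 (by positivity : (0:ℝ) ≤ 4 * t * M)
      linarith
  rw [e1]
  have := mul_le_mul_of_nonneg_left h3 (le_trans zero_le_one hd1)
  linarith

/-- One row: the trichotomy for a progression of length `N` with step `M`. -/
lemma row_count (γ t l : ℝ) (M N : ℕ) (w : ℤ) (U ρ K0 : ℝ) (ht : 0 < t) (hM : 1 ≤ M) (hρ : 0 < ρ)
    (hρ1 : ρ ≤ 1) (htρ : t ≤ ρ ^ 2) (hMK : (M:ℝ) ≤ K0 * ρ ^ 5) (hKh : K0 ≤ Real.exp (l / 2) / 2)
    (hKt : K0 ≤ t * Real.exp l) (hbig : ρ * t * Real.exp l ≤ (M:ℝ) * N) (hMU : (M:ℝ) * N ≤ U)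
    (s : Finset ℕ) (hs : ∀ a ∈ s, 1 ≤ a ∧ a ≤ N ∧ |(((M:ℤ) * a - w : ℤ):ℝ)| ≤ U ∧
      HitN γ t (sel γ l) ((M:ℤ) * a - w)) :
    (s.card : ℝ) ≤ 100 * ρ ^ 2 * N
      + (Nat.gcd (sel γ l).1 M : ℝ) * min ((N:ℝ) / (sel γ l).1) (4 * t * U / M) := by
  set Y := Real.exp l with hY
  have hY0 : 0 < Y := Real.exp_pos l
  have hM0 : (0:ℝ) < M := by exact_mod_cast hM
  have hK0 : 0 < K0 := pos_of_mul_pos_left (lt_of_lt_of_le hM0 hMK) (by positivity)
  have hρk : ∀ j : ℕ, 0 < ρ ^ j := fun j => pow_pos hρ j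
  -- the length is large
  have hN4 : 1 ≤ ρ ^ 4 * N := by
    have h1 : (M:ℝ) ≤ ρ ^ 4 * (ρ * t * Y) :=
      calc (M:ℝ) ≤ K0 * ρ ^ 5 := hMK
        _ ≤ t * Y * ρ ^ 5 := mul_le_mul_of_nonneg_right hKt (hρk 5).le
        _ = _ := by ring
    have h2 := h1.trans (mul_le_mul_of_nonneg_left hbig (hρk 4).le)
    refine le_of_mul_le_mul_left ?_ hM0
    linarith
  set R := ρ ^ 2 with hRdef
  have hR : 0 < R := hρk 2
  have hR1 : R ≤ 1 := pow_le_one₀ hρ.le hρ1
  have hN0 : (0:ℝ) < N := by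
    by_contra h
    have := mul_nonpos_of_nonneg_of_nonpos (hρk 4).le (not_lt.1 h)
    linarith
  have hRR : 1 / R ≤ R * N := by
    rw [div_le_iff₀ hR]
    have : R * N * R = ρ ^ 4 * N := by rw [hRdef]; ring
    linarith
  have hRN : 1 ≤ R * N := le_trans (by rw [le_div_iff₀ hR]; linarith) hRR
  set Q := ⌊R * N⌋₊
  have hQ : 0 < Q := Nat.floor_pos.2 hRN
  obtain ⟨q, hq1, hq2⟩ := Real.exists_rat_abs_sub_le_and_den_le (γ * M) hQ
  set d := q.den with hd
  set a := q.num with ha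
  have hd1 : 1 ≤ d := q.den_pos
  have hd0 : (0:ℝ) < d := by exact_mod_cast hd1
  have hdR : (d:ℝ) ≤ R * N := le_trans (Nat.cast_le.2 hq2) (Nat.floor_le (by positivity))
  have hco : IsCoprime (d:ℤ) a := by
    rw [Int.isCoprime_iff_nat_coprime]; simpa [hd, ha] using q.reduced.symm
  have happ : |(d:ℝ) * (γ * M) - a| ≤ 1 / (R * N) := by
    rw [Rat.cast_def, ← hd, ← ha] at hq1
    have h := mul_le_mul_of_nonneg_left hq1 hd0.le
    rw [← abs_of_pos hd0, ← abs_mul, abs_of_pos hd0, mul_sub, mul_div_cancel₀ _ hd0.ne'] at h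
    refine h.trans ?_
    have e : (d:ℝ) * (1 / (((Q:ℝ) + 1) * d)) = 1 / ((Q:ℝ) + 1) := by field_simp
    rw [e]
    exact one_div_le_one_div_of_le (by positivity) (Nat.lt_floor_add_one _).le
  have hscan : ∀ V ∈ s, 1 ≤ V ∧ V ≤ N ∧ ∃ z : ℤ, |(z:ℝ) + γ * M * V - γ * w| < t := fun V hV => by
    obtain ⟨h1, h2, -, k, hk, -⟩ := hs V hV
    refine ⟨h1, h2, k, ?_⟩
    push_cast at hk
    rw [show (k:ℝ) + γ * M * V - γ * w = (k:ℝ) + γ * ((M:ℝ) * V - w) by ring]; exact hk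
  set B := (sel γ l).1
  have hgm : 0 ≤ (Nat.gcd B M : ℝ) * min ((N:ℝ) / B) (4 * t * U / M) := by
    have : 0 ≤ U := le_trans (by positivity) hMU
    positivity
  have htN : t * N ≤ R * N := mul_le_mul_of_nonneg_right htρ hN0.le
  have htRR : t / R ≤ R * N := le_trans (div_le_div_of_nonneg_right (htρ.trans hR1) hR.le) hRR
  rcases le_or_gt (1 / R) (d:ℝ) with hdbig | hdsmall
  · -- minor arcs
    have h := Wide.count_minor (γ * M) (γ * w) t ht.le N d a hd1 (R * N) hdR (mul_le_of_le_one_left hN0.le hR1)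
      hco happ s hscan
    have h1 : (N:ℝ) / d ≤ R * N := by
      rw [div_le_iff₀ hd0]
      rw [div_le_iff₀ hR] at hdbig
      have := mul_le_mul_of_nonneg_left hdbig hN0.le
      linarith
    have h2 : 4 * (N:ℝ) / (R * N) = 4 * (1 / R) := by field_simp
    rw [h2] at h
    linarith
  set ε := |(d:ℝ) * (γ * M) - a|
  rcases lt_or_ge (t / (R * N)) ε with heb | hes
  · -- a moderate error
    have he0 : 0 < ε := lt_of_le_of_lt (by positivity) heb
    have h := arc_count (γ * M) (γ * w) t ht.le N d a hd1 hco he0 s hscan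
    have e1 : t / ε ≤ R * N := by
      rw [div_le_iff₀ he0]
      rw [div_lt_iff₀ (by positivity)] at heb
      linarith
    have e2 : (N:ℝ) * ε ≤ 1 / R := by
      refine (mul_le_mul_of_nonneg_left happ hN0.le).trans (le_of_eq ?_)
      field_simp
    have e3 : (d:ℝ) * t ≤ 1 / R := by
      refine (mul_le_of_le_one_right hd0.le (htρ.trans hR1)).trans hdsmall.le
    have e4 : (d:ℝ) * t * (t / ε) ≤ R * N := by
      refine (mul_le_mul_of_nonneg_left e1 (by positivity)).trans ?_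
      have : (d:ℝ) * R ≤ 1 := by rw [lt_div_iff₀ hR] at hdsmall; linarith
      have h5 := mul_le_mul_of_nonneg_right this (by positivity : 0 ≤ t * N)
      linarith
    have e5 : (N:ℝ) * ε * (t / ε) = t * N := by field_simp
    have h6 : (2 * ((d:ℝ) * t + (N:ℝ) * ε) + 1) * (2 * t / ε + 1)
        = 4 * ((d:ℝ) * t * (t / ε)) + 4 * ((N:ℝ) * ε * (t / ε)) + 2 * (t / ε)
          + 2 * ((d:ℝ) * t) + 2 * ((N:ℝ) * ε) + 1 := by ring
    rw [h6, e5] at h
    linarith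
  · -- the exceptional fraction
    set q' : ℚ := (a:ℚ) / ((d * M : ℕ):ℚ)
    set B' := q'.den
    set A' := q'.num
    have hdM : 0 < d * M := Nat.mul_pos hd1 hM
    have hden : B' ≤ d * M := by
      have h : ((q'.den : ℕ):ℤ) ∣ ((d * M : ℕ):ℤ) := by
        have e : q' = ((a:ℤ):ℚ) / (((d * M : ℕ):ℤ):ℚ) := by simp [q']
        rw [e, ← Rat.divInt_eq_div]
        exact Rat.den_dvd a _
      exact Nat.le_of_dvd hdM (Int.natCast_dvd_natCast.1 h)
    have hB'0 : (0:ℝ) < B' := by exact_mod_cast q'.den_pos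
    have hcast : (A':ℝ) / B' = (a:ℝ) / ((d:ℝ) * M) := by
      have h : ((q':ℚ):ℝ) = (a:ℝ) / ((d:ℝ) * M) := by simp [q']
      rw [← h, Rat.cast_def]
    have herr : |(B':ℝ) * γ - A'| ≤ ε := by
      have e : (B':ℝ) * γ - A' = ((B':ℝ) / ((d:ℝ) * M)) * ((d:ℝ) * (γ * M) - a) := by
        rw [div_eq_iff hB'0.ne'] at hcast
        rw [hcast]; field_simp
      rw [e, abs_mul, abs_of_pos (by positivity : 0 < (B':ℝ) / ((d:ℝ) * M))]
      refine mul_le_of_le_one_left (abs_nonneg _) ?_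
      rw [div_le_one (by positivity)]
      exact_mod_cast hden
    have hB'K : (B':ℝ) ≤ K0 * ρ ^ 3 := by
      have h1 : (B':ℝ) ≤ (d:ℝ) * M := by exact_mod_cast hden
      have h2 := mul_le_mul hdsmall.le hMK hM0.le (by positivity)
      refine (h1.trans h2).trans (le_of_eq ?_)
      rw [hRdef]; field_simp
    have hρ3 : ρ ^ 3 ≤ 1 := pow_le_one₀ hρ.le hρ1
    have hrhs : t / (R * N) ≤ K0 * ρ ^ 2 / Y := by
      rw [div_le_div_iff₀ (by positivity) hY0]
      have h1 : ρ * t * Y ≤ K0 * ρ ^ 5 * N := hbig.trans (mul_le_mul_of_nonneg_right hMK hN0.le)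
      refine le_of_mul_le_mul_left ?_ hρ
      rw [hRdef]; linarith
    have hsel : sel γ l = (B', A') := by
      refine sel_eq ⟨q'.den_pos, ?_, ?_, ?_⟩
      · rw [Int.isCoprime_iff_nat_coprime]; simpa [B', A'] using q'.reduced.symm
      · exact (hB'K.trans (mul_le_of_le_one_right hK0.le hρ3)).trans hKh
      · refine (herr.trans (hes.trans hrhs)).trans ?_
        rw [div_le_iff₀ hY0]
        refine (mul_le_of_le_one_right hK0.le hR1).trans (hKh.trans (le_of_eq ?_))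
        rw [div_mul_eq_mul_div, hY, ← Real.exp_add]; ring_nf
    have h := major_count γ t ht.le (sel γ l) (sel_spec γ l).1 (sel_spec γ l).2 M N hM w U hMU s hs
    simp only [B] at hgm ⊢
    rw [hsel] at h hgm ⊢
    simp only at h hgm ⊢
    -- both error terms are small
    have k1 : (B':ℝ) * t ≤ R * N * 1 := by
      have h1 : (B':ℝ) ≤ (1 / R) * M := by
        refine le_trans (by exact_mod_cast hden : (B':ℝ) ≤ (d:ℝ) * M) ?_
        exact mul_le_mul_of_nonneg_right hdsmall.le hM0.le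
      have h3 : (M:ℝ) * t ≤ R * R * N := by
        have hK2 : K0 * K0 ≤ Y / 4 := by
          have := mul_le_mul hKh hKh hK0.le (by positivity)
          rw [show Real.exp (l / 2) / 2 * (Real.exp (l / 2) / 2) = Y / 4 by
            rw [hY, div_mul_div_comm, ← Real.exp_add]; ring_nf] at this
          exact this
        refine le_of_mul_le_mul_left ?_ (mul_pos hρ hM0)
        calc ρ * (M:ℝ) * ((M:ℝ) * t) = ρ * t * ((M:ℝ) * M) := by ring
          _ ≤ ρ * t * ((K0 * ρ ^ 5) * (K0 * ρ ^ 5)) :=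
              mul_le_mul_of_nonneg_left (mul_le_mul hMK hMK hM0.le (by positivity)) (by positivity)
          _ = ρ ^ 5 * ρ ^ 5 * ρ * t * (K0 * K0) := by ring
          _ ≤ ρ ^ 5 * 1 * ρ * t * (Y / 4) := by
              gcongr
              exact pow_le_one₀ hρ.le hρ1
          _ ≤ ρ ^ 5 * (ρ * t * Y) := by
              have : 0 ≤ ρ ^ 5 * (ρ * t * Y) := by positivity
              linarith
          _ ≤ ρ ^ 5 * ((M:ℝ) * N) := mul_le_mul_of_nonneg_left hbig (hρk 5).le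
          _ = _ := by rw [hRdef]; ring
      rw [mul_one]
      have := mul_le_mul_of_nonneg_right h1 ht.le
      refine this.trans ?_
      rw [one_div, mul_assoc, inv_mul_le_iff₀ hR]; linarith
    have k2 : (M:ℝ) * N * |(B':ℝ) * γ - A'| ≤ (M:ℝ) * t / R := by
      refine (mul_le_mul_of_nonneg_left (herr.trans hes) (by positivity)).trans (le_of_eq ?_)
      field_simp
    have k3 : (M:ℝ) * t / R ≤ R * N := by
      rw [div_le_iff₀ hR]
      refine le_of_mul_le_mul_left ?_ (mul_pos hρ hM0)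
      calc ρ * (M:ℝ) * ((M:ℝ) * t) = (M:ℝ) * (M:ℝ) * (ρ * t) := by ring
        _ ≤ (M:ℝ) * (K0 * ρ ^ 5) * (ρ * t) := by gcongr
        _ ≤ (K0 * ρ ^ 5) * (K0 * ρ ^ 5) * (ρ * t) := by gcongr
        _ ≤ ρ ^ 5 * ρ ^ 5 * (Real.exp (l / 2) / 2 * (Real.exp (l / 2) / 2)) * (ρ * t) := by
            rw [show (K0 * ρ ^ 5) * (K0 * ρ ^ 5) = ρ ^ 5 * ρ ^ 5 * (K0 * K0) by ring]
            gcongr
        _ = ρ ^ 5 * (ρ * t * Y) * (ρ ^ 5 / 4) := by
            rw [hY, show Real.exp l = Real.exp (l/2) * Real.exp (l/2) by rw [← Real.exp_add]; ring_nf]; ring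
        _ ≤ ρ ^ 5 * ((M:ℝ) * N) * 1 := by
            gcongr
            have : ρ ^ 5 ≤ 1 := pow_le_one₀ hρ.le hρ1
            linarith
        _ = _ := by rw [hRdef]; ring
    linarith

end Vale.Agent.P028.Div
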