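import Vale.Agent.P028.Wide.Overlap

namespace Vale.Agent.P028.Div

open Finset
open scoped Classical
open Vale.Agent.P028.Wide (xw pinv pinv_split pinv_big_le pinv_small_le pinv_nonneg sum_inv_Ioc)

/-- The primes of one binary block have a small reciprocal sum. -/
lemma dyadic_prime_sum {k : ℕ} (hk : 1 ≤ k) (S : Finset ℕ)
    (hS : ∀ p ∈ S, p.Prime ∧ 2 ^ k ≤ p ∧ p < 2 ^ (k + 1)) :
    ∑ p ∈ S, 1 / (p:ℝ) ≤ 4 / (k:ℝ) := by
  have h1 : (2 ^ k) ^ S.card ≤ ∏ p ∈ S, p := by
    rw [← Finset.prod_const]; exact Finset.prod_le_prod' fun p hp => (hS p hp).2.1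
  have h2 : ∏ p ∈ S, p ≤ primorial (2 ^ (k + 1)) := by
    refine Finset.prod_le_prod_of_subset_of_one_le' (fun p hp => ?_) fun p hp _ => ?_
    · exact Finset.mem_filter.2 ⟨Finset.mem_range.2 (by have := (hS p hp).2.2; omega), (hS p hp).1⟩
    · exact (Finset.mem_filter.1 hp).2.one_le
  have h3 := (h1.trans h2).trans (primorial_le_four_pow _)
  rw [← pow_mul, show 4 ^ (2 ^ (k + 1)) = 2 ^ (2 * 2 ^ (k + 1)) by rw [pow_mul]; norm_num] at h3
  have h4 : k * S.card ≤ 2 * 2 ^ (k + 1) := (Nat.pow_le_pow_iff_right (by norm_num)).1 h3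
  have h5 : (k:ℝ) * S.card ≤ 4 * (2:ℝ) ^ k := by
    have : ((k * S.card : ℕ):ℝ) ≤ ((2 * 2 ^ (k + 1) : ℕ):ℝ) := Nat.cast_le.2 h4
    push_cast at this
    rw [pow_succ] at this
    linarith
  refine (Finset.sum_le_card_nsmul _ _ (1 / (2:ℝ) ^ k) fun p hp => ?_).trans ?_
  · exact one_div_le_one_div_of_le (by positivity) (by exact_mod_cast (hS p hp).2.1)
  · rw [nsmul_eq_mul, mul_one_div, div_le_div_iff₀ (by positivity) (by exact_mod_cast hk)]
    linarith

/-- Few primes above `W` have a small reciprocal sum. -/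
lemma xw_prime_le {W R : ℝ} {n : ℕ} (S : Finset ℕ) (hS : ∀ p ∈ S, p.Prime) (hn : S.card ≤ n)
    (hW : 2 ≤ W) (hR : 1 ≤ R) (hnR : Real.log n ≤ R * Real.log W) :
    xw W S ≤ 5 + 4 * Real.log (2 * R) := by
  have hl2 : 0 ≤ Real.log (2 * R) := Real.log_nonneg (by linarith)
  set k0 := Nat.log 2 ⌊W⌋₊
  set K := Nat.log 2 n
  have hk0 : 1 ≤ k0 := Nat.le_log_of_pow_le one_lt_two (by
    simpa using (Nat.le_floor (show ((2:ℕ):ℝ) ≤ W by exact_mod_cast hW)))
  unfold xw
  set T := S.filter (fun p : ℕ => W < p)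
  have hT : ∀ p ∈ T, p.Prime ∧ W < p := fun p hp =>
    ⟨hS p (Finset.mem_filter.1 hp).1, (Finset.mem_filter.1 hp).2⟩
  rw [← Finset.sum_filter_add_sum_filter_not T (fun p => p ≤ n)]
  have hbig : ∑ p ∈ T.filter (fun p => ¬ p ≤ n), 1 / (p:ℝ) ≤ 1 := by
    rcases Nat.eq_zero_or_pos n with h0 | h0
    · have : T.filter (fun p => ¬ p ≤ n) = ∅ := Finset.eq_empty_iff_forall_notMem.2 fun p hp => by
        have h := Finset.card_pos.2 ⟨p, (Finset.mem_filter.1 (Finset.mem_filter.1 hp).1).1⟩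
        omega
      rw [this]; simp
    refine (Finset.sum_le_card_nsmul _ _ (1 / (n:ℝ)) fun p hp => ?_).trans ?_
    · exact one_div_le_one_div_of_le (by exact_mod_cast h0)
        (by exact_mod_cast (not_le.1 (Finset.mem_filter.1 hp).2).le)
    · rw [nsmul_eq_mul, mul_one_div, div_le_one (by exact_mod_cast h0)]
      exact Nat.cast_le.2 (le_trans (le_trans (Finset.card_filter_le _ _) (Finset.card_filter_le _ _)) hn)
  set Ts := T.filter (fun p => p ≤ n)
  have hmap : ∀ p ∈ Ts, Nat.log 2 p ∈ Finset.Icc k0 K := fun p hp => by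
    obtain ⟨h1, h2⟩ := Finset.mem_filter.1 hp
    exact Finset.mem_Icc.2 ⟨Nat.log_mono_right (Nat.floor_le_of_le (hT p h1).2.le), Nat.log_mono_right h2⟩
  have hsmall : ∑ p ∈ Ts, 1 / (p:ℝ) ≤ 4 * (1 + Real.log (2 * R)) := by
    rw [← Finset.sum_fiberwise_of_maps_to hmap]
    refine (Finset.sum_le_sum (g := fun k : ℕ => 4 * (1 / (k:ℝ))) fun k hk => ?_).trans ?_
    · have hk1 : 1 ≤ k := le_trans hk0 (Finset.mem_Icc.1 hk).1
      rw [mul_one_div]
      refine dyadic_prime_sum hk1 _ fun p hp => ?_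
      obtain ⟨h1, h2⟩ := Finset.mem_filter.1 hp
      have hpr := (hT p (Finset.mem_filter.1 h1).1).1
      subst h2
      exact ⟨hpr, Nat.pow_log_le_self 2 hpr.ne_zero, Nat.lt_pow_succ_log_self one_lt_two p⟩
    rw [← Finset.mul_sum]
    refine mul_le_mul_of_nonneg_left ?_ (by norm_num)
    rcases Nat.lt_or_ge K k0 with hlt | hge
    · rw [Finset.Icc_eq_empty (by omega), Finset.sum_empty]; linarith
    rw [← Finset.Ioc_insert_left hge, Finset.sum_insert Finset.left_notMem_Ioc]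
    have h1 : 1 / (k0:ℝ) ≤ 1 := by
      rw [div_le_one (by exact_mod_cast hk0)]; exact_mod_cast hk0
    have h2 := sum_inv_Ioc hk0 hge
    have hk0r : (0:ℝ) < k0 := by exact_mod_cast hk0
    have hKr : (0:ℝ) < K := by exact_mod_cast lt_of_lt_of_le hk0 hge
    rw [← Real.log_div hKr.ne' hk0r.ne'] at h2
    have h3 : Real.log ((K:ℝ) / k0) ≤ Real.log (2 * R) := by
      refine Real.log_le_log (by positivity) ?_
      rw [div_le_iff₀ hk0r]
      have hlt2 : (0:ℝ) < Real.log 2 := Real.log_pos (by norm_num)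
      have hK : (K:ℝ) * Real.log 2 ≤ Real.log n := by
        rw [← Real.log_pow]
        refine Real.log_le_log (by positivity) ?_
        exact_mod_cast Nat.pow_log_le_self 2 (fun h => by simp [K, h] at hKr)
      have hW2 : Real.log W ≤ ((k0:ℝ) + 1) * Real.log 2 := by
        have : Real.log W ≤ Real.log ((2:ℝ) ^ (k0 + 1)) := by
          refine Real.log_le_log (by linarith) ((Nat.lt_floor_add_one W).le.trans ?_)
          exact_mod_cast Nat.lt_pow_succ_log_self one_lt_two ⌊W⌋₊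
        rw [Real.log_pow] at this; push_cast at this; exact this
      have : (k0:ℝ) + 1 ≤ 2 * k0 := by
        have : (1:ℝ) ≤ k0 := by exact_mod_cast hk0
        linarith
      have h5 : (K:ℝ) * Real.log 2 ≤ (2 * R * k0) * Real.log 2 :=
        calc (K:ℝ) * Real.log 2 ≤ R * Real.log W := hK.trans hnR
          _ ≤ R * ((2 * k0) * Real.log 2) := mul_le_mul_of_nonneg_left
              (hW2.trans (mul_le_mul_of_nonneg_right this hlt2.le)) (by linarith)
          _ = _ := by ring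
      exact le_of_mul_le_mul_right h5 hlt2
    linarith
  linarith

/-- The density of few primes above `W`. -/
lemma pinv_prime_big {W R : ℝ} {n : ℕ} (S : Finset ℕ) (hS : ∀ p ∈ S, p.Prime) (hn : S.card ≤ n)
    (hW : 2 ≤ W) (hR : 1 ≤ R) (hnR : Real.log n ≤ R * Real.log W) :
    pinv (S.filter fun p : ℕ => W < p) ≤ Real.exp 10 * (2 * R) ^ 8 := by
  refine (pinv_big_le W S fun p hp => (hS p hp).two_le).trans ?_
  refine (Real.exp_le_exp.2 (mul_le_mul_of_nonneg_left (xw_prime_le S hS hn hW hR hnR) zero_le_two)).trans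
    (le_of_eq ?_)
  rw [show 2 * (5 + 4 * Real.log (2 * R)) = 10 + ((8:ℕ):ℝ) * Real.log (2 * R) by push_cast; ring,
    Real.exp_add, Real.exp_nat_mul, Real.exp_log (by linarith)]

/-- The polylogarithmic loss attached to `x` primes. -/
noncomputable def PL (x : ℝ) : ℝ := 3 * Real.exp 10 * (2 * (1 + 2 * Real.log (2 + x))) ^ 8

lemma one_le_PL {x : ℝ} (hx : 0 ≤ x) : 1 ≤ PL x := by
  have hl : 0 ≤ Real.log (2 + x) := Real.log_nonneg (by linarith)
  unfold PL
  refine one_le_mul_of_one_le_of_one_le (one_le_mul_of_one_le_of_one_le (by norm_num) ?_)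
    (one_le_pow₀ (by linarith))
  exact Real.one_le_exp (by norm_num)

lemma PL_mono {x y : ℝ} (hx : 0 ≤ x) (h : x ≤ y) : PL x ≤ PL y := by
  have h1 : 0 ≤ Real.log (2 + x) := Real.log_nonneg (by linarith)
  have h2 : Real.log (2 + x) ≤ Real.log (2 + y) := Real.log_le_log (by linarith) (by linarith)
  unfold PL
  exact mul_le_mul_of_nonneg_left (pow_le_pow_left₀ (by linarith) (by linarith) 8)
    (by have := Real.exp_pos 10; linarith)

/-- A set of at most `x` primes has a polylogarithmic inverse density. -/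
lemma pinv_le_PL (S : Finset ℕ) (hS : ∀ p ∈ S, p.Prime) {x : ℝ} (hx : (S.card:ℝ) ≤ x) :
    pinv S ≤ PL x := by
  have hx0 : 0 ≤ x := le_trans (Nat.cast_nonneg _) hx
  have hl2 : Real.log 2 ≤ Real.log (2 + x) := Real.log_le_log (by norm_num) (by linarith)
  have h2 := Real.log_two_gt_d9
  have hlog : Real.log (S.card:ℕ) ≤ Real.log (2 + x) := by
    rcases Nat.eq_zero_or_pos S.card with h | h
    · rw [h, Nat.cast_zero, Real.log_zero]; linarith
    · exact Real.log_le_log (by exact_mod_cast h) (by linarith)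
  have hS2 : ∀ p ∈ S, 2 ≤ p := fun p hp => (hS p hp).two_le
  rw [pinv_split S (fun p : ℕ => (p:ℝ) ≤ 2), PL, mul_assoc 3]
  refine mul_le_mul ?_ ?_ (pinv_nonneg fun p hp => hS2 p (Finset.mem_filter.1 hp).1) (by norm_num)
  · refine (pinv_small_le zero_le_two _ (fun p hp => hS2 p (Finset.mem_filter.1 hp).1)
      fun p hp => (Finset.mem_filter.1 hp).2).trans (by norm_num)
  · simp only [not_le]
    refine pinv_prime_big S hS le_rfl le_rfl (by linarith) (hlog.trans ?_)
    have : 0 ≤ Real.log (2 + x) * (2 * Real.log 2 - 1) := mul_nonneg (by linarith) (by linarith)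
    linarith

end Vale.Agent.P028.Div
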