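import Vale.Agent.P028.Div.State
import Vale.Agent.P028.Div.PrimeSum

namespace Vale.Agent.P028.Div

open Finset
open scoped Classical

/-- The weighted mass of a set of denominators. -/
noncomputable def Mass (F : Finset ℕ) (ψ : ℕ → ℝ) : ℝ := ∑ q ∈ F, lam q * ψ q

/-- The edge mass. -/
noncomputable def Emass (E : Finset (ℕ × ℕ)) (ψ : ℕ → ℝ) : ℝ :=
  ∑ x ∈ E, (lam x.1 * ψ x.1) * (lam x.2 * ψ x.2)

/-- The pairs of one dyadic scale inside a block. -/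
structure Fib (k : ℕ) (γ l t : ℝ) (ψ : ℕ → ℝ) (F : Finset ℕ) (E : Finset (ℕ × ℕ)) : Prop where
  hl : 1 ≤ l
  hγ : |γ| ≤ Real.exp l
  ht : 0 < t
  nn : ∀ q, 0 ≤ ψ q
  blk : ∀ q ∈ F, InBlk k l ψ q
  sub : ∀ x ∈ E, x.1 ∈ F ∧ x.2 ∈ F
  ok : ∀ x ∈ E, EdgeOK k γ l t ψ x
  low : ∀ x ∈ E, t / 2 ≤ tt ψ x.1 x.2

/-- The exponent of the geometric saving. -/
noncomputable def kap (k : ℕ) : ℝ := 1 / (1000 * (k:ℝ))

/-- The number of primes that can matter for one pair. -/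
noncomputable def Xl (l t : ℝ) : ℝ := 8 * (l + Real.log (2 + t))

variable {k : ℕ} {γ l t : ℝ} {ψ : ℕ → ℝ} {F : Finset ℕ} {E : Finset (ℕ × ℕ)}

lemma Xl_nonneg (hl : 0 ≤ l) (ht : 0 ≤ t) : 0 ≤ Xl l t := by
  have := Real.log_nonneg (by linarith : (1:ℝ) ≤ 2 + t); unfold Xl; linarith

lemma Mass_nonneg (hψ : ∀ q, 0 ≤ ψ q) : 0 ≤ Mass F ψ :=
  Finset.sum_nonneg fun q _ => mul_nonneg (lam_nonneg q) (hψ q)

lemma Emass_nonneg (hψ : ∀ q, 0 ≤ ψ q) : 0 ≤ Emass E ψ :=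
  Finset.sum_nonneg fun x _ =>
    mul_nonneg (mul_nonneg (lam_nonneg _) (hψ _)) (mul_nonneg (lam_nonneg _) (hψ _))

end Vale.Agent.P028.Div
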