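import Vale.Agent.P028.Div.GraphState
import Vale.Agent.P028.Wide.GcdGraph

/-!
# Two gcd graph inequalities with a parameter (P028)
-/

namespace Vale.Agent.P028.Div

open Finset
open scoped Classical
open Wide (mass EE Fx exV bon mass_nonneg EE_nonneg EE_le_mass mass_pos_of_EE_pos
  nonempty_of_EE_pos goodEdges Conf wT wT_nonneg sum_wT_le mu_le_wT nbr_alg)

variable {κ : ℕ} {μ : ℕ → ℝ} {E : Finset (ℕ × ℕ)} {Fc : Finset ℕ}

lemma cgain_div_le (hκ : 2 ≤ κ) (Fc : Finset ℕ) {n : ℕ} (hn : 0 < n) :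
    cgain κ Fc n / n ≤ (n:ℝ) ^ (-gk κ) := by
  have hg := gk_lt_one (show 0 < κ by omega)
  have hnR : (0:ℝ) < n := by exact_mod_cast hn
  rw [div_le_iff₀ hnR, ← Real.rpow_add_one hnR.ne']
  have hprime : ∀ p ∈ n.primeFactors, p.Prime := fun p hp => Nat.prime_of_mem_primeFactors hp
  have e : (n:ℝ) = ∏ p ∈ n.primeFactors, (p:ℝ) ^ n.factorization p := by
    conv_lhs => rw [Wide.eq_pw hprime hn subset_rfl]
    simp [Wide.pw]
  have h2 : cgain κ Fc n ≤ ∏ p ∈ n.primeFactors, ((p:ℝ) ^ n.factorization p) ^ (-gk κ + 1) := by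
    refine Finset.prod_le_prod (fun p _ => by positivity) fun p hp => ?_
    refine Real.rpow_le_rpow_of_exponent_le
      (one_le_pow₀ (by exact_mod_cast (hprime p hp).one_le)) ?_
    have : (2:ℝ) ≤ κ := by exact_mod_cast hκ
    unfold th; split_ifs
    · have : gk κ ≤ 49/100 := by rw [gk, div_le_iff₀ (by positivity)]; linarith
      linarith
    · linarith
  refine h2.trans (le_of_eq ?_)
  rw [Real.finsetProd_rpow _ _ fun p _ => by positivity, ← e]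

lemma cgain_div_le_one (hκ : 2 ≤ κ) (Fc : Finset ℕ) {n : ℕ} (hn : 0 < n) :
    cgain κ Fc n / n ≤ 1 :=
  (cgain_div_le hκ Fc hn).trans (Real.rpow_le_one_of_one_le_of_nonpos
    (by exact_mod_cast hn) (by linarith [gk_nonneg κ]))

lemma cgain_div_le_gcd (κ : ℕ) (Fc : Finset ℕ) {B n : ℕ} (hB : 0 < B) (hn : 0 < n)
    (hBF : B.primeFactors ⊆ Fc) :
    cgain κ Fc n / n ≤ ((Nat.gcd B n : ℕ) : ℝ) ^ (-(19/20 : ℝ)) := by
  have hg := gk_nonneg κ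
  set d := Nat.gcd B n
  have hd : 0 < d := Nat.gcd_pos_of_pos_left _ hB
  have hprime : ∀ p ∈ n.primeFactors, p.Prime := fun p hp => Nat.prime_of_mem_primeFactors hp
  have hsub : d.primeFactors ⊆ n.primeFactors :=
    Nat.primeFactors_mono (Nat.gcd_dvd_right B n) hn.ne'
  have en : (n:ℝ) = ∏ p ∈ n.primeFactors, (p:ℝ) ^ n.factorization p := by
    conv_lhs => rw [Wide.eq_pw hprime hn subset_rfl]
    simp [Wide.pw]
  have ed : (d:ℝ) = ∏ p ∈ n.primeFactors, (p:ℝ) ^ d.factorization p := by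
    conv_lhs => rw [Wide.eq_pw hprime hd hsub]
    simp [Wide.pw]
  have hd' : (0:ℝ) < d := by exact_mod_cast hd
  rw [Real.rpow_neg hd'.le, ← one_div, div_le_div_iff₀ (by exact_mod_cast hn) (by positivity),
    one_mul, en, ed, ← Real.finsetProd_rpow _ _ fun p _ => by positivity]
  unfold cgain
  rw [← Finset.prod_mul_distrib]
  refine Finset.prod_le_prod (fun p _ => by positivity) fun p hp => ?_
  have hp1 : (1:ℝ) ≤ p := by exact_mod_cast (hprime p hp).one_le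
  have hle : d.factorization p ≤ n.factorization p :=
    (Nat.factorization_le_iff_dvd hd.ne' hn.ne').2 (Nat.gcd_dvd_right B n) p
  set v := n.factorization p
  have h1 : (1:ℝ) ≤ (p:ℝ) ^ v := one_le_pow₀ hp1
  by_cases hF : p ∈ Fc
  · calc ((p:ℝ) ^ v) ^ th κ Fc p * ((p:ℝ) ^ d.factorization p) ^ (19/20 : ℝ)
        ≤ ((p:ℝ) ^ v) ^ th κ Fc p * ((p:ℝ) ^ v) ^ (19/20 : ℝ) := mul_le_mul_of_nonneg_left
          (Real.rpow_le_rpow (by positivity) (pow_le_pow_right₀ hp1 hle) (by norm_num)) (by positivity)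
      _ = _ := by
          rw [← Real.rpow_add (by linarith : (0:ℝ) < (p:ℝ) ^ v), th, if_pos hF]; norm_num
  · have h0 : d.factorization p = 0 := Nat.factorization_eq_zero_of_not_dvd fun h =>
      hF (hBF (Nat.mem_primeFactors.2 ⟨hprime p hp, h.trans (Nat.gcd_dvd_left B n), hB.ne'⟩))
    rw [h0, pow_zero, Real.one_rpow, mul_one]
    refine (Real.rpow_le_rpow_of_exponent_le h1 ?_).trans (le_of_eq (Real.rpow_one _))
    unfold th; rw [if_neg hF]; linarith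

/-- The two neighbourhoods of extremal vertices in a structured graph. -/
lemma nbr_product {E : Finset (ℕ × ℕ)} (S : Conf E) {μ ψ : ℕ → ℝ} {Fc V W : Finset ℕ} {t : ℝ}
    (hμ : ∀ x, 0 ≤ μ x) (hψ : ∀ x, 0 ≤ ψ x) (hμψ : ∀ x, μ x ≤ ψ x * lam x)
    (ht : 0 ≤ t)
    (hedge : ∀ x ∈ E, (cv x.1 x.2 : ℝ) * ψ x.1 ≤ t ∧ (cu x.1 x.2 : ℝ) * ψ x.2 ≤ t)
    (hE : 0 < EE μ S.E2 V W)
    (hdegV : ∀ q ∈ V, 0 < μ q →
        (sg κ) * EE μ S.E2 V W / mass μ V ≤ ∑ r ∈ W.filter (fun r => (q, r) ∈ S.E2), μ r)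
    (hdegW : ∀ r ∈ W, 0 < μ r →
        (sg κ) * EE μ S.E2 V W / mass μ W ≤ ∑ q ∈ V.filter (fun q => (q, r) ∈ S.E2), μ q)
    (hgs : cgain κ Fc (S.c * S.e) / ((S.c : ℝ) * S.e) ≤ 1) :
    (sg κ) ^ 2 * EE μ S.E2 V W ^ 2 * cgain κ Fc (S.c * S.e) ≤ 2 * t ^ 2 * (mass μ V * mass μ W) := by
  obtain ⟨hMV, hMW⟩ := mass_pos_of_EE_pos hμ hE
  have hc : (0:ℝ) < S.c := by exact_mod_cast S.hc
  have he : (0:ℝ) < S.e := by exact_mod_cast S.he
  have hg : 0 < cgain κ Fc (S.c * S.e) := Finset.prod_pos fun p hp => by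
    have : (0:ℝ) < p := by exact_mod_cast Nat.pos_of_mem_primeFactors hp
    positivity
  set g := cgain κ Fc (S.c * S.e)
  set gs := g / ((S.c:ℝ) * S.e) with hgsdef
  have hgs0 : 0 < gs := by positivity
  have hG1 : ∀ p ∈ S.G, 1 ≤ p := fun p hp => (S.primeG p hp).one_le
  -- the extremal right vertex
  set W' := W.filter (fun r => 0 < μ r ∧ ∃ q ∈ V, (q, r) ∈ S.E2 ∧ 0 < μ q) with hW'
  have hW'ne : W'.Nonempty := by
    obtain ⟨x, hx, hpos⟩ := Finset.exists_lt_of_sum_lt (f := fun _ => (0:ℝ))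
      (g := fun x : ℕ × ℕ => μ x.1 * μ x.2) (by simpa [EE] using hE)
    obtain ⟨hxE, hx1, hx2⟩ := Finset.mem_filter.1 hx
    have h2 : 0 < μ x.2 := pos_of_mul_pos_right hpos (hμ _)
    exact ⟨x.2, Finset.mem_filter.2 ⟨hx2, h2, x.1, hx1, hxE, pos_of_mul_pos_left hpos (hμ _)⟩⟩
  obtain ⟨r, hr, hrmax⟩ := Finset.exists_max_image W' S.Vf hW'ne
  obtain ⟨hrW, hμr, q0, hq0V, hq0E, -⟩ := Finset.mem_filter.1 hr
  set N := (V.filter (fun q => (q, r) ∈ S.E2)).filter (fun q => 0 < μ q) with hN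
  have hNdeg : (sg κ) * EE μ S.E2 V W / mass μ W ≤ mass μ N := by
    refine (hdegW r hrW hμr).trans (le_of_eq ?_)
    refine (Finset.sum_filter_of_ne fun q _ hne => ?_).symm
    exact lt_of_le_of_ne (hμ q) (Ne.symm hne)
  have hNne : N.Nonempty := by
    refine Finset.nonempty_of_sum_ne_zero (f := μ) (ne_of_gt (lt_of_lt_of_le ?_ hNdeg))
    exact div_pos (mul_pos (sg_pos κ) hE) hMW
  have hNmem : ∀ q ∈ N, q ∈ V ∧ (q, r) ∈ S.E2 ∧ 0 < μ q := fun q hq => by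
    obtain ⟨h1, h2⟩ := Finset.mem_filter.1 hq
    exact ⟨(Finset.mem_filter.1 h1).1, (Finset.mem_filter.1 h1).2, h2⟩
  set Vm := S.Vf r
  have hVm : (1:ℝ) ≤ Vm := by exact_mod_cast (S.right _ hq0E).1
  have hμq : ∀ q ∈ N, μ q ≤ t / ((S.c:ℝ) * Vm) * wT S.G (S.Tl q) := fun q hq => by
    obtain ⟨-, h2, -⟩ := hNmem q hq
    refine mu_le_wT S.primeG (S.left _ h2).2 (hμψ q) (hψ q) (S.lamL (q, r) h2) (by positivity) ?_
    have h := (hedge _ (S.sub h2)).1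
    rw [S.cofV _ h2] at h
    push_cast at h ⊢
    exact h
  -- neighbourhood of a left vertex
  have hNu : ∀ u ∈ N, (sg κ) * EE μ S.E2 V W / mass μ V ≤
      t / ((S.e:ℝ) * S.Uf u) * ∑ r' ∈ (W.filter (fun r' => (u, r') ∈ S.E2)).filter (fun r' => 0 < μ r'),
        wT S.G (S.Tr r') := by
    intro u hu
    obtain ⟨huV, huE, huμ⟩ := hNmem u hu
    have hUu : (1:ℝ) ≤ S.Uf u := by exact_mod_cast (S.left _ huE).1
    refine (hdegV u huV huμ).trans ?_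
    rw [← Finset.sum_filter_of_ne (p := fun r' => 0 < μ r') (fun r' _ hne => lt_of_le_of_ne (hμ r') (Ne.symm hne)),
      Finset.mul_sum]
    refine Finset.sum_le_sum fun r' hr' => ?_
    have h2 := (Finset.mem_filter.1 (Finset.mem_filter.1 hr').1).2
    refine mu_le_wT S.primeG (S.right _ h2).2 (hμψ r') (hψ r') (S.lamR (u, r') h2) (by positivity) ?_
    have h := (hedge _ (S.sub h2)).2
    rw [S.cofU _ h2] at h
    push_cast at h ⊢
    exact h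
  have hVmax : ∀ u ∈ N, ∀ r' ∈ (W.filter (fun r' => (u, r') ∈ S.E2)).filter (fun r' => 0 < μ r'),
      (u, r') ∈ S.E2 ∧ S.Vf r' ≤ Vm := by
    intro u hu r' hr'
    obtain ⟨h1, h2⟩ := Finset.mem_filter.1 hr'
    obtain ⟨h1W, h1E⟩ := Finset.mem_filter.1 h1
    exact ⟨h1E, hrmax r' (Finset.mem_filter.2 ⟨h1W, h2, u, (hNmem u hu).1, h1E, (hNmem u hu).2.2⟩)⟩
  have hfinal : ∀ (u : ℕ) (X Y : ℝ), u ∈ N → 0 ≤ X → 0 ≤ Y →
      mass μ N ≤ 2 * (t / ((S.c:ℝ) * Vm) * X) →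
      (∑ r' ∈ (W.filter (fun r' => (u, r') ∈ S.E2)).filter (fun r' => 0 < μ r'), wT S.G (S.Tr r')) ≤ Y →
      X * Y * gs ≤ 1 * (S.Uf u : ℝ) * Vm →
      (sg κ) ^ 2 * EE μ S.E2 V W ^ 2 * g ≤ 2 * t ^ 2 * (mass μ V * mass μ W) := by
    intro u X Y hu hX hY hmass hY' hXY
    have hUu : (1:ℝ) ≤ S.Uf u := by exact_mod_cast (S.left _ (hNmem u hu).2.1).1
    have h1 := (hNu u hu).trans (mul_le_mul_of_nonneg_left hY' (div_nonneg ht (mul_nonneg he.le (by linarith))))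
    have h2 := hNdeg.trans hmass
    have h := nbr_alg (mul_pos (sg_pos κ) hE).le hMV hMW hc he (by linarith) (by linarith) ht hg.le hY h1 h2 hXY
    rw [mul_one] at h
    rwa [sq, sq, mul_mul_mul_comm]
  have hall : ∀ u ∈ N, (∑ r' ∈ (W.filter (fun r' => (u, r') ∈ S.E2)).filter (fun r' => 0 < μ r'),
      wT S.G (S.Tr r')) ≤ (Vm:ℝ) := fun u hu => by
    refine sum_wT_le hG1 _ Vm S.Vf S.Tr (fun r' hr' => ⟨(S.right _ (hVmax u hu r' hr').1).1, (hVmax u hu r' hr').2⟩)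
      (fun r' hr' => (S.right _ (hVmax u hu r' hr').1).2) fun x hx y hy => ?_
    exact S.injR _ (hVmax u hu x hx).1 _ (hVmax u hu y hy).1
  have hwsum : ∀ (A : Finset ℕ) (M : ℕ), A ⊆ N → (∀ q ∈ A, S.Uf q ≤ M) →
      ∑ q ∈ A, wT S.G (S.Tl q) ≤ (M:ℝ) := fun A M hA hM => by
    refine sum_wT_le hG1 _ M S.Uf S.Tl (fun q hq => ⟨(S.left _ (hNmem q (hA hq)).2.1).1, hM q hq⟩)
      (fun q hq => (S.left _ (hNmem q (hA hq)).2.1).2) fun x hx y hy => ?_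
    exact S.injL _ (hNmem x (hA hx)).2.1 _ (hNmem y (hA hy)).2.1
  have hmassle : ∀ A : Finset ℕ, A ⊆ N → mass μ A ≤ t / ((S.c:ℝ) * Vm) * ∑ q ∈ A, wT S.G (S.Tl q) :=
    fun A hA => by
      rw [Finset.mul_sum]; exact Finset.sum_le_sum fun q hq => hμq q (hA hq)
  obtain ⟨u, hu, humax⟩ := Finset.exists_max_image N S.Uf hNne
  have hA0 : 0 ≤ ∑ q ∈ N, wT S.G (S.Tl q) := Finset.sum_nonneg fun q _ => wT_nonneg hG1 _
  refine hfinal u _ _ hu hA0 (Nat.cast_nonneg Vm) ?_ (hall u hu) ?_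
  · have h := hmassle N subset_rfl
    have : 0 ≤ t / ((S.c:ℝ) * Vm) * ∑ q ∈ N, wT S.G (S.Tl q) := mul_nonneg (by positivity) hA0
    linarith
  · calc _ = (∑ q ∈ N, wT S.G (S.Tl q)) * gs * Vm := mul_right_comm _ _ _
      _ ≤ (S.Uf u : ℝ) * 1 * Vm := mul_le_mul_of_nonneg_right
          (mul_le_mul (hwsum N (S.Uf u) subset_rfl humax) hgs hgs0.le (Nat.cast_nonneg _))
          (Nat.cast_nonneg _)
      _ = _ := by ring

/-- A maximal configuration inside a graph. -/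
lemma exists_max_conf (hκ : 100 ≤ κ) : ∃ (P0 : ℕ) (L : ℝ), 1 ≤ L ∧
    ∀ (μ : ℕ → ℝ) (E : Finset (ℕ × ℕ)) (Fc V0 W0 : Finset ℕ), (∀ x, 0 ≤ μ x) →
      (∀ x ∈ V0 ∪ W0, 0 < x) → (∀ p ∈ Fc, p.Prime) → (∀ p, p.Prime → p < P0 → p ∈ Fc) →
      0 < EE μ E V0 W0 →
      ∃ (S : Conf E) (V W : Finset ℕ), 0 < EE μ S.E2 V W ∧
        EE μ E V0 W0 ^ ee κ ≤ 2 ^ ee κ * L ^ Fc.card
          * (cgain κ Fc (S.c * S.e) * qual κ μ S.E2 V W) * (mass μ V0 * mass μ W0) ^ (ee κ - 1) := by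
  obtain ⟨P0, L, -, hL, hstate⟩ := max_state hκ
  refine ⟨P0, L, hL, fun μ E Fc V0 W0 hμ hpos hFc hsmall h0 => ?_⟩
  have hee := ee_pos κ
  set PP := (V0 ∪ W0).biUnion Nat.primeFactors ∪ Fc
  have hPP : ∀ p ∈ PP, p.Prime := fun p hp => by
    rcases Finset.mem_union.1 hp with h | h
    · obtain ⟨x, -, hx⟩ := Finset.mem_biUnion.1 h; exact Nat.prime_of_mem_primeFactors hx
    · exact hFc p h
  obtain ⟨V, W, bs, hV, hW, hE, hq, hforced, hgood⟩ := hstate μ E Fc PP V0 W0 hμ hPP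
    (fun p hp hlt => hsmall p (hPP p hp) hlt) h0
  obtain ⟨hVn, hWn⟩ := nonempty_of_EE_pos hμ hE
  obtain ⟨S, hS, hgain⟩ := exists_conf (κ := κ) (E := E) (Fc := Fc) (L := L) (bs := bs) hPP (fun x hx => by
    have hx' : x ∈ V0 ∪ W0 := Finset.union_subset_union hV hW hx
    exact ⟨hpos x hx', fun p hp => Finset.mem_union_left _ (Finset.mem_biUnion.2 ⟨x, hx', hp⟩)⟩) hVn hWn
  rw [← hS] at hgood
  refine ⟨S, V, W, by linarith, ?_⟩
  have hbon : ∏ p ∈ PP.filter (fun p => Fx p V ∧ Fx p W), bon Fc L p = L ^ Fc.card := by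
    unfold bon
    rw [← Finset.prod_filter, Finset.prod_const]
    congr 2
    ext p
    simp only [Finset.mem_filter]
    exact ⟨fun h => h.2, fun h => ⟨⟨Finset.mem_union_right _ h, hforced p (Finset.mem_union_right _ h) h⟩, h⟩⟩
  rw [hbon] at hgain
  have hq3 : qual κ μ E V W ≤ 2 ^ ee κ * qual κ μ S.E2 V W := by
    unfold qual
    rw [← mul_div_assoc, ← Real.mul_rpow (by norm_num) (EE_nonneg hμ _ _ _)]
    exact div_le_div_of_nonneg_right (Real.rpow_le_rpow hE.le hgood hee.le)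
      (Real.rpow_nonneg (mul_nonneg (mass_nonneg hμ V) (mass_nonneg hμ W)) _)
  have hchain : qual κ μ E V0 W0
      ≤ 2 ^ ee κ * L ^ Fc.card * (cgain κ Fc (S.c * S.e) * qual κ μ S.E2 V W) := by
    calc qual κ μ E V0 W0 ≤ qual κ μ E V W * (L ^ Fc.card * cgain κ Fc (S.c * S.e)) := by
          rw [← hgain]; exact hq
      _ ≤ 2 ^ ee κ * qual κ μ S.E2 V W * (L ^ Fc.card * cgain κ Fc (S.c * S.e)) :=
          mul_le_mul_of_nonneg_right hq3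
            (mul_nonneg (pow_nonneg (by linarith) _) (cgain_pos κ Fc _).le)
      _ = _ := by ring
  obtain ⟨h0V, h0W⟩ := mass_pos_of_EE_pos hμ h0
  exact (div_le_iff₀ (Real.rpow_pos_of_pos (mul_pos h0V h0W) _)).1 hchain

/-- The graph inequality with the edge mass bounded on every configuration. -/
theorem edge_graph (κ : ℕ) (hκ : 100 ≤ κ) : ∃ (P0 : ℕ) (C L : ℝ), 0 < C ∧ 1 ≤ L ∧
    ∀ (μ : ℕ → ℝ) (E : Finset (ℕ × ℕ)) (Fc V0 W0 : Finset ℕ) (Γ : ℝ),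
      (∀ x, 0 ≤ μ x) → 0 ≤ Γ → (∀ x ∈ V0 ∪ W0, 0 < x) → (∀ p ∈ Fc, p.Prime) →
      (∀ p, p.Prime → p < P0 → p ∈ Fc) →
      (∀ S : Conf E, (∑ x ∈ S.E2, μ x.1 * μ x.2) * cgain κ Fc (S.c * S.e) ≤ Γ) →
      EE μ E V0 W0 ^ ee κ ≤ C * L ^ Fc.card * Γ * (mass μ V0 * mass μ W0) ^ (ee κ - 1) := by
  obtain ⟨P0, L, hL, hmain⟩ := exists_max_conf hκ
  refine ⟨P0, 2 ^ ee κ, L, by positivity, hL, fun μ E Fc V0 W0 Γ hμ hΓ hpos hFc hsmall hS => ?_⟩
  have hMM : 0 ≤ (mass μ V0 * mass μ W0) ^ (ee κ - 1) :=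
    Real.rpow_nonneg (mul_nonneg (mass_nonneg hμ V0) (mass_nonneg hμ W0)) _
  have hcoef : 0 ≤ (2:ℝ) ^ ee κ * L ^ Fc.card :=
    mul_nonneg (by positivity) (pow_nonneg (by linarith) _)
  rcases eq_or_lt_of_le (EE_nonneg hμ E V0 W0) with h0 | h0
  · rw [← h0, Real.zero_rpow (ee_pos κ).ne']
    exact mul_nonneg (mul_nonneg hcoef hΓ) hMM
  obtain ⟨S, V, W, hE, h⟩ := hmain μ E Fc V0 W0 hμ hpos hFc hsmall h0
  refine h.trans (mul_le_mul_of_nonneg_right (mul_le_mul_of_nonneg_left ?_ hcoef) hMM)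
  obtain ⟨hMV, hMW⟩ := mass_pos_of_EE_pos hμ hE
  have hq : qual κ μ S.E2 V W ≤ EE μ S.E2 V W := by
    rw [qual, div_le_iff₀ (Real.rpow_pos_of_pos (mul_pos hMV hMW) _)]
    calc EE μ S.E2 V W ^ ee κ = EE μ S.E2 V W * EE μ S.E2 V W ^ (ee κ - 1) := by
          rw [← Real.rpow_one_add' hE.le (by linarith [ee_pos κ])]; ring_nf
      _ ≤ _ := mul_le_mul_of_nonneg_left
          (Real.rpow_le_rpow hE.le (EE_le_mass hμ _ _ _) (by linarith [two_le_ee κ])) hE.le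
  have hsum : EE μ S.E2 V W ≤ ∑ x ∈ S.E2, μ x.1 * μ x.2 :=
    Finset.sum_le_sum_of_subset_of_nonneg (Finset.filter_subset _ _)
      (fun x _ _ => mul_nonneg (hμ _) (hμ _))
  calc cgain κ Fc (S.c * S.e) * qual κ μ S.E2 V W
      ≤ cgain κ Fc (S.c * S.e) * ∑ x ∈ S.E2, μ x.1 * μ x.2 :=
        mul_le_mul_of_nonneg_left (hq.trans hsum) (cgain_pos κ Fc _).le
    _ ≤ Γ := by rw [mul_comm]; exact hS S

/-- The graph inequality at a scale `t`, with no gain. -/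
theorem graph_sq (κ : ℕ) (hκ : 100 ≤ κ) : ∃ C : ℝ, 0 < C ∧
    ∀ (μ ψ : ℕ → ℝ) (E : Finset (ℕ × ℕ)) (V0 W0 : Finset ℕ) (t : ℝ),
      (∀ x, 0 ≤ μ x) → (∀ x, 0 ≤ ψ x) → (∀ x, μ x ≤ ψ x * lam x) → 0 ≤ t →
      (∀ x ∈ V0 ∪ W0, 0 < x) →
      (∀ x ∈ E, (cv x.1 x.2 : ℝ) * ψ x.1 ≤ t ∧ (cu x.1 x.2 : ℝ) * ψ x.2 ≤ t) →
      EE μ E V0 W0 ^ ee κ ≤ C * t ^ 2 * (mass μ V0 * mass μ W0) ^ (ee κ - 1) := by
  obtain ⟨P0, L, hL, hmain⟩ := exists_max_conf hκ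
  set Fc := (Finset.range P0).filter Nat.Prime with hFcdef
  have hsg := sg_pos κ
  have hcoef : 0 < (2:ℝ) ^ ee κ * L ^ Fc.card := by
    have : 0 < L := by linarith
    positivity
  refine ⟨2 ^ ee κ * L ^ Fc.card * (2 / sg κ ^ 2), by positivity,
    fun μ ψ E V0 W0 t hμ hψ hμψ ht hpos hedge => ?_⟩
  have hMM : 0 ≤ (mass μ V0 * mass μ W0) ^ (ee κ - 1) :=
    Real.rpow_nonneg (mul_nonneg (mass_nonneg hμ V0) (mass_nonneg hμ W0)) _
  rcases eq_or_lt_of_le (EE_nonneg hμ E V0 W0) with h0 | h0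
  · rw [← h0, Real.zero_rpow (ee_pos κ).ne']
    positivity
  obtain ⟨S, V, W, hE, h⟩ := hmain μ E Fc V0 W0 hμ hpos
    (fun p hp => (Finset.mem_filter.1 hp).2)
    (fun p hp hlt => Finset.mem_filter.2 ⟨Finset.mem_range.2 hlt, hp⟩) h0
  refine h.trans (mul_le_mul_of_nonneg_right ?_ hMM)
  rw [mul_assoc (2 ^ ee κ * L ^ Fc.card)]
  refine mul_le_mul_of_nonneg_left ?_ hcoef.le
  obtain ⟨V2, W2, -, -, hE3, hq2, hdV, hdW⟩ := prune (κ := κ) hμ hE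
  have hgs : cgain κ Fc (S.c * S.e) / ((S.c:ℝ) * S.e) ≤ 1 := by
    have := cgain_div_le_one (show 2 ≤ κ by omega) Fc (Nat.mul_pos S.hc S.he)
    push_cast at this
    exact this
  have hprod := nbr_product (κ := κ) S hμ hψ hμψ ht hedge hE3 hdV hdW hgs
  obtain ⟨hM2V, hM2W⟩ := mass_pos_of_EE_pos hμ hE3
  set X := EE μ S.E2 V2 W2
  set M := mass μ V2 * mass μ W2
  have hM : 0 < M := mul_pos hM2V hM2W
  have hqual2 : qual κ μ S.E2 V2 W2 ≤ X ^ 2 / M := by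
    show X ^ ee κ / M ^ (ee κ - 1) ≤ X ^ 2 / M
    rw [show ee κ = 2 + (ee κ - 2) by ring, Real.rpow_add hE3,
      show 2 + (ee κ - 2) - 1 = 1 + (ee κ - 2) by ring,
      Real.rpow_add hM, Real.rpow_one, Real.rpow_two, ← div_mul_div_comm]
    refine mul_le_of_le_one_right (by positivity) ?_
    rw [div_le_one (by positivity)]
    exact Real.rpow_le_rpow hE3.le (EE_le_mass hμ _ _ _) (by linarith [two_le_ee κ])
  calc cgain κ Fc (S.c * S.e) * qual κ μ S.E2 V W ≤ cgain κ Fc (S.c * S.e) * (X ^ 2 / M) :=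
        mul_le_mul_of_nonneg_left (hq2.trans hqual2) (cgain_pos κ Fc _).le
    _ ≤ 2 / sg κ ^ 2 * t ^ 2 := by
        rw [← mul_div_assoc, div_mul_eq_mul_div, div_le_div_iff₀ hM (by positivity)]
        linarith

end Vale.Agent.P028.Div
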