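import Vale.Agent.P028.Div.GraphCells

/-!
# Quality and gain with a parameter (P028)
-/

namespace Vale.Agent.P028.Div

open Finset
open scoped Classical
open Wide (mass EE Fx exV exV_eq Fx_mono bon one_le_bon mass_nonneg EE_nonneg EE_le_mass
  mass_pos_of_EE_pos nonempty_of_EE_pos EE_zero_of_mass_zero cellV cellV_subset Fx_cellV
  goodEdges pw pw_pos factorization_pw Conf)

variable {κ : ℕ} {μ : ℕ → ℝ} {E : Finset (ℕ × ℕ)} {Fc PP : Finset ℕ} {L : ℝ}

/-- The slack of the gain exponent at a generic prime. -/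
noncomputable def gk (κ : ℕ) : ℝ := 98 / (100 * (κ:ℝ))

lemma gk_nonneg (κ : ℕ) : 0 ≤ gk κ := by unfold gk; positivity

lemma gk_lt_one (hκ : 0 < κ) : gk κ < 1 := by
  have : (1:ℝ) ≤ κ := by exact_mod_cast hκ
  rw [gk, div_lt_one (by positivity)]; linarith

/-- The quality of a pair of vertex sets. -/
noncomputable def qual (κ : ℕ) (μ : ℕ → ℝ) (E : Finset (ℕ × ℕ)) (V W : Finset ℕ) : ℝ :=
  EE μ E V W ^ (ee κ) / (mass μ V * mass μ W) ^ ((ee κ) - 1)

/-- The exponent of the gain at a prime. -/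
noncomputable def th (κ : ℕ) (Fc : Finset ℕ) (p : ℕ) : ℝ := if p ∈ Fc then 1/20 else 1 - gk κ

lemma th_pos (hκ : 0 < κ) (Fc : Finset ℕ) (p : ℕ) : 0 < th κ Fc p := by
  have := gk_lt_one hκ
  unfold th; split_ifs <;> linarith

/-- The gain collected at the primes with constant exponents. -/
noncomputable def gain (κ : ℕ) (Fc : Finset ℕ) (L : ℝ) (PP V W : Finset ℕ) : ℝ :=
  ∏ p ∈ PP, if Fx p V ∧ Fx p W then bon Fc L p * ((p:ℝ) ^ Nat.dist (exV p V) (exV p W)) ^ th κ Fc p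
    else 1


lemma one_le_pow_th (hκ : 0 < κ) {p : ℕ} (hp : 1 ≤ p) (d : ℕ) : (1:ℝ) ≤ ((p:ℝ) ^ d) ^ th κ Fc p :=
  Real.one_le_rpow (one_le_pow₀ (by exact_mod_cast hp)) (th_pos hκ Fc p).le

lemma one_le_factor (hκ : 0 < κ) (hL : 1 ≤ L) {p : ℕ} (hp : 1 ≤ p) (V W : Finset ℕ) :
    1 ≤ if Fx p V ∧ Fx p W then bon Fc L p * ((p:ℝ) ^ Nat.dist (exV p V) (exV p W)) ^ th κ Fc p
      else 1 := by
  split_ifs
  · exact one_le_mul_of_one_le_of_one_le (one_le_bon hL p) (one_le_pow_th hκ hp _)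
  · exact le_rfl

lemma one_le_gain (hκ : 0 < κ) (hL : 1 ≤ L) (hPP : ∀ p ∈ PP, 1 ≤ p) (V W : Finset ℕ) :
    1 ≤ gain κ Fc L PP V W := by
  unfold gain
  exact Finset.one_le_prod fun p hp => one_le_factor hκ hL (hPP p hp) V W

lemma factor_mono (hκ : 0 < κ) (hL : 1 ≤ L) {p : ℕ} (hp : 1 ≤ p) {V W V' W' : Finset ℕ} (hV : V' ⊆ V) (hW : W' ⊆ W)
    (hVn : V'.Nonempty) (hWn : W'.Nonempty) :
    (if Fx p V ∧ Fx p W then bon Fc L p * ((p:ℝ) ^ Nat.dist (exV p V) (exV p W)) ^ th κ Fc p else 1)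
    ≤ (if Fx p V' ∧ Fx p W' then bon Fc L p * ((p:ℝ) ^ Nat.dist (exV p V') (exV p W')) ^ th κ Fc p
        else 1) := by
  by_cases h : Fx p V ∧ Fx p W
  · obtain ⟨x, hx⟩ := hVn
    obtain ⟨y, hy⟩ := hWn
    have h' : Fx p V' ∧ Fx p W' := ⟨Fx_mono h.1 hV, Fx_mono h.2 hW⟩
    rw [if_pos h, if_pos h', exV_eq h.1 (hV hx), exV_eq h.2 (hW hy), exV_eq h'.1 hx, exV_eq h'.2 hy]
  · rw [if_neg h]; exact one_le_factor hκ hL hp V' W'

lemma gain_mono (hκ : 0 < κ) (hL : 1 ≤ L) (hPP : ∀ p ∈ PP, 1 ≤ p) {V W V' W' : Finset ℕ} (hV : V' ⊆ V)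
    (hW : W' ⊆ W) (hVn : V'.Nonempty) (hWn : W'.Nonempty) :
    gain κ Fc L PP V W ≤ gain κ Fc L PP V' W' :=
  Finset.prod_le_prod (fun p hp => le_trans zero_le_one (one_le_factor hκ hL (hPP p hp) V W))
    fun p hp => factor_mono hκ hL (hPP p hp) hV hW hVn hWn

lemma qual_nonneg (hμ : ∀ x, 0 ≤ μ x) (V W : Finset ℕ) : 0 ≤ qual κ μ E V W :=
  div_nonneg (Real.rpow_nonneg (EE_nonneg hμ E V W) _)
    (Real.rpow_nonneg (mul_nonneg (mass_nonneg hμ V) (mass_nonneg hμ W)) _)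

lemma qual_pos_iff (hμ : ∀ x, 0 ≤ μ x) {V W : Finset ℕ} : 0 < qual κ μ E V W ↔ 0 < EE μ E V W := by
  constructor
  · intro h
    rcases eq_or_lt_of_le (EE_nonneg hμ E V W) with e | e
    · rw [qual, ← e, Real.zero_rpow (ee_pos κ).ne', zero_div] at h; exact absurd h (lt_irrefl 0)
    · exact e
  · intro h
    obtain ⟨hv, hw⟩ := mass_pos_of_EE_pos hμ h
    unfold qual; positivity

/-- Solving a comparison of qualities for the edge mass. -/
lemma EE_le_of_qual_le {X Y M N R c : ℝ} (hX : 0 ≤ X) (hY : 0 ≤ Y) (hM : 0 < M) (hN : 0 < N)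
    (hR : 0 ≤ R) (hc : 0 < c)
    (h : X ^ (ee κ) / (R * (M * N)) ^ ((ee κ) - 1) * c ≤ Y ^ (ee κ) / (M * N) ^ ((ee κ) - 1)) (hXR : R = 0 → X = 0) :
    X ≤ Y * R ^ (sg κ) * (c⁻¹) ^ (1 / (ee κ)) := by
  rcases eq_or_lt_of_le hR with e | hR'
  · rw [hXR e.symm]; positivity
  have he : 0 < (ee κ) := ee_pos κ
  rw [Real.mul_rpow hR (by positivity)] at h
  have h' : X ^ (ee κ) ≤ Y ^ (ee κ) * R ^ ((ee κ) - 1) * c⁻¹ := by
    rw [le_div_iff₀ (by positivity), div_mul_eq_mul_div, div_mul_eq_mul_div, div_le_iff₀ (by positivity)] at h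
    rw [← div_eq_mul_inv, le_div_iff₀ hc]
    exact le_of_mul_le_mul_right (le_of_le_of_eq h (by ring)) (by positivity : 0 < (M * N) ^ ((ee κ) - 1))
  have h2 := Real.rpow_le_rpow (by positivity) h' (by positivity : 0 ≤ 1 / (ee κ))
  rw [← Real.rpow_mul hX, mul_one_div_cancel he.ne', Real.rpow_one, Real.mul_rpow (by positivity) (by positivity),
    Real.mul_rpow (by positivity) (by positivity), ← Real.rpow_mul hY, mul_one_div_cancel he.ne',
    Real.rpow_one, ← Real.rpow_mul hR] at h2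
  rwa [show ((ee κ) - 1) * (1 / (ee κ)) = (sg κ) by rw [sg]; ring] at h2

lemma inv_pow_th {x : ℝ} (hx : 0 < x) {d : ℕ} {t : ℝ} :
    (((x ^ d) ^ t)⁻¹) ^ (1 / (ee κ)) = (x ^ (-(t / (ee κ)))) ^ d := by
  have h : ((x ^ d) ^ t)⁻¹ = x ^ (-((d:ℝ) * t)) := by
    rw [Real.rpow_neg hx.le, Real.rpow_mul hx.le, Real.rpow_natCast]
  rw [h, ← Real.rpow_mul hx.le, ← Real.rpow_natCast (x ^ (-(t / (ee κ)))) d, ← Real.rpow_mul hx.le]
  congr 1; ring

/-- The cell inequality at a maximal state. -/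
lemma cell_le (hκ : 0 < κ) (hμ : ∀ x, 0 ≤ μ x) (hL : 1 ≤ L) (hPP : ∀ p ∈ PP, 1 ≤ p) {V W : Finset ℕ}
    (hpos : 0 < EE μ E V W)
    (hmax : ∀ V' W', V' ⊆ V → W' ⊆ W →
      qual κ μ E V' W' * gain κ Fc L PP V' W' ≤ qual κ μ E V W * gain κ Fc L PP V W)
    {p : ℕ} (hp : p ∈ PP) (hnf : ¬ (Fx p V ∧ Fx p W)) (i j : ℕ) :
    EE μ E (cellV p V i) (cellV p W j) ≤ EE μ E V W
      * ((mass μ (cellV p V i) / mass μ V) * (mass μ (cellV p W j) / mass μ W)) ^ (sg κ)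
      * ((bon Fc L p)⁻¹ ^ (1 / (ee κ)) * ((p:ℝ) ^ (-(th κ Fc p / (ee κ)))) ^ Nat.dist i j) := by
  obtain ⟨hMV, hMW⟩ := mass_pos_of_EE_pos hμ hpos
  have hp0 : (0:ℝ) < p := by exact_mod_cast hPP p hp
  have hbon : 0 < bon Fc L p := lt_of_lt_of_le one_pos (one_le_bon hL p)
  set V' := cellV p V i with hV'
  set W' := cellV p W j with hW'
  rcases eq_or_lt_of_le (EE_nonneg hμ E V' W') with h0 | h0
  · rw [← h0]
    have := mass_nonneg hμ V'; have := mass_nonneg hμ W'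
    positivity
  obtain ⟨⟨x, hx⟩, ⟨y, hy⟩⟩ := nonempty_of_EE_pos hμ h0
  set c := bon Fc L p * ((p:ℝ) ^ Nat.dist i j) ^ th κ Fc p with hc
  have hcpos : 0 < c := by positivity
  have hg : gain κ Fc L PP V W * c ≤ gain κ Fc L PP V' W' := by
    unfold gain
    rw [← Finset.mul_prod_erase PP _ hp, if_neg hnf, one_mul, ← Finset.mul_prod_erase PP _ hp,
      if_pos ⟨Fx_cellV p V i, Fx_cellV p W j⟩, exV_eq (Fx_cellV p V i) hx, exV_eq (Fx_cellV p W j) hy,
      (Finset.mem_filter.1 hx).2, (Finset.mem_filter.1 hy).2, mul_comm, ← hc]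
    exact mul_le_mul_of_nonneg_left (Finset.prod_le_prod
      (fun q hq => le_trans zero_le_one (one_le_factor hκ hL (hPP q (Finset.mem_of_mem_erase hq)) V W))
      fun q hq => factor_mono hκ hL (hPP q (Finset.mem_of_mem_erase hq)) (cellV_subset p V i)
        (cellV_subset p W j) ⟨x, hx⟩ ⟨y, hy⟩) hcpos.le
  have hq : qual κ μ E V' W' * c ≤ qual κ μ E V W := by
    refine le_of_mul_le_mul_right ?_ (lt_of_lt_of_le one_pos (one_le_gain hκ hL hPP V W) : 0 < gain κ Fc L PP V W)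
    refine le_trans ?_ (hmax V' W' (cellV_subset p V i) (cellV_subset p W j))
    rw [mul_assoc, mul_comm c]
    exact mul_le_mul_of_nonneg_left hg (qual_nonneg hμ V' W')
  have hR : 0 ≤ (mass μ V' / mass μ V) * (mass μ W' / mass μ W) :=
    mul_nonneg (div_nonneg (mass_nonneg hμ _) hMV.le) (div_nonneg (mass_nonneg hμ _) hMW.le)
  have e : (mass μ V' / mass μ V) * (mass μ W' / mass μ W) * (mass μ V * mass μ W)
      = mass μ V' * mass μ W' := by field_simp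
  have h := EE_le_of_qual_le (κ := κ) (X := EE μ E V' W') (Y := EE μ E V W) h0.le hpos.le hMV hMW hR hcpos
    (by rw [e]; exact hq) (fun hz => EE_zero_of_mass_zero hμ (by rw [← e, hz, zero_mul]))
  refine h.trans (le_of_eq ?_)
  rw [hc, mul_inv, Real.mul_rpow (inv_nonneg.2 hbon.le) (inv_nonneg.2 (by positivity)),
    inv_pow_th (κ := κ) hp0]

/-- The gain attached to an integer. -/
noncomputable def cgain (κ : ℕ) (Fc : Finset ℕ) (n : ℕ) : ℝ :=
  ∏ p ∈ n.primeFactors, ((p:ℝ) ^ n.factorization p) ^ th κ Fc p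

lemma cgain_eq {PP : Finset ℕ} (hPP : ∀ p ∈ PP, p.Prime) (Fc : Finset ℕ) (f : ℕ → ℕ) :
    cgain κ Fc (pw PP f) = ∏ p ∈ PP, ((p:ℝ) ^ f p) ^ th κ Fc p := by
  have hsub : (pw PP f).primeFactors ⊆ PP := fun p hp => by
    by_contra h
    have hpr := Nat.prime_of_mem_primeFactors hp
    have := Nat.Prime.factorization_pos_of_dvd hpr (pw_pos hPP f).ne' (Nat.dvd_of_mem_primeFactors hp)
    rw [factorization_pw hPP, if_neg h] at this
    omega
  unfold cgain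
  rw [Finset.prod_subset hsub fun p hp hnot => ?_]
  · exact Finset.prod_congr rfl fun p hp => by rw [factorization_pw hPP, if_pos hp]
  · rw [Nat.factorization_eq_zero_of_not_dvd (fun hd => hnot (Nat.mem_primeFactors.2 ⟨hPP p hp, hd, (pw_pos hPP f).ne'⟩))]
    simp

lemma cgain_pos (κ : ℕ) (Fc : Finset ℕ) (n : ℕ) : 0 < cgain κ Fc n := Finset.prod_pos fun p hp => by
  have : (0:ℝ) < p := by exact_mod_cast Nat.pos_of_mem_primeFactors hp
  positivity

/-- The configuration of a maximal state, for the present exponents. -/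
lemma exists_conf {V W : Finset ℕ} {bs : ℕ → ℕ} (hPP : ∀ p ∈ PP, p.Prime)
    (hpf : ∀ x ∈ V ∪ W, 0 < x ∧ x.primeFactors ⊆ PP) (hVn : V.Nonempty) (hWn : W.Nonempty) :
    ∃ S : Conf E, S.E2 = goodEdges E PP V W bs ∧
      gain κ Fc L PP V W
        = (∏ p ∈ PP.filter (fun p => Fx p V ∧ Fx p W), bon Fc L p) * cgain κ Fc (S.c * S.e) := by
  obtain ⟨S, hS, hg⟩ := Wide.exists_conf (E := E) (Fc := (∅ : Finset ℕ)) (L := (1:ℝ)) (bs := bs)
    hPP hpf hVn hWn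
  refine ⟨S, hS, ?_⟩
  set f := fun p => if Fx p V ∧ Fx p W then Nat.dist (exV p V) (exV p W) else 0 with hf
  have hn : 0 < S.c * S.e := Nat.mul_pos S.hc S.he
  have hsplit : ∀ (t : ℕ → ℝ) (G : Finset ℕ) (M : ℝ),
      (∏ p ∈ PP, if Fx p V ∧ Fx p W then bon G M p * ((p:ℝ) ^ Nat.dist (exV p V) (exV p W)) ^ t p
        else 1) = (∏ p ∈ PP.filter (fun p => Fx p V ∧ Fx p W), bon G M p)
          * ∏ p ∈ PP, ((p:ℝ) ^ f p) ^ t p := by
    intro t G M
    rw [Finset.prod_filter, ← Finset.prod_mul_distrib]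
    refine Finset.prod_congr rfl fun p _ => ?_
    simp only [hf]
    split_ifs <;> simp
  have hpow : ∀ g : ℕ → ℕ,
      ∏ p ∈ PP, ((p:ℝ) ^ g p) ^ (199/200 : ℝ) = ((pw PP g : ℕ) : ℝ) ^ (199/200 : ℝ) := fun g => by
    rw [Real.finsetProd_rpow _ _ fun p _ => by positivity]
    simp [pw]
  have hce : S.c * S.e = pw PP f := by
    have hb : ∀ p, bon (∅ : Finset ℕ) 1 p = 1 := fun p => by simp [bon]
    rw [Wide.gain, hsplit, Finset.prod_congr rfl fun p _ => hb p, Finset.prod_const_one, one_mul,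
      one_mul] at hg
    have hth : ∀ p, Wide.th (∅ : Finset ℕ) p = 199/200 := fun p => by simp [Wide.th]
    simp only [hth] at hg
    rw [hpow, Wide.cgain] at hg
    simp only [hth] at hg
    rw [Real.finsetProd_rpow _ _ fun p _ => by positivity] at hg
    have e : ∏ p ∈ (S.c * S.e).primeFactors, (p:ℝ) ^ (S.c * S.e).factorization p
        = ((S.c * S.e : ℕ) : ℝ) := by
      rw [Nat.prod_primeFactors_prod_factorization] ; exact_mod_cast Nat.prod_factorization_pow_eq_self hn.ne'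
    rw [e] at hg
    have h := (Real.rpow_left_inj (Nat.cast_nonneg _) (Nat.cast_nonneg _) (by norm_num)).1 hg
    exact_mod_cast h.symm
  rw [gain, hsplit, hce, cgain_eq hPP]

end Vale.Agent.P028.Div
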