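import Vale.Agent.P028.Div.Moment
import Vale.Agent.P028.Main

namespace Vale.Agent.P028.Div

open Finset MeasureTheory Filter Topology
open scoped Classical
open Vale.Agent.P028 (cell cell_disjoint volume_real_cell union_lower)

/-- Lower bound for the selected set inside a union of cells, uniformly in the fraction. -/
lemma cells_lower (γ : ℝ) (m : ℕ) (I : Finset ℕ) (hI : ∀ j ∈ I, j < 2 ^ m) :
    ∃ Q : ℕ, ∀ (x : ℕ × ℤ) (ψ : ℕ → ℝ) (q : ℕ), Q ≤ q → 0 ≤ ψ q → 2 * ψ q ≤ 1 →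
      lam q * ψ q * volume.real (⋃ j ∈ I, cell m j) / 2
        ≤ volume.real (SSet x γ ψ q ∩ ⋃ j ∈ I, cell m j) := by
  have hf : ∀ j, volume (cell m j) ≠ ⊤ := fun j => by
    rw [cell, Real.volume_Ico]; exact ENNReal.ofReal_ne_top
  have h : ∀ j : ℕ, ∃ Q : ℕ, j ∈ I → ∀ (x : ℕ × ℤ) (ψ : ℕ → ℝ) (q : ℕ), Q ≤ q → 0 ≤ ψ q → 2 * ψ q ≤ 1 →
      lam q * ψ q * (1 / 2 ^ m) / 2 ≤ volume.real (SSet x γ ψ q ∩ cell m j) := by
    intro j
    by_cases hj : j ∈ I
    swap
    · exact ⟨0, fun h => absurd h hj⟩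
    have hj1 : (j:ℝ) + 1 ≤ 2 ^ m := by exact_mod_cast hI j hj
    obtain ⟨Q, hQ⟩ := cell_lower γ (α := (j:ℝ) / 2 ^ m) (β := ((j:ℝ) + 1) / 2 ^ m) (by positivity)
      (div_lt_div_of_pos_right (by linarith) (by positivity)) (by rw [div_le_one (by positivity)]; exact hj1)
    refine ⟨Q, fun _ x ψ q hq h1 h2 => ?_⟩
    have := hQ x ψ q hq h1 h2
    rw [show ((j:ℝ) + 1) / 2 ^ m - (j:ℝ) / 2 ^ m = 1 / 2 ^ m by ring] at this
    exact this
  choose Q hQ using h
  refine ⟨I.sup Q, fun x ψ q hq h1 h2 => ?_⟩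
  have e1 : volume.real (⋃ j ∈ I, cell m j) = ∑ j ∈ I, (1:ℝ) / 2 ^ m := by
    rw [measureReal_biUnion_finset (cell_disjoint m _) (fun j _ => measurableSet_Ico) (fun j _ => hf j)]
    exact Finset.sum_congr rfl fun j _ => volume_real_cell m j
  have e2 : volume.real (SSet x γ ψ q ∩ ⋃ j ∈ I, cell m j)
      = ∑ j ∈ I, volume.real (SSet x γ ψ q ∩ cell m j) := by
    rw [Set.inter_iUnion₂]
    exact measureReal_biUnion_finset
      (fun a ha b hb hab => ((cell_disjoint m _) ha hb hab).mono Set.inter_subset_right Set.inter_subset_right)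
      (fun j _ => (measurableSet_SSet x γ ψ q).inter measurableSet_Ico)
      (fun j _ => measure_ne_top_of_subset Set.inter_subset_right (hf j))
  rw [e1, e2, Finset.mul_sum, Finset.sum_div]
  exact Finset.sum_le_sum fun j hj => hQ j hj x ψ q (le_trans (Finset.le_sup hj) hq) h1 h2

/-- The points in infinitely many approximation sets. -/
def Lim (γ : ℝ) (ψ : ℕ → ℝ) : Set ℝ :=
  ⋂ N : ℕ, ⋃ q : ℕ, ⋃ (_ : N < q), ⋃ a : ℤ, J γ ψ q a

lemma measurableSet_Lim (γ : ℝ) (ψ : ℕ → ℝ) : MeasurableSet (Lim γ ψ) :=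
  MeasurableSet.iInter fun _ => MeasurableSet.iUnion fun _ => MeasurableSet.iUnion fun _ =>
    MeasurableSet.iUnion fun _ => measurableSet_Ioo

/-- Arbitrarily late blocks of large mass. -/
def Blocks (k : ℕ) (γ l0 : ℝ) (ψ : ℕ → ℝ) : Prop :=
  ∀ N : ℕ, ∃ (F : Finset ℕ) (l : ℝ), (∀ q ∈ F, N < q) ∧ l0 ≤ l ∧ 1 ≤ l ∧ |γ| ≤ Real.exp l ∧
    (∀ q ∈ F, InBlk k l ψ q) ∧ Lg l ^ 50 ≤ Mass F ψ

lemma Lim_lower (k : ℕ) (hk : 100 ≤ k) : ∃ l0 c : ℝ, 0 < c ∧ ∀ (γ : ℝ) (ψ : ℕ → ℝ), (∀ q, 0 ≤ ψ q) →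
    Blocks k γ l0 ψ → ∀ (m : ℕ) (I : Finset ℕ), (∀ j ∈ I, j < 2 ^ m) →
      c * volume.real (⋃ j ∈ I, cell m j) ^ 2 ≤ volume.real (Lim γ ψ ∩ ⋃ j ∈ I, cell m j) := by
  obtain ⟨l0, C, hC, hmom⟩ := block_moment k hk
  refine ⟨l0, 1 / (4 * C), by positivity, fun γ ψ hnn hB m I hI => ?_⟩
  set U := ⋃ j ∈ I, cell m j with hU
  set V := volume.real U with hV
  have hUm : MeasurableSet U := Finset.measurableSet_biUnion _ fun j _ => measurableSet_Ico
  have hUf : volume U ≠ ⊤ :=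
    ((measure_biUnion_finset_le _ _).trans_lt (ENNReal.sum_lt_top.2 fun j _ => by
      rw [cell, Real.volume_Ico]; exact ENNReal.ofReal_lt_top)).ne
  obtain ⟨Q0, hQ0⟩ := cells_lower γ m I hI
  set T := fun N : ℕ => (⋃ q : ℕ, ⋃ (_ : N < q), ⋃ a : ℤ, J γ ψ q a) ∩ U with hT
  have hTm : ∀ N, MeasurableSet (T N) := fun N => (MeasurableSet.iUnion fun _ => MeasurableSet.iUnion fun _ =>
    MeasurableSet.iUnion fun _ => measurableSet_Ioo).inter hUm
  have hanti : Antitone T := by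
    intro N M hNM x hx
    obtain ⟨hx1, hx2⟩ := hx
    obtain ⟨q, h1, hxq⟩ := Set.mem_iUnion₂.1 hx1
    exact ⟨Set.mem_iUnion₂.2 ⟨q, lt_of_le_of_lt hNM h1, hxq⟩, hx2⟩
  have hlow : ∀ N, ENNReal.ofReal (1 / (4 * C) * V ^ 2) ≤ volume (T N) := by
    intro N
    obtain ⟨F, l, hF, hl, hl1, hγ, hblk, hM⟩ := hB (max N Q0)
    set xs := sel γ l
    set K := Mass F ψ
    have hK1 : 1 ≤ K := le_trans (one_le_pow₀ (by linarith [two_le_Lg (l := l) (by linarith)])) hM
    have hhalf : ∀ q ∈ F, 2 * ψ q ≤ 1 := fun q hq => by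
      have : Real.exp (-l) ≤ Real.exp (-1) := Real.exp_le_exp.2 (by linarith)
      have := Real.exp_neg_one_lt_d9
      linarith [(hblk q hq).2.2]
    have hQb : ∑ q ∈ F, ∑ r ∈ F, volume.real ((SSet xs γ ψ q ∩ U) ∩ (SSet xs γ ψ r ∩ U)) ≤ C * K ^ 2 := by
      refine le_trans (Finset.sum_le_sum fun q _ => Finset.sum_le_sum fun r _ => ?_)
        (hmom γ l ψ F hl hγ hnn hblk hM)
      exact measureReal_mono (Set.inter_subset_inter Set.inter_subset_left Set.inter_subset_left)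
        (measure_ne_top_of_subset Set.inter_subset_left (SSet_finite xs γ ψ q))
    have hm : K * V / 2 ≤ ∑ q ∈ F, volume.real (SSet xs γ ψ q ∩ U) := by
      refine le_trans ?_ (Finset.sum_le_sum fun q hq => hQ0 xs ψ q
        (le_trans (le_max_right _ _) (hF q hq).le) (hnn q) (hhalf q hq))
      rw [← Finset.sum_div, ← Finset.sum_mul]
      exact le_rfl
    have hcs := union_lower volume F (fun q => SSet xs γ ψ q ∩ U)
      (fun q _ => (measurableSet_SSet xs γ ψ q).inter hUm)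
      (fun q _ => measure_ne_top_of_subset Set.inter_subset_right hUf)
    have hsub : (⋃ q ∈ F, SSet xs γ ψ q ∩ U) ⊆ T N := by
      refine Set.iUnion₂_subset fun q hq y hy =>
        ⟨Set.mem_iUnion₂.2 ⟨q, lt_of_le_of_lt (le_max_left _ _) (hF q hq), ?_⟩, hy.2⟩
      obtain ⟨a, -, ha⟩ := Set.mem_iUnion₂.1 hy.1
      exact Set.mem_iUnion.2 ⟨a, ha⟩
    refine le_trans ?_ (measure_mono hsub)
    rw [← ofReal_measureReal (measure_ne_top_of_subset (hsub.trans Set.inter_subset_right) hUf)]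
    apply ENNReal.ofReal_le_ofReal
    set X := volume.real (⋃ q ∈ F, SSet xs γ ψ q ∩ U)
    have hK0 : 0 < K := by linarith
    have h1 : (K * V / 2) ^ 2 ≤ X * (C * K ^ 2) :=
      le_trans (pow_le_pow_left₀ (div_nonneg (mul_nonneg hK0.le measureReal_nonneg) (by norm_num)) hm 2)
        (hcs.trans (mul_le_mul_of_nonneg_left hQb measureReal_nonneg))
    refine le_of_mul_le_mul_right ?_ (by positivity : 0 < C * K ^ 2)
    refine le_trans (le_of_eq ?_) h1
    field_simp; ring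
  have hlim := tendsto_measure_iInter_atTop (μ := volume) (s := T)
    (fun N => (hTm N).nullMeasurableSet) hanti
    ⟨0, measure_ne_top_of_subset Set.inter_subset_right hUf⟩
  have e : (⋂ N, T N) = Lim γ ψ ∩ U := by
    rw [Lim, Set.iInter_inter]
  rw [e] at hlim
  have hge := ge_of_tendsto' hlim hlow
  exact (ENNReal.ofReal_le_iff_le_toReal (measure_ne_top_of_subset Set.inter_subset_right hUf)).1 hge

/-- Almost every point of the unit interval lies in the limsup set. -/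
lemma Lim_full (k : ℕ) (hk : 100 ≤ k) : ∃ l0 : ℝ, ∀ (γ : ℝ) (ψ : ℕ → ℝ), (∀ q, 0 ≤ ψ q) →
    Blocks k γ l0 ψ → volume (Set.Ico (0:ℝ) 1 \ Lim γ ψ) = 0 := by
  obtain ⟨l0, c, hc, hlow⟩ := Lim_lower k hk
  refine ⟨l0, fun γ ψ hnn hB => ?_⟩
  by_contra hne
  set A := Set.Ico (0:ℝ) 1 \ Lim γ ψ with hA
  have hAf : volume A ≠ ⊤ := measure_ne_top_of_subset Set.sdiff_subset
    (by rw [Real.volume_Ico]; exact ENNReal.ofReal_ne_top)
  have hAm : MeasurableSet A := measurableSet_Ico.diff (measurableSet_Lim γ ψ)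
  obtain ⟨K, hKA, hK, hKpos⟩ := hAm.exists_lt_isCompact_of_ne_top hAf (pos_iff_ne_zero.2 hne)
  have hKf : volume K ≠ ⊤ := hK.measure_lt_top.ne
  set κ := volume.real K with hκ
  have hκ0 : 0 < κ := ENNReal.toReal_pos hKpos.ne' hKf
  have hstep : ∀ m : ℕ, ENNReal.ofReal (κ + c * κ ^ 2) ≤ volume (Metric.cthickening (1 / 2 ^ m) K) := by
    intro m
    set I := (Finset.range (2 ^ m)).filter (fun j => (cell m j ∩ K).Nonempty) with hI
    set U := ⋃ j ∈ I, cell m j with hU
    have hKU : K ⊆ U := by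
      intro x hx
      obtain ⟨⟨hx0, hx1⟩, -⟩ := hKA hx
      have hp : (0:ℝ) < 2 ^ m := by positivity
      have hcell : x ∈ cell m ⌊x * 2 ^ m⌋₊ := by
        rw [cell, Set.mem_Ico, div_le_iff₀ hp, lt_div_iff₀ hp]
        exact ⟨Nat.floor_le (by positivity), Nat.lt_floor_add_one _⟩
      refine Set.mem_biUnion (x := ⌊x * 2 ^ m⌋₊) ?_ hcell
      refine Finset.mem_filter.2 ⟨Finset.mem_range.2 ?_, ⟨x, hcell, hx⟩⟩
      rw [Nat.floor_lt (by positivity)]
      push_cast
      exact mul_lt_of_lt_one_left hp hx1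
    have hUth : U ⊆ Metric.cthickening (1 / 2 ^ m) K := by
      refine Set.iUnion₂_subset fun j hj y hy => ?_
      obtain ⟨x, hx, hxK⟩ := (Finset.mem_filter.1 hj).2
      refine Metric.mem_cthickening_of_dist_le y x _ _ hxK ?_
      simp only [cell, Set.mem_Ico] at hx hy
      rw [Real.dist_eq, abs_le]
      have e : ((j:ℝ) + 1) / 2 ^ m = (j:ℝ) / 2 ^ m + 1 / 2 ^ m := add_div _ _ _
      constructor <;> linarith
    have hUf : volume U ≠ ⊤ := ((measure_biUnion_finset_le _ _).trans_lt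
      (ENNReal.sum_lt_top.2 fun j _ => by rw [cell, Real.volume_Ico]; exact ENNReal.ofReal_lt_top)).ne
    have h1 := hlow γ ψ hnn hB m I fun j hj => Finset.mem_range.1 (Finset.mem_filter.1 hj).1
    have hdisj : Disjoint (Lim γ ψ ∩ U) K := Set.disjoint_left.2 fun x hx hxK => (hKA hxK).2 hx.1
    have h2 : volume.real (Lim γ ψ ∩ U) + κ ≤ volume.real U := by
      rw [hκ, ← measureReal_union hdisj hK.isClosed.measurableSet
        (measure_ne_top_of_subset Set.inter_subset_right hUf) hKf]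
      exact measureReal_mono (Set.union_subset Set.inter_subset_right hKU) hUf
    have h3 : κ ≤ volume.real U := measureReal_mono hKU hUf
    have h4 : κ + c * κ ^ 2 ≤ volume.real U := by
      have := mul_le_mul_of_nonneg_left (pow_le_pow_left₀ hκ0.le h3 2) hc.le
      linarith
    exact ((ENNReal.ofReal_le_ofReal h4).trans (le_of_eq (ofReal_measureReal hUf))).trans (measure_mono hUth)
  have hlim := (tendsto_measure_cthickening_of_isCompact (μ := volume) hK).comp
    (show Tendsto (fun m : ℕ => (1:ℝ) / 2 ^ m) atTop (𝓝 0) from by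
      have := tendsto_pow_atTop_nhds_zero_of_lt_one (by norm_num : (0:ℝ) ≤ 1/2) (by norm_num : (1:ℝ)/2 < 1)
      simpa [one_div, inv_pow] using this)
  have hge := ge_of_tendsto' hlim hstep
  have := (ENNReal.ofReal_le_iff_le_toReal hKf).1 hge
  have : c * κ ^ 2 ≤ 0 := by simp only [hκ, Measure.real] at *; linarith
  nlinarith [mul_pos hc (pow_pos hκ0 2)]

/-- The iterated logarithm of the reciprocal. -/
noncomputable def LL (y : ℝ) : ℝ := 1 + Real.log (1 + Real.log (1 + 1 / y))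

lemma one_le_LL {y : ℝ} (hy : 0 ≤ y) : 1 ≤ LL y := by
  have h1 : 0 ≤ Real.log (1 + 1 / y) := Real.log_nonneg (le_add_of_nonneg_right (by positivity))
  have := Real.log_nonneg (le_add_of_nonneg_right h1)
  unfold LL; linarith

/-- Divergence beyond a fixed power of the iterated logarithm gives late heavy blocks. -/
lemma exists_blocks {k : ℕ} (hk : 100 ≤ k) {γ l0 L : ℝ} {f : ℕ → ℝ}
    (hL : 2 * max l0 (max |γ| 1) ≤ L) (hf0 : ∀ q, 0 ≤ f q) (hfL : ∀ q, f q ≤ Real.exp (-L))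
    (hs : ¬ Summable (fun q => lam q * f q / LL (f q) ^ 52)) :
    Blocks k γ l0 f := by
  have hk0 : (0:ℝ) < k := by exact_mod_cast (by omega : 0 < k)
  have hl0 : l0 ≤ max l0 (max |γ| 1) := le_max_left _ _
  have hγm : |γ| ≤ max l0 (max |γ| 1) := le_trans (le_max_left _ _) (le_max_right _ _)
  have h1m : 1 ≤ max l0 (max |γ| 1) := le_trans (le_max_right _ _) (le_max_right _ _)
  set δ := del k
  have hδ0 : 0 < δ := by simp only [δ, del]; positivity
  have hδ1 : δ ≤ 1 := le_trans (del_le hk) (by norm_num)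
  intro N
  by_contra hno
  push Not at hno
  apply hs
  set a := min 2 (Real.log (1 + δ))
  have ha0 : 0 < a := lt_min two_pos (Real.log_pos (by linarith))
  set ρ := fun i : ℕ => 3 ^ 52 / a ^ 2 * (1 / ((i:ℝ) + 1) ^ 2)
  have hρ : Summable ρ := by
    refine Summable.mul_left _ ?_
    have h := (summable_nat_add_iff 1).2 (Real.summable_one_div_nat_pow.2 (by norm_num : 1 < 2))
    simpa using h
  set idx : ℕ → ℕ := fun q => ⌊Real.log (-Real.log (f q)) / Real.log (1 + δ)⌋₊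
  set Z : ℕ → ℝ := fun q => lam q * f q / LL (f q) ^ 52
  have hZ0 : ∀ q, 0 ≤ Z q := fun q => by
    have := lam_nonneg q; have := hf0 q; have := one_le_LL (hf0 q)
    simp only [Z]; positivity
  have hfacts : ∀ q, 0 < q → 0 < f q → (1:ℝ) ≤ (1 + δ) ^ idx q ∧ max l0 (max |γ| 1) ≤ (1 + δ) ^ idx q ∧
      InBlk k ((1 + δ) ^ idx q) f q ∧ Z q ≤ 3 ^ 52 * (lam q * f q) / Lg ((1 + δ) ^ idx q) ^ 52 := by
    intro q hq hfq
    set ℓ := -Real.log (f q)
    have hℓ : L ≤ ℓ := by
      have := Real.log_le_log hfq (hfL q)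
      rw [Real.log_exp] at this
      simp only [ℓ]; linarith
    have hℓ0 : 0 < ℓ := by linarith
    have hlδ : 0 < Real.log (1 + δ) := Real.log_pos (by linarith)
    have hpos : (0:ℝ) < 1 + δ := by linarith
    have ha : (1 + δ) ^ idx q ≤ ℓ := by
      rw [← Real.exp_log hℓ0, ← Real.exp_log (pow_pos hpos _)]
      refine Real.exp_le_exp.2 ?_
      rw [Real.log_pow]
      have := Nat.floor_le (div_nonneg (Real.log_nonneg (by linarith : 1 ≤ ℓ)) hlδ.le)
      rw [le_div_iff₀ hlδ] at this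
      exact this
    have hb : ℓ ≤ (1 + δ) * (1 + δ) ^ idx q := by
      rw [← pow_succ', ← Real.exp_log hℓ0, ← Real.exp_log (pow_pos hpos _)]
      refine Real.exp_le_exp.2 ?_
      rw [Real.log_pow]
      have := Nat.lt_floor_add_one (Real.log ℓ / Real.log (1 + δ))
      rw [div_lt_iff₀ hlδ] at this
      push_cast
      exact this.le
    have h1 : (1:ℝ) ≤ (1 + δ) ^ idx q := one_le_pow₀ (by linarith)
    have hδm := mul_le_mul_of_nonneg_right hδ1 (by linarith : (0:ℝ) ≤ (1 + δ) ^ idx q)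
    refine ⟨h1, by linarith, ⟨hq, ?_, ?_⟩, ?_⟩
    · calc Real.exp (-((1 + δ) * (1 + δ) ^ idx q)) ≤ Real.exp (-ℓ) := Real.exp_le_exp.2 (by linarith)
        _ = f q := by simp only [ℓ]; rw [neg_neg, Real.exp_log hfq]
    · calc f q = Real.exp (-ℓ) := by simp only [ℓ]; rw [neg_neg, Real.exp_log hfq]
        _ ≤ _ := Real.exp_le_exp.2 (by linarith)
    · simp only [Z]
      set l := (1 + δ) ^ idx q
      have hlog : ℓ ≤ Real.log (1 + 1 / f q) := by
        simp only [ℓ]; rw [← Real.log_inv]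
        exact Real.log_le_log (by positivity) (by rw [one_div]; linarith)
      have h3 : Lg l ≤ 3 * LL (f q) := by
        have e1 : Real.log (2 + l) ≤ Real.log 2 + Real.log (1 + l) := by
          rw [← Real.log_mul two_ne_zero (by linarith)]
          exact Real.log_le_log (by linarith) (by linarith)
        have e2 : Real.log (1 + l) ≤ Real.log (1 + Real.log (1 + 1 / f q)) :=
          Real.log_le_log (by linarith) (by linarith)
        have e3 := Real.log_nonneg (by linarith : (1:ℝ) ≤ 1 + l)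
        have := Real.log_two_lt_d9
        unfold Lg LL; linarith
      have hL0 : 0 < Lg l := by linarith [two_le_Lg (l := l) (by linarith)]
      have h4 : Lg l ^ 52 ≤ 3 ^ 52 * LL (f q) ^ 52 := by
        rw [← mul_pow]; exact pow_le_pow_left₀ hL0.le h3 _
      have hLL : 0 < LL (f q) := by linarith [one_le_LL (hf0 q)]
      have hlf : 0 ≤ lam q * f q := mul_nonneg (lam_nonneg q) hfq.le
      rw [div_le_div_iff₀ (by positivity) (by positivity)]
      calc lam q * f q * Lg l ^ 52 ≤ lam q * f q * (3 ^ 52 * LL (f q) ^ 52) :=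
            mul_le_mul_of_nonneg_left h4 hlf
        _ = _ := by ring
  refine summable_of_sum_le (c := ∑ q ∈ Finset.range (N + 1), Z q + ∑' i, ρ i) hZ0 fun G => ?_
  rw [← Finset.sum_filter_add_sum_filter_not G (fun q => N < q), add_comm]
  refine add_le_add (Finset.sum_le_sum_of_subset_of_nonneg (fun q hq => ?_) fun q _ _ => hZ0 q) ?_
  · exact Finset.mem_range.2 (by have := (Finset.mem_filter.1 hq).2; omega)
  set G' := (G.filter (fun q => N < q)).filter (fun q => 0 < f q)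
  have hG' : ∑ q ∈ G.filter (fun q => N < q), Z q = ∑ q ∈ G', Z q := by
    refine (Finset.sum_filter_of_ne fun q _ hne => lt_of_le_of_ne (hf0 q) fun h => hne ?_).symm
    simp [Z, ← h]
  rw [hG', ← Finset.sum_fiberwise_of_maps_to (g := idx) (t := G'.image idx)
    (fun q hq => Finset.mem_image_of_mem idx hq)]
  refine (Finset.sum_le_sum (g := ρ) fun i hi => ?_).trans
    (hρ.sum_le_tsum _ fun i _ => by simp only [ρ]; positivity)
  set Fi := G'.filter (fun q => idx q = i)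
  have hq : ∀ q ∈ Fi, N < q ∧ 0 < f q ∧ idx q = i := fun q hq => by
    obtain ⟨h1, h2⟩ := Finset.mem_filter.1 hq
    obtain ⟨h3, h4⟩ := Finset.mem_filter.1 h1
    exact ⟨(Finset.mem_filter.1 h3).2, h4, h2⟩
  set l := (1 + δ) ^ i
  have hlpos : 0 < l := by positivity
  obtain ⟨q0, hq0, hq0i⟩ := Finset.mem_image.1 hi
  obtain ⟨n0, f0, -⟩ := hq q0 (Finset.mem_filter.2 ⟨hq0, hq0i⟩)
  obtain ⟨a1, a2, -, -⟩ := hfacts q0 (by omega) f0
  rw [hq0i] at a1 a2
  have hlt := hno Fi l (fun q h => (hq q h).1) (hl0.trans a2) a1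
    ((hγm.trans a2).trans (le_trans (by linarith) (Real.add_one_le_exp l))) fun q h => by
      obtain ⟨b1, b2, b3⟩ := hq q h
      have := (hfacts q (by omega) b2).2.2.1
      rwa [b3] at this
  have hai : a * ((i:ℝ) + 1) ≤ Lg l := by
    have e1 : a ≤ 2 := min_le_left _ _
    have e2 : (i:ℝ) * a ≤ i * Real.log (1 + δ) := mul_le_mul_of_nonneg_left (min_le_right _ _) (Nat.cast_nonneg i)
    have e3 : (i:ℝ) * Real.log (1 + δ) ≤ Real.log (2 + l) := by
      rw [← Real.log_pow]; exact Real.log_le_log hlpos (by linarith)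
    unfold Lg; linarith
  have hL0 : 0 < Lg l := lt_of_lt_of_le (by positivity) hai
  calc ∑ q ∈ Fi, Z q ≤ ∑ q ∈ Fi, 3 ^ 52 * (lam q * f q) / Lg l ^ 52 := Finset.sum_le_sum fun q h => by
        obtain ⟨b1, b2, b3⟩ := hq q h
        have := (hfacts q (by omega) b2).2.2.2
        rwa [b3] at this
    _ = 3 ^ 52 * Mass Fi f / Lg l ^ 52 := by rw [Mass, Finset.mul_sum, Finset.sum_div]
    _ ≤ 3 ^ 52 * Lg l ^ 50 / Lg l ^ 52 := by gcongr
    _ = 3 ^ 52 / Lg l ^ 2 := by field_simp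
    _ ≤ 3 ^ 52 / (a * ((i:ℝ) + 1)) ^ 2 := by gcongr
    _ = ρ i := by simp only [ρ]; rw [mul_pow]; field_simp

/-- Full measure for every shift beyond a fixed power of the iterated logarithm. -/
theorem full_measure_loglog (γ : ℝ) (ψ : ℕ → NNReal)
    (hdiv : ¬ Summable (fun q : ℕ => lam q * (ψ q : ℝ) /
      (1 + Real.log (1 + Real.log (1 + 1 / (ψ q : ℝ)))) ^ 52)) :
    volume ({x : ℝ | {q : ℕ | 0 < q ∧ ∃ a : ℤ, |(q:ℝ) * x - a - γ| < (ψ q : ℝ)}.Infinite}ᶜ) = 0 := by
  set W := {x : ℝ | {q : ℕ | 0 < q ∧ ∃ a : ℤ, |(q:ℝ) * x - a - γ| < (ψ q : ℝ)}.Infinite}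
  by_cases hbig : {q : ℕ | 0 < q ∧ (1/2 : ℝ) < ψ q}.Infinite
  · have : W = Set.univ := Set.eq_univ_iff_forall.2 fun x => hbig.mono fun q hq =>
      ⟨hq.1, round ((q:ℝ) * x - γ), lt_of_le_of_lt (by
        rw [show (q:ℝ) * x - round ((q:ℝ) * x - γ) - γ = (q:ℝ) * x - γ - round ((q:ℝ) * x - γ) by ring]
        exact abs_sub_round _) hq.2⟩
    rw [this, Set.compl_univ, measure_empty]
  set k := 100
  have hk : 100 ≤ k := le_rfl
  obtain ⟨l0, hfull⟩ := Lim_full k hk
  set L := 2 * max l0 (max |γ| 1) with hL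
  set f : ℕ → ℝ := fun q => min (ψ q : ℝ) (Real.exp (-L)) with hf
  have hf0 : ∀ q, 0 ≤ f q := fun q => le_min (NNReal.coe_nonneg _) (Real.exp_pos _).le
  have hle : ∀ q, f q ≤ (ψ q : ℝ) := fun q => min_le_left _ _
  set d := fun y : ℝ => LL y ^ 52
  have hd : ∀ y : ℝ, 0 ≤ y → 1 ≤ d y := fun y hy => one_le_pow₀ (one_le_LL hy)
  have hs : ¬ Summable (fun q => lam q * f q / LL (f q) ^ 52) := by
    intro hsum
    apply hdiv
    set K := max 1 (d (Real.exp (-L)) / Real.exp (-L))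
    have hfin : {q : ℕ | 0 < q ∧ (1/2 : ℝ) < ψ q}.Finite := Set.not_infinite.1 hbig
    have hext : Summable (fun q : ℕ => if q ∈ insert 0 hfin.toFinset then (ψ q : ℝ) else 0) :=
      summable_of_ne_finset_zero (s := insert 0 hfin.toFinset) fun q hq => by rw [if_neg hq]
    refine Summable.of_nonneg_of_le (fun q => ?_) (fun q => ?_) ((hsum.mul_left K).add hext)
    · exact div_nonneg (mul_nonneg (lam_nonneg q) (NNReal.coe_nonneg _))
        (le_trans zero_le_one (hd _ (NNReal.coe_nonneg _)))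
    · have hl0 := lam_nonneg q
      have hy := NNReal.coe_nonneg (ψ q)
      show lam q * (ψ q : ℝ) / d (ψ q) ≤ K * (lam q * f q / d (f q)) + _
      have hK0 : 0 ≤ K * (lam q * f q / d (f q)) :=
        mul_nonneg (le_trans zero_le_one (le_max_left _ _))
          (div_nonneg (mul_nonneg hl0 (hf0 q)) (le_trans zero_le_one (hd _ (hf0 q))))
      by_cases hq : q ∈ insert 0 hfin.toFinset
      · rw [if_pos hq]
        have : lam q * (ψ q : ℝ) / d (ψ q) ≤ ψ q := (div_le_self (mul_nonneg hl0 hy) (hd _ hy)).trans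
          (mul_le_of_le_one_left hy (lam_le_one q))
        linarith
      rw [if_neg hq, add_zero]
      rcases le_or_gt (ψ q : ℝ) (Real.exp (-L)) with h | h
      · rw [show f q = (ψ q : ℝ) from min_eq_left h]
        exact le_mul_of_one_le_left (div_nonneg (mul_nonneg hl0 hy) (le_trans zero_le_one (hd _ hy))) (le_max_left _ _)
      · rw [show f q = Real.exp (-L) from min_eq_right h.le]
        have hhalf : (ψ q : ℝ) ≤ 1 := by
          simp only [Finset.mem_insert, Set.Finite.mem_toFinset, Set.mem_ofPred_eq, not_or, not_and, not_lt] at hq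
          linarith [hq.2 (Nat.pos_of_ne_zero hq.1)]
        have hE := Real.exp_pos (-L)
        have hdE := hd _ hE.le
        calc lam q * (ψ q : ℝ) / d (ψ q) ≤ lam q * 1 :=
              (div_le_self (mul_nonneg hl0 hy) (hd _ hy)).trans (mul_le_mul_of_nonneg_left hhalf hl0)
          _ = (d (Real.exp (-L)) / Real.exp (-L)) * (lam q * Real.exp (-L) / d (Real.exp (-L))) := by
              have : d (Real.exp (-L)) ≠ 0 := by linarith
              field_simp
          _ ≤ _ := mul_le_mul_of_nonneg_right (le_max_right _ _)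
              (div_nonneg (mul_nonneg hl0 hE.le) (by linarith))
  have hB : Blocks k γ l0 f := exists_blocks hk hL.ge hf0 (fun q => min_le_right _ _) hs
  have h0 := hfull γ f hf0 hB
  have hsub : Lim γ f ⊆ W := by
    intro x hx
    refine Set.infinite_of_forall_exists_gt fun N => ?_
    obtain ⟨q, hq, hxq⟩ := Set.mem_iUnion₂.1 (Set.mem_iInter.1 hx N)
    refine ⟨q, ⟨by omega, ?_⟩, hq⟩
    obtain ⟨a, ha⟩ := Set.mem_iUnion.1 hxq
    rw [mem_J (by omega)] at ha
    exact ⟨a, ha.trans_le (hle q)⟩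
  have hinv : ∀ (x : ℝ) (j : ℤ), x ∈ W → x + j ∈ W := by
    intro x j hx
    refine hx.mono fun q hq => ⟨hq.1, ?_⟩
    obtain ⟨a, ha⟩ := hq.2
    refine ⟨a + q * j, ?_⟩
    push_cast
    rw [show (q:ℝ) * (x + j) - (a + q * j) - γ = (q:ℝ) * x - a - γ by ring]
    exact ha
  have hcover : Wᶜ ⊆ ⋃ j : ℤ, (fun x => x + (-(j:ℝ))) ⁻¹' (Set.Ico (0:ℝ) 1 \ Lim γ f) := by
    intro x hx
    refine Set.mem_iUnion.2 ⟨⌊x⌋, ⟨?_, ?_⟩, fun h => hx ?_⟩
    · linarith [Int.floor_le x]
    · linarith [Int.lt_floor_add_one x]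
    · simpa using hinv _ ⌊x⌋ (hsub h)
  refine measure_mono_null hcover (measure_iUnion_null fun j => ?_)
  rw [measure_preimage_add_right]
  exact h0

end Vale.Agent.P028.Div
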