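import Vale.Agent.P028.Div.Fib
import Vale.Agent.P028.Div.Graph

/-!
# The pairs at the middle scales (P028)
-/

namespace Vale.Agent.P028.Div

open Finset
open scoped Classical
open Wide (mass EE Conf pow_omega_le)

variable {k : ℕ} {γ l t : ℝ} {ψ : ℕ → ℝ} {F : Finset ℕ} {E : Finset (ℕ × ℕ)}

/-- From the graph inequality to a bound for the edge mass. -/
lemma solve_graph {X M Y e : ℝ} (he : 1 ≤ e) (hX : 0 ≤ X) (hY : 0 ≤ Y) (hM : 1 ≤ M)
    (h : X ^ e ≤ Y * (M * M) ^ (e - 1)) : X ≤ Y ^ (1 / e) * M ^ 2 := by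
  have he0 : 0 < e := by linarith
  have hMM : 1 ≤ M * M := one_le_mul_of_one_le_of_one_le hM hM
  have h2 := Real.rpow_le_rpow (Real.rpow_nonneg hX e) h (show 0 ≤ 1 / e by positivity)
  rw [← Real.rpow_mul hX, mul_one_div_cancel he0.ne', Real.rpow_one,
    Real.mul_rpow hY (Real.rpow_nonneg (by linarith) _), ← Real.rpow_mul (by linarith)] at h2
  refine h2.trans (mul_le_mul_of_nonneg_left ?_ (Real.rpow_nonneg hY _))
  rw [sq]
  calc (M * M) ^ ((e - 1) * (1 / e)) ≤ (M * M) ^ (1:ℝ) :=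
        Real.rpow_le_rpow_of_exponent_le hMM (by rw [mul_one_div, div_le_one he0]; linarith)
    _ = M * M := Real.rpow_one _

/-- The forced primes contribute only a small power of the scale. -/
lemma forced_primes {L : ℝ} (hL : 1 ≤ L) (hk : 0 < k) (P0 : ℕ) : ∃ D : ℝ, 0 < D ∧
    ∀ (B : ℕ) (t : ℝ), 0 < B → 0 < t → t ≤ 1 → ∃ Fc : Finset ℕ, (∀ p ∈ Fc, p.Prime) ∧
      (∀ p, p.Prime → p < P0 → p ∈ Fc) ∧ ((B:ℝ) ≤ t ^ (-(bet k)) → B.primeFactors ⊆ Fc) ∧
      L ^ Fc.card ≤ D * t ^ (-(11 / (10000 * (k:ℝ)))) := by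
  obtain ⟨C5, hC5, hω⟩ := pow_omega_le hL (δ := 1 / (1000 * (k:ℝ) ^ 2)) (by positivity)
  set Sm := (Finset.range P0).filter Nat.Prime
  have hL0 : 0 < L := by linarith
  refine ⟨L ^ Sm.card * max 1 C5, by positivity, fun B t hB ht ht1 => ?_⟩
  have hcard : ∀ T : Finset ℕ, L ^ (Sm ∪ T).card ≤ L ^ Sm.card * L ^ T.card := fun T => by
    rw [← pow_add]; exact pow_le_pow_right₀ hL (Finset.card_union_le _ _)
  have hsm : ∀ p, p.Prime → p < P0 → p ∈ Sm := fun p hp hlt =>
    Finset.mem_filter.2 ⟨Finset.mem_range.2 hlt, hp⟩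
  by_cases h : (B:ℝ) ≤ t ^ (-(bet k))
  · refine ⟨Sm ∪ B.primeFactors, fun p hp => ?_, fun p hp hlt => Finset.mem_union_left _ (hsm p hp hlt),
      fun _ => Finset.subset_union_right, ?_⟩
    · rcases Finset.mem_union.1 hp with h' | h'
      · exact (Finset.mem_filter.1 h').2
      · exact Nat.prime_of_mem_primeFactors h'
    · refine (hcard _).trans ?_
      rw [mul_assoc]
      refine mul_le_mul_of_nonneg_left ((hω B hB).trans ?_) (by positivity)
      refine mul_le_mul (le_max_right _ _) ((Real.rpow_le_rpow (Nat.cast_nonneg _) h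
        (by positivity)).trans (le_of_eq ?_)) (by positivity) (by positivity)
      rw [← Real.rpow_mul ht.le]
      congr 1
      unfold bet; field_simp; ring
  · refine ⟨Sm, fun p hp => (Finset.mem_filter.1 hp).2, hsm, fun h' => absurd h' h, ?_⟩
    have h1 : 1 ≤ max 1 C5 * t ^ (-(11 / (10000 * (k:ℝ)))) :=
      one_le_mul_of_one_le_of_one_le (le_max_left _ _)
        (Real.one_le_rpow_of_pos_of_le_one_of_nonpos ht ht1 (neg_nonpos.2 (by positivity)))
    rw [mul_assoc]
    exact le_mul_of_one_le_right (by positivity) h1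

lemma one_add_log_le (hk : 100 ≤ k) (hl : 1 ≤ l) (ht : 0 < t) (ht1 : t ≤ 1) :
    0 ≤ 1 + Real.log (max 1 ⌊Ub k l t⌋₊ : ℕ) ∧ 1 + Real.log (max 1 ⌊Ub k l t⌋₊ : ℕ) ≤ 3 * l := by
  set N := max 1 ⌊Ub k l t⌋₊
  have hN : 1 ≤ N := le_max_left _ _
  have h0 := Real.log_natCast_nonneg N
  refine ⟨by linarith, ?_⟩
  have hd : del k ≤ 1 := by
    have : (100:ℝ) ≤ k := by exact_mod_cast hk
    rw [del, div_le_one (by positivity)]; linarith
  have hU : Ub k l t ≤ Real.exp (2 * l) := by
    unfold Ub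
    refine (mul_le_of_le_one_left (Real.exp_pos _).le ht1).trans (Real.exp_le_exp.2 ?_)
    exact mul_le_mul_of_nonneg_right (by linarith) (by linarith)
  have hUb0 : 0 ≤ Ub k l t := by unfold Ub; positivity
  have hN' : (N:ℝ) ≤ Real.exp (2 * l) := by
    simp only [N, Nat.cast_max, Nat.cast_one]
    exact max_le (Real.one_le_exp (by linarith)) ((Nat.floor_le hUb0).trans hU)
  have := Real.log_le_log (by exact_mod_cast hN) hN'
  rw [Real.log_exp] at this
  linarith

/-- A power of `l` is absorbed by a small exponential. -/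
lemma pow_four_le {c : ℝ} (hc : 0 < c) (hl : 0 ≤ l) : l ^ 4 ≤ 24 / c ^ 4 * Real.exp (c * l) := by
  have h := Real.pow_div_factorial_le_exp (c * l) (mul_nonneg hc.le hl) 4
  rw [div_mul_eq_mul_div, le_div_iff₀ (by positivity)]
  rw [div_le_iff₀ (by positivity), mul_pow] at h
  norm_num [Nat.factorial] at h
  linarith

/-- The middle scales: the edge mass decays geometrically in the scale. -/
theorem mid_edges (k : ℕ) (hk : 100 ≤ k) : ∃ l0 C : ℝ, 0 < C ∧
    ∀ (γ l t : ℝ) (ψ : ℕ → ℝ) (F : Finset ℕ) (E : Finset (ℕ × ℕ)),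
      Fib k γ l t ψ F E → l0 ≤ l → Real.exp (-((484/1000) * l)) < t → t ≤ l ^ (-(15:ℝ)) →
      1 ≤ Mass F ψ →
      Emass E ψ ≤ C * (t * t ^ kap k) / l * Mass F ψ ^ 2 := by
  obtain ⟨P0, C, L, hC, hL, hgraph⟩ := edge_graph k hk
  obtain ⟨D, hD, hforced⟩ := forced_primes hL (show 0 < k by omega) P0
  have hkR : (100:ℝ) ≤ k := by exact_mod_cast hk
  have hk0 : (0:ℝ) < k := by linarith
  set c := 1 / (5000 * (k:ℝ) ^ 2) with hc
  have hc0 : 0 < c := by positivity
  obtain ⟨K, hKdef⟩ : ∃ K : ℝ, K = C * D * (11000 * 3 ^ 5) := ⟨_, rfl⟩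
  have hK : 0 < K := by rw [hKdef]; positivity
  refine ⟨1000, K ^ (1 / ee k) * max 1 (24 / c ^ 4), by positivity,
    fun γ l t ψ F E H hl0 htlo hthi hM => ?_⟩
  have hl : (1:ℝ) ≤ l := H.hl
  have hlpos : 0 < l := by linarith
  have ht := H.ht
  have ht1 : t ≤ 1 := hthi.trans (Real.rpow_le_one_of_one_le_of_nonpos hl (by norm_num))
  set μ := fun q => lam q * ψ q
  have hμ : ∀ q, 0 ≤ μ q := fun q => mul_nonneg (lam_nonneg q) (H.nn q)
  have hB : 0 < (sel γ l).1 := (sel_spec γ l).1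
  obtain ⟨Fc, hFp, hFs, hFB, hFcard⟩ := hforced (sel γ l).1 t hB ht ht1
  set N := max 1 ⌊Ub k l t⌋₊
  obtain ⟨hlog0, hlog⟩ := one_add_log_le hk hl ht ht1
  have hNU : ∀ x ∈ E, cv x.1 x.2 ≤ N := fun x hx =>
    le_trans (Nat.le_floor (H.ok x hx).cv_le) (le_max_right _ _)
  have hee2 := two_le_ee k
  have hee0 := ee_pos k
  set M := Mass F ψ
  -- the bound with the saving `z`
  have main : ∀ z θ : ℝ, 0 ≤ z → 2 * z ≤ 1 → (θ = 1/2 ∨ θ = 1) →
      t ^ (-(θ * z / g0 k)) ≤ Real.exp (l / 2) / 2 → t ^ (-(θ * z / g0 k)) ≤ t * Real.exp l →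
      (θ = 1/2 → t * (Real.exp (del k * l) * t ^ (-z)) ≤ t ^ (2 * z)) →
      Emass E ψ ≤ K ^ (1 / ee k) * (t ^ ((2 + z - 11 / (10000 * (k:ℝ))) / ee k) * l ^ (5 / ee k))
        * M ^ 2 := by
    intro z θ hz0 hz hθ hKh hKt hor
    have hΓ : 0 ≤ 11000 * (t ^ 2 * t ^ z) * (1 + Real.log N) ^ 5 := by positivity
    have hS : ∀ S : Conf E, (∑ x ∈ S.E2, μ x.1 * μ x.2) * cgain k Fc (S.c * S.e)
        ≤ 11000 * (t ^ 2 * t ^ z) * (1 + Real.log N) ^ 5 := fun S => by
      have hn : 0 < S.c * S.e := Nat.mul_pos S.hc S.he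
      exact mid_state hk hlpos.le ht ht1 hz0 hz hθ hKh hKt hor H.ok (le_max_left _ _) hNU S
        (cgain_pos k Fc _) (cgain_div_le (by omega) Fc hn)
        fun h => cgain_div_le_gcd k Fc hB hn (hFB h)
    have h := hgraph μ E Fc F F _ hμ hΓ
      (fun x hx => (H.blk x (by simpa using hx)).1) hFp hFs hS
    have hEE : EE μ E F F = Emass E ψ := by
      unfold EE Emass
      rw [Finset.filter_true_of_mem fun x hx => H.sub x hx]
    rw [hEE, show mass μ F = M from rfl] at h
    have hfc := hFcard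
    have hMM : 0 ≤ (M * M) ^ (ee k - 1) := Real.rpow_nonneg (mul_self_nonneg M) _
    have h' : Emass E ψ ^ ee k
        ≤ K * (t ^ (2 + z - 11 / (10000 * (k:ℝ))) * l ^ 5) * (M * M) ^ (ee k - 1) := by
      refine h.trans (mul_le_mul_of_nonneg_right ?_ hMM)
      calc C * L ^ Fc.card * (11000 * (t ^ 2 * t ^ z) * (1 + Real.log N) ^ 5)
          ≤ C * (D * t ^ (-(11 / (10000 * (k:ℝ))))) * (11000 * (t ^ 2 * t ^ z) * (3 * l) ^ 5) := by
            refine mul_le_mul (mul_le_mul_of_nonneg_left hfc hC.le) ?_ hΓ (by positivity)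
            exact mul_le_mul_of_nonneg_left (pow_le_pow_left₀ hlog0 hlog 5) (by positivity)
        _ = K * ((t ^ 2 * t ^ z * t ^ (-(11 / (10000 * (k:ℝ))))) * l ^ 5) := by rw [hKdef]; ring
        _ = _ := by
            rw [← Real.rpow_natCast t 2, ← Real.rpow_add ht, ← Real.rpow_add ht]
            norm_num [sub_eq_add_neg]
    have h2 := solve_graph (by linarith) (Emass_nonneg H.nn) (by positivity) hM h'
    refine h2.trans (le_of_eq ?_)
    rw [Real.mul_rpow hK.le (by positivity), Real.mul_rpow (by positivity) (by positivity),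
      ← Real.rpow_mul ht.le, ← Real.rpow_natCast l 5, ← Real.rpow_mul hlpos.le]
    norm_num [div_eq_mul_inv]
  have hfinish : ∀ z : ℝ,
      t ^ ((2 + z - 11 / (10000 * (k:ℝ))) / ee k) * l ^ (5 / ee k)
        ≤ max 1 (24 / c ^ 4) * (t * t ^ kap k) / l →
      Emass E ψ ≤ K ^ (1 / ee k) * (t ^ ((2 + z - 11 / (10000 * (k:ℝ))) / ee k) * l ^ (5 / ee k))
        * M ^ 2 →
      Emass E ψ ≤ K ^ (1 / ee k) * max 1 (24 / c ^ 4) * (t * t ^ kap k) / l * M ^ 2 := by
    intro z h h'
    refine h'.trans (mul_le_mul_of_nonneg_right ?_ (sq_nonneg M))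
    calc K ^ (1 / ee k) * (t ^ ((2 + z - 11 / (10000 * (k:ℝ))) / ee k) * l ^ (5 / ee k))
        ≤ K ^ (1 / ee k) * (max 1 (24 / c ^ 4) * (t * t ^ kap k) / l) :=
          mul_le_mul_of_nonneg_left h (by positivity)
      _ = _ := by ring
  -- logarithmic form
  set T := -Real.log t with hT
  have hT0 : 0 ≤ T := neg_nonneg.2 (Real.log_nonpos ht.le ht1)
  have hTl : T < (484/1000) * l := by
    have h := Real.log_lt_log (Real.exp_pos _) htlo
    rw [Real.log_exp] at h
    linarith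
  have hpow : ∀ a : ℝ, t ^ a = Real.exp (-(T * a)) := fun a => by
    rw [Real.rpow_def_of_pos ht, hT]; ring_nf
  have hte : t * Real.exp l = Real.exp (l - T) := by
    rw [hT, sub_neg_eq_add, Real.exp_add, Real.exp_log ht]; ring
  have hlog2 : Real.log 2 ≤ 7/10 := by linarith [Real.log_two_lt_d9]
  have hhalf : Real.exp (l / 2) / 2 = Real.exp (l / 2 - Real.log 2) := by
    rw [Real.exp_sub, Real.exp_log (by norm_num : (0:ℝ) < 2)]
  have heu : ee k ≤ 202/100 := by
    have : 2 / (k:ℝ) ≤ 2/100 := div_le_div_of_nonneg_left (by norm_num) (by norm_num) hkR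
    rw [ee]; linarith
  have hdenom : 5 / ee k + 1 ≤ 7/2 := by
    have : 5 / ee k ≤ 5/2 := div_le_div_of_nonneg_left (by norm_num) (by norm_num) hee2
    linarith
  rcases le_or_gt (l / (10 * (k:ℝ))) T with hcase | hcase
  · -- small scales
    set z := 201 / (100 * (k:ℝ)) with hz
    have hzk : z * k = 201/100 := by rw [hz]; field_simp
    have hz0 : 0 ≤ z := by positivity
    have hz3 : z ≤ 201/10000 := by
      rw [hz, div_le_div_iff₀ (by positivity) (by norm_num)]; linarith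
    have hq : 1/2 * z / g0 k = 201/196 := by rw [hz, g0]; field_simp; norm_num
    have hE := main z (1/2) hz0 (by linarith) (Or.inl rfl)
      (by rw [hq, hpow, hhalf]; exact Real.exp_le_exp.2 (by linarith))
      (by rw [hq, hpow, hte]; exact Real.exp_le_exp.2 (by linarith))
      (fun _ => by
        have e : t * (Real.exp (del k * l) * t ^ (-z)) = Real.exp (del k * l - T + T * z) := by
          rw [hpow, ← Real.exp_add, show t = Real.exp (-T) by rw [hT, neg_neg, Real.exp_log ht],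
            ← Real.exp_add]
          ring_nf
        rw [e, hpow]
        refine Real.exp_le_exp.2 ?_
        have h1 : del k * l ≤ T / 10 := by
          have : del k * l = l / (10 * (k:ℝ)) / 10 := by rw [del]; field_simp; ring
          rw [this]; linarith
        have h2 : T * z ≤ T * (201/10000) := mul_le_mul_of_nonneg_left hz3 hT0
        linarith)
    refine hfinish z ?_ hE
    have hexp : 1 + kap k + 2 / (1000 * (k:ℝ)) ≤ (2 + z - 11 / (10000 * (k:ℝ))) / ee k := by
      rw [le_div_iff₀ hee0]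
      have e1 : z - 2 / (k:ℝ) - 11 / (10000 * (k:ℝ)) = 89 / (10000 * (k:ℝ)) := by
        rw [hz]; field_simp; norm_num
      have e2 : (kap k + 2 / (1000 * (k:ℝ))) * ee k ≤ 3 / (1000 * (k:ℝ)) * (202/100) := by
        rw [show kap k + 2 / (1000 * (k:ℝ)) = 3 / (1000 * (k:ℝ)) by rw [kap]; ring]
        exact mul_le_mul_of_nonneg_left heu (by positivity)
      have e3 : 3 / (1000 * (k:ℝ)) * (202/100) ≤ 89 / (10000 * (k:ℝ)) := by
        rw [div_mul_eq_mul_div, div_le_div_iff₀ (by positivity) (by positivity)]; linarith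
      have e4 : ee k = 2 + 2 / (k:ℝ) := rfl
      linarith
    have hle := Real.rpow_le_rpow_of_exponent_ge ht ht1 hexp
    rw [Real.rpow_add ht, Real.rpow_add ht, Real.rpow_one] at hle
    have hl4 : l ^ (5 / ee k) * l ≤ l ^ 4 := by
      rw [← Real.rpow_add_one hlpos.ne', ← Real.rpow_natCast]
      exact Real.rpow_le_rpow_of_exponent_le hl (by push_cast; linarith)
    have hsmall : t ^ (2 / (1000 * (k:ℝ))) * Real.exp (c * l) ≤ 1 := by
      rw [hpow, ← Real.exp_add]
      refine Real.exp_le_one_iff.2 ?_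
      have h := mul_le_mul_of_nonneg_right hcase (show 0 ≤ 2 / (1000 * (k:ℝ)) by positivity)
      have : l / (10 * (k:ℝ)) * (2 / (1000 * (k:ℝ))) = c * l := by rw [hc]; field_simp; ring
      linarith
    rw [le_div_iff₀ hlpos, mul_assoc]
    calc t ^ ((2 + z - 11 / (10000 * (k:ℝ))) / ee k) * (l ^ (5 / ee k) * l)
        ≤ t * t ^ kap k * t ^ (2 / (1000 * (k:ℝ))) * l ^ 4 :=
          mul_le_mul hle hl4 (by positivity) (by positivity)
      _ ≤ t * t ^ kap k * t ^ (2 / (1000 * (k:ℝ))) * (24 / c ^ 4 * Real.exp (c * l)) :=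
          mul_le_mul_of_nonneg_left (pow_four_le hc0 hlpos.le) (by positivity)
      _ = t * t ^ kap k * (24 / c ^ 4) * (t ^ (2 / (1000 * (k:ℝ))) * Real.exp (c * l)) := by ring
      _ ≤ t * t ^ kap k * (24 / c ^ 4) * 1 := mul_le_mul_of_nonneg_left hsmall (by positivity)
      _ ≤ max 1 (24 / c ^ 4) * (t * t ^ kap k) := by
          rw [mul_one, mul_comm]
          exact mul_le_mul_of_nonneg_right (le_max_right _ _) (by positivity)
  · -- scales close to one
    have hTk : T * k ≤ l / 10 := by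
      have := (lt_div_iff₀ (by positivity)).1 hcase
      linarith
    have hT1 : T ≤ l / 1000 := by
      have := mul_le_mul_of_nonneg_left hkR hT0
      linarith
    have hq : T * (1 * (1/2) / g0 k) = T * k * (50/98) := by rw [g0]; field_simp; ring
    have hE := main (1/2) 1 (by norm_num) (by norm_num) (Or.inr rfl)
      (by rw [hpow, hhalf]; exact Real.exp_le_exp.2 (by rw [mul_neg, neg_neg, hq]; linarith))
      (by rw [hpow, hte]; exact Real.exp_le_exp.2 (by rw [mul_neg, neg_neg, hq]; linarith))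
      (fun h => absurd h (by norm_num))
    refine hfinish (1/2) ?_ hE
    have hexp : 1 + kap k + 7/30 ≤ (2 + 1/2 - 11 / (10000 * (k:ℝ))) / ee k := by
      rw [le_div_iff₀ hee0]
      have e1 : kap k ≤ 1/100000 := by
        rw [kap, div_le_div_iff₀ (by positivity) (by norm_num)]; linarith
      have e2 : 11 / (10000 * (k:ℝ)) ≤ 11/1000000 :=
        div_le_div_of_nonneg_left (by norm_num) (by norm_num) (by linarith)
      have e3 := mul_le_mul (show 1 + kap k + 7/30 ≤ 1 + 1/100000 + 7/30 by linarith) heu hee0.le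
        (by norm_num)
      linarith
    have hle := Real.rpow_le_rpow_of_exponent_ge ht ht1 hexp
    rw [Real.rpow_add ht, Real.rpow_add ht, Real.rpow_one] at hle
    have hl' : l ^ (5 / ee k) * l ≤ t ^ (-(7/30) : ℝ) := by
      rw [← Real.rpow_add_one hlpos.ne']
      refine (Real.rpow_le_rpow_of_exponent_le hl hdenom).trans ?_
      have h := Real.rpow_le_rpow_of_nonpos ht hthi (show (-(7/30) : ℝ) ≤ 0 by norm_num)
      rw [← Real.rpow_mul hlpos.le] at h
      norm_num at h ⊢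
      exact h
    rw [le_div_iff₀ hlpos, mul_assoc]
    calc t ^ ((2 + 1/2 - 11 / (10000 * (k:ℝ))) / ee k) * (l ^ (5 / ee k) * l)
        ≤ t * t ^ kap k * t ^ (7/30 : ℝ) * t ^ (-(7/30) : ℝ) :=
          mul_le_mul hle hl' (by positivity) (by positivity)
      _ = t * t ^ kap k := by
          rw [mul_assoc (t * t ^ kap k), ← Real.rpow_add ht]; norm_num
      _ ≤ max 1 (24 / c ^ 4) * (t * t ^ kap k) :=
          le_mul_of_one_le_left (by positivity) (le_max_left _ _)

end Vale.Agent.P028.Div
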