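import Vale.Agent.P028.Overlap
import Vale.Agent.P028.Wide.Anal

/-!
# The three-walk bound

If a weighted graph on integers has all its edges of bounded cofactors with difference in a small
set, then its weight is controlled through the number of walks of length three.
-/

namespace Vale.Agent.P028.Div

open Finset
open scoped Classical

/-- Signed differences. -/
noncomputable def sdiff' (N : Finset ℕ) : Finset ℤ :=
  N.image (fun n : ℕ => (n:ℤ)) ∪ N.image (fun n : ℕ => -(n:ℤ))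

/-- Allowed steps: coprime pairs up to `U` with difference in `N`, in either direction. -/
noncomputable def Steps (N : Finset ℕ) (U : ℝ) : Finset (ℕ × ℕ) :=
  (Icc 1 ⌊U⌋₊ ×ˢ Icc 1 ⌊U⌋₊).filter
    (fun s => Nat.Coprime s.1 s.2 ∧ (s.2:ℤ) - s.1 ∈ sdiff' N)

/-- The step between two integers. -/
def st (a b : ℕ) : ℕ × ℕ := (a / Nat.gcd a b, b / Nat.gcd a b)

lemma card_sdiff' (N : Finset ℕ) : (sdiff' N).card ≤ 2 * N.card := by
  refine (Finset.card_union_le _ _).trans ?_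
  have h1 := Finset.card_image_le (s := N) (f := fun n : ℕ => (n:ℤ))
  have h2 := Finset.card_image_le (s := N) (f := fun n : ℕ => -(n:ℤ))
  omega

lemma card_Steps {N : Finset ℕ} {U : ℝ} (hU : 0 ≤ U) :
    ((Steps N U).card : ℝ) ≤ 2 * (N.card : ℝ) * U := by
  have h1 : (Steps N U).card ≤ (sdiff' N ×ˢ Icc 1 ⌊U⌋₊).card := by
    refine Finset.card_le_card_of_injOn (fun s => ((s.2:ℤ) - s.1, s.1)) ?_ ?_
    · intro s hs
      obtain ⟨h1, h2⟩ := Finset.mem_filter.1 hs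
      exact Finset.mem_product.2 ⟨h2.2, (Finset.mem_product.1 h1).1⟩
    · intro s _ t _ h
      obtain ⟨h1, h2⟩ := Prod.ext_iff.1 h
      refine Prod.ext h2 ?_
      simp only at h1 h2
      omega
  rw [Finset.card_product, Nat.card_Icc, Nat.add_sub_cancel] at h1
  calc ((Steps N U).card : ℝ) ≤ ((sdiff' N).card : ℝ) * (⌊U⌋₊ : ℝ) := by exact_mod_cast h1
    _ ≤ (2 * (N.card : ℝ)) * U := by
        refine mul_le_mul ?_ (Nat.floor_le hU) (Nat.cast_nonneg _) (by positivity)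
        exact_mod_cast card_sdiff' N

lemma mem_Steps {N : Finset ℕ} {U : ℝ} {s : ℕ × ℕ} (hs : s ∈ Steps N U) :
    0 < s.1 ∧ 0 < s.2 ∧ (s.1:ℝ) ≤ U ∧ (s.2:ℝ) ≤ U ∧ Nat.Coprime s.1 s.2 ∧
      (s.2:ℤ) - s.1 ∈ sdiff' N := by
  obtain ⟨h1, h2, h3⟩ := Finset.mem_filter.1 hs
  obtain ⟨a, b⟩ := Finset.mem_product.1 h1
  rw [Finset.mem_Icc] at a b
  exact ⟨a.1, b.1, (Nat.le_floor_iff' (by omega)).1 a.2, (Nat.le_floor_iff' (by omega)).1 b.2, h2, h3⟩

/-- Symmetrisation. -/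
noncomputable def sym (E : Finset (ℕ × ℕ)) : Finset (ℕ × ℕ) := E ∪ E.image Prod.swap

lemma swap_mem_sym {E : Finset (ℕ × ℕ)} {x : ℕ × ℕ} (h : x ∈ sym E) : x.swap ∈ sym E := by
  rcases Finset.mem_union.1 h with h | h
  · exact Finset.mem_union_right _ (Finset.mem_image_of_mem _ h)
  · obtain ⟨y, hy, rfl⟩ := Finset.mem_image.1 h
    exact Finset.mem_union_left _ (by simpa using hy)

lemma st_spec {N : Finset ℕ} {U : ℝ} {F : Finset ℕ} {E : Finset (ℕ × ℕ)}
    (hF : ∀ x ∈ F, 0 < x)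
    (hE : ∀ x ∈ E, x.1 ∈ F ∧ x.2 ∈ F ∧ x.1 < x.2 ∧ (cv x.1 x.2 : ℝ) ≤ U ∧
      (cv x.1 x.2 - cu x.1 x.2) ∈ N)
    {a b : ℕ} (h : (a, b) ∈ sym E) :
    a ∈ F ∧ b ∈ F ∧ st a b ∈ Steps N U ∧ a * (st a b).2 = b * (st a b).1 := by
  have main : ∀ a b, (a, b) ∈ E → st a b = (cu a b, cv a b) ∧ st b a = (cv a b, cu a b) ∧
      a ∈ F ∧ b ∈ F ∧ st a b ∈ Steps N U ∧ st b a ∈ Steps N U ∧
      a * cv a b = b * cu a b := by
    intro a b hab
    obtain ⟨ha, hb, hlt, hU, hN⟩ := hE (a, b) hab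
    have P := pairFacts (hF a ha) hlt
    have e1 : st a b = (cu a b, cv a b) := rfl
    have e2 : st b a = (cv a b, cu a b) := by rw [st, Nat.gcd_comm]; rfl
    have hu : (cu a b : ℝ) ≤ U := le_trans (by exact_mod_cast P.huv.le) hU
    have hv0 : 0 < cv a b := P.hu0.trans P.huv
    refine ⟨e1, e2, ha, hb, ?_, ?_, ?_⟩
    · rw [e1]
      refine Finset.mem_filter.2 ⟨Finset.mem_product.2
        ⟨Finset.mem_Icc.2 ⟨P.hu0, Nat.le_floor hu⟩, Finset.mem_Icc.2 ⟨hv0, Nat.le_floor hU⟩⟩,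
        P.hcop, ?_⟩
      exact Finset.mem_union_left _ (Finset.mem_image.2 ⟨_, hN, by
        rw [Nat.cast_sub P.huv.le]⟩)
    · rw [e2]
      refine Finset.mem_filter.2 ⟨Finset.mem_product.2
        ⟨Finset.mem_Icc.2 ⟨hv0, Nat.le_floor hU⟩, Finset.mem_Icc.2 ⟨P.hu0, Nat.le_floor hu⟩⟩,
        P.hcop.symm, ?_⟩
      exact Finset.mem_union_right _ (Finset.mem_image.2 ⟨_, hN, by
        rw [Nat.cast_sub P.huv.le]; ring⟩)
    · have h1 : a = Nat.gcd a b * cu a b := P.hu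
      have h2 : b = Nat.gcd a b * cv a b := P.hv
      calc a * cv a b = Nat.gcd a b * cu a b * cv a b := by rw [← h1]
        _ = Nat.gcd a b * cv a b * cu a b := by ring
        _ = b * cu a b := by rw [← h2]
  rcases Finset.mem_union.1 h with h | h
  · obtain ⟨e1, -, ha, hb, h1, -, h3⟩ := main a b h
    refine ⟨ha, hb, h1, ?_⟩
    rw [e1]; exact h3
  · obtain ⟨y, hy, hyx⟩ := Finset.mem_image.1 h
    obtain ⟨h1', h2'⟩ := Prod.ext_iff.1 hyx
    simp only [Prod.fst_swap, Prod.snd_swap] at h1' h2'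
    subst h1' h2'
    obtain ⟨-, e2, ha, hb, -, h2, h3⟩ := main y.1 y.2 hy
    refine ⟨hb, ha, h2, ?_⟩
    rw [e2]; exact h3.symm

/-- Weighted degree. -/
noncomputable def deg (μ : ℕ → ℝ) (F : Finset ℕ) (G : Finset (ℕ × ℕ)) (b : ℕ) : ℝ :=
  ∑ a ∈ F.filter (fun a => (b, a) ∈ G), μ a

/-- Walks of length three. -/
noncomputable def walks (F : Finset ℕ) (G : Finset (ℕ × ℕ)) : Finset ((ℕ × ℕ) × ℕ × ℕ) :=
  (G ×ˢ F ×ˢ F).filter (fun w => (w.1.1, w.2.1) ∈ G ∧ (w.1.2, w.2.2) ∈ G)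

lemma sum_cube_le_walks {μ : ℕ → ℝ} {F : Finset ℕ} {E : Finset (ℕ × ℕ)} (hμ : ∀ x, 0 ≤ μ x)
    (hE : ∀ x ∈ E, x.1 ∈ F ∧ x.2 ∈ F ∧ x.1 < x.2) :
    (∑ x ∈ E, μ x.1 * μ x.2) ^ 3 ≤ 4 * (∑ x ∈ F, μ x) ^ 2 *
      ∑ w ∈ walks F (sym E), μ w.1.1 * μ w.1.2 * (μ w.2.1 * μ w.2.2) := by
  set G := sym E with hG
  set M := ∑ x ∈ F, μ x with hM
  set e0 := ∑ x ∈ E, μ x.1 * μ x.2 with he0
  have he0n : 0 ≤ e0 := Finset.sum_nonneg fun x _ => mul_nonneg (hμ _) (hμ _)
  have hM0 : 0 ≤ M := Finset.sum_nonneg fun x _ => hμ x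
  have hWn : 0 ≤ ∑ w ∈ walks F G, μ w.1.1 * μ w.1.2 * (μ w.2.1 * μ w.2.2) :=
    Finset.sum_nonneg fun w _ => mul_nonneg (mul_nonneg (hμ _) (hμ _)) (mul_nonneg (hμ _) (hμ _))
  rcases eq_or_ne e0 0 with h0 | h0
  · rw [h0, zero_pow (by norm_num)]; positivity
  have he0p : 0 < e0 := lt_of_le_of_ne he0n (Ne.symm h0)
  have hMp : 0 < M := by
    refine lt_of_le_of_ne hM0 fun h => h0 ?_
    refine Finset.sum_eq_zero fun x hx => ?_
    have := (Finset.sum_eq_zero_iff_of_nonneg fun y _ => hμ y).1 h.symm x.1 (hE x hx).1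
    rw [this, zero_mul]
  have hGF : ∀ x ∈ G, x.1 ∈ F ∧ x.2 ∈ F := fun x hx => by
    rcases Finset.mem_union.1 hx with h | h
    · exact ⟨(hE x h).1, (hE x h).2.1⟩
    · obtain ⟨y, hy, rfl⟩ := Finset.mem_image.1 h
      exact ⟨(hE y hy).2.1, (hE y hy).1⟩
  have hWG : ∑ x ∈ G, μ x.1 * μ x.2 = 2 * e0 := by
    have hd : Disjoint E (E.image Prod.swap) := by
      rw [Finset.disjoint_left]
      intro x hx hx'
      obtain ⟨y, hy, rfl⟩ := Finset.mem_image.1 hx'
      have h1 := (hE _ hy).2.2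
      have h2 := (hE _ hx).2.2
      simp only [Prod.fst_swap, Prod.snd_swap] at h2
      omega
    rw [hG, sym, Finset.sum_union hd, Finset.sum_image (fun a _ b _ h => Prod.swap_injective h),
      two_mul]
    exact congrArg₂ _ rfl (Finset.sum_congr rfl fun x _ => mul_comm _ _)
  -- edges with a vertex of small degree
  set th := e0 / (2 * M) with hth
  have hth0 : 0 < th := by positivity
  have hbad : ∑ x ∈ G.filter (fun x => deg μ F G x.1 < th), μ x.1 * μ x.2 ≤ e0 / 2 := by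
    calc ∑ x ∈ G.filter (fun x => deg μ F G x.1 < th), μ x.1 * μ x.2
        ≤ ∑ x ∈ (F.filter (fun b => deg μ F G b < th) ×ˢ F).filter (fun x => x ∈ G),
            μ x.1 * μ x.2 := by
          refine Finset.sum_le_sum_of_subset_of_nonneg (fun x hx => ?_)
            fun x _ _ => mul_nonneg (hμ _) (hμ _)
          obtain ⟨h1, h2⟩ := Finset.mem_filter.1 hx
          exact Finset.mem_filter.2 ⟨Finset.mem_product.2
            ⟨Finset.mem_filter.2 ⟨(hGF x h1).1, h2⟩, (hGF x h1).2⟩, h1⟩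
      _ = ∑ b ∈ F.filter (fun b => deg μ F G b < th), μ b * deg μ F G b := by
          rw [Finset.sum_filter, Finset.sum_product]
          refine Finset.sum_congr rfl fun b _ => ?_
          rw [← Finset.sum_filter, deg, Finset.mul_sum]
      _ ≤ ∑ b ∈ F.filter (fun b => deg μ F G b < th), μ b * th :=
          Finset.sum_le_sum fun b hb => mul_le_mul_of_nonneg_left
            (Finset.mem_filter.1 hb).2.le (hμ b)
      _ ≤ M * th := by
          rw [← Finset.sum_mul]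
          exact mul_le_mul_of_nonneg_right
            (Finset.sum_le_sum_of_subset_of_nonneg (Finset.filter_subset _ _) fun y _ _ => hμ y)
            hth0.le
      _ = e0 / 2 := by rw [hth]; field_simp
  have hbad' : ∑ x ∈ G.filter (fun x => deg μ F G x.2 < th), μ x.1 * μ x.2 ≤ e0 / 2 := by
    refine le_of_eq_of_le ?_ hbad
    refine Finset.sum_nbij' Prod.swap Prod.swap ?_ ?_ ?_ ?_ ?_
    · intro x hx
      obtain ⟨h1, h2⟩ := Finset.mem_filter.1 hx
      exact Finset.mem_filter.2 ⟨swap_mem_sym h1, by simpa using h2⟩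
    · intro x hx
      obtain ⟨h1, h2⟩ := Finset.mem_filter.1 hx
      exact Finset.mem_filter.2 ⟨swap_mem_sym h1, by simpa using h2⟩
    · simp
    · simp
    · intro x _; simp [mul_comm]
  have hpt : ∀ x ∈ G, th ^ 2 * (μ x.1 * μ x.2) ≤
      μ x.1 * μ x.2 * (deg μ F G x.1 * deg μ F G x.2) +
        th ^ 2 * ((if deg μ F G x.1 < th then μ x.1 * μ x.2 else 0) +
          (if deg μ F G x.2 < th then μ x.1 * μ x.2 else 0)) := by
    intro x _
    have hp : 0 ≤ μ x.1 * μ x.2 := mul_nonneg (hμ _) (hμ _)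
    have hd1 : 0 ≤ deg μ F G x.1 := Finset.sum_nonneg fun y _ => hμ y
    have hd2 : 0 ≤ deg μ F G x.2 := Finset.sum_nonneg fun y _ => hμ y
    have hprod : 0 ≤ μ x.1 * μ x.2 * (deg μ F G x.1 * deg μ F G x.2) := by positivity
    have ht2 : 0 ≤ th ^ 2 * (μ x.1 * μ x.2) := by positivity
    by_cases c1 : deg μ F G x.1 < th
    · rw [if_pos c1]
      by_cases c2 : deg μ F G x.2 < th
      · rw [if_pos c2]; linarith
      · rw [if_neg c2, add_zero]; linarith
    · rw [if_neg c1, zero_add]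
      by_cases c2 : deg μ F G x.2 < th
      · rw [if_pos c2]; linarith
      · rw [if_neg c2, mul_zero, add_zero]
        have : th ^ 2 ≤ deg μ F G x.1 * deg μ F G x.2 := by
          rw [sq]; exact mul_le_mul (not_lt.1 c1) (not_lt.1 c2) hth0.le hd1
        nlinarith
  have hsum := Finset.sum_le_sum hpt
  rw [← Finset.mul_sum, hWG, Finset.sum_add_distrib, ← Finset.mul_sum, Finset.sum_add_distrib,
    ← Finset.sum_filter, ← Finset.sum_filter] at hsum
  have hW : ∑ x ∈ G, μ x.1 * μ x.2 * (deg μ F G x.1 * deg μ F G x.2) =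
      ∑ w ∈ walks F G, μ w.1.1 * μ w.1.2 * (μ w.2.1 * μ w.2.2) := by
    rw [walks, Finset.sum_filter, Finset.sum_product]
    refine Finset.sum_congr rfl fun x _ => ?_
    rw [Finset.sum_product, deg, deg, Finset.sum_mul_sum, Finset.mul_sum, Finset.sum_filter]
    refine Finset.sum_congr rfl fun a _ => ?_
    by_cases ha : (x.1, a) ∈ G
    · rw [if_pos ha, Finset.mul_sum, Finset.sum_filter]
      exact Finset.sum_congr rfl fun d _ => by simp [ha]
    · rw [if_neg ha]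
      exact (Finset.sum_eq_zero fun d _ => by simp [ha]).symm
  rw [hW] at hsum
  have hb := mul_le_mul_of_nonneg_left (add_le_add hbad hbad') (sq_nonneg th)
  have key : th ^ 2 * e0 ≤ ∑ w ∈ walks F G, μ w.1.1 * μ w.1.2 * (μ w.2.1 * μ w.2.2) := by
    linarith
  calc e0 ^ 3 = 4 * M ^ 2 * (th ^ 2 * e0) := by rw [hth]; field_simp; ring
    _ ≤ _ := mul_le_mul_of_nonneg_left key (by positivity)

/-- The three steps of a walk. -/
def wsteps (w : (ℕ × ℕ) × ℕ × ℕ) : (ℕ × ℕ) × (ℕ × ℕ) × (ℕ × ℕ) :=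
  (st w.2.1 w.1.1, st w.1.1 w.1.2, st w.1.2 w.2.2)

/-- Product of the first entries. -/
def pu (t : (ℕ × ℕ) × (ℕ × ℕ) × (ℕ × ℕ)) : ℕ := t.1.1 * t.2.1.1 * t.2.2.1

/-- Product of the second entries. -/
def pv (t : (ℕ × ℕ) × (ℕ × ℕ) × (ℕ × ℕ)) : ℕ := t.1.2 * t.2.1.2 * t.2.2.2

/-- The common factor of the two products. -/
def gg (t : (ℕ × ℕ) × (ℕ × ℕ) × (ℕ × ℕ)) : ℕ := Nat.gcd (pu t) (pv t)

/-- Triples of allowed steps. -/
noncomputable def Trip (N : Finset ℕ) (U : ℝ) : Finset ((ℕ × ℕ) × (ℕ × ℕ) × (ℕ × ℕ)) :=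
  Steps N U ×ˢ Steps N U ×ˢ Steps N U

lemma divisors_bound {ε : ℝ} (hε : 0 < ε) :
    ∃ C : ℝ, 0 < C ∧ ∀ (U : ℝ) (n : ℕ), 1 ≤ U → 0 < n → (n:ℝ) ≤ U ^ 3 →
      (n.divisors.card : ℝ) ≤ C * U ^ (ε / 4) := by
  obtain ⟨C, hC, h⟩ := Wide.card_divisors_le (show 0 < ε / 12 by positivity)
  refine ⟨C, hC, fun U n hU hn hle => (h n hn).trans ?_⟩
  refine mul_le_mul_of_nonneg_left ?_ hC.le
  calc (n:ℝ) ^ (ε / 12) ≤ (U ^ 3) ^ (ε / 12) :=
        Real.rpow_le_rpow (Nat.cast_nonneg _) hle (by positivity)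
    _ = U ^ (ε / 4) := by
        rw [← Real.rpow_natCast U 3, ← Real.rpow_mul (by linarith)]
        congr 1; push_cast; ring

lemma card_trip_small {ε : ℝ} (hε : 0 < ε) :
    ∃ C : ℝ, 0 < C ∧ ∀ (N : Finset ℕ) (U D : ℝ) (a d : ℕ), 1 ≤ U → 1 ≤ D → 0 < a → 0 < d →
      (((Trip N U).filter (fun t => a * pv t = d * pu t ∧ (gg t : ℝ) ≤ D)).card : ℝ) ≤
        C * U ^ ε * D := by
  obtain ⟨C, hC, hdiv⟩ := divisors_bound hε
  refine ⟨C ^ 4, by positivity, fun N U D a d hU hD ha hd => ?_⟩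
  set T := (Trip N U).filter (fun t => a * pv t = d * pu t ∧ (gg t : ℝ) ≤ D) with hT
  have hg0 : ∀ t ∈ T, 0 < pu t ∧ 0 < pv t ∧ (pu t : ℝ) ≤ U ^ 3 ∧ (pv t : ℝ) ≤ U ^ 3 := by
    intro t ht
    obtain ⟨h1, -⟩ := Finset.mem_filter.1 ht
    obtain ⟨h1, h23⟩ := Finset.mem_product.1 h1
    obtain ⟨h2, h3⟩ := Finset.mem_product.1 h23
    obtain ⟨a1, b1, A1, B1, -, -⟩ := mem_Steps h1
    obtain ⟨a2, b2, A2, B2, -, -⟩ := mem_Steps h2
    obtain ⟨a3, b3, A3, B3, -, -⟩ := mem_Steps h3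
    refine ⟨by unfold pu; positivity, by unfold pv; positivity, ?_, ?_⟩
    · unfold pu; push_cast
      calc ((t.1.1:ℝ) * t.2.1.1 * t.2.2.1) ≤ U * U * U := by gcongr
        _ = U ^ 3 := by ring
    · unfold pv; push_cast
      calc ((t.1.2:ℝ) * t.2.1.2 * t.2.2.2) ≤ U * U * U := by gcongr
        _ = U ^ 3 := by ring
  set G0 := Nat.gcd a d with hG0
  have hG0p : 0 < G0 := Nat.gcd_pos_of_pos_left _ ha
  set α := a / G0 with hα
  set β := d / G0 with hβ
  have hcop : Nat.Coprime α β := Nat.coprime_div_gcd_div_gcd hG0p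
  have hrel : ∀ t ∈ T, pu t = gg t * α ∧ pv t = gg t * β := by
    intro t ht
    obtain ⟨p0, -, -, -⟩ := hg0 t ht
    have he := (Finset.mem_filter.1 ht).2.1
    have ea : G0 * α = a := Nat.mul_div_cancel' (Nat.gcd_dvd_left a d)
    have ed : G0 * β = d := Nat.mul_div_cancel' (Nat.gcd_dvd_right a d)
    have hab : α * pv t = β * pu t := by
      refine Nat.eq_of_mul_eq_mul_left hG0p ?_
      rw [← mul_assoc, ea, ← mul_assoc, ed]; exact he
    obtain ⟨k, hk⟩ : α ∣ pu t := (Nat.Coprime.dvd_mul_left hcop).1 ⟨pv t, hab.symm⟩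
    have hα0 : 0 < α := Nat.pos_of_ne_zero fun h => by rw [h, zero_mul] at hk; omega
    have hk2 : pv t = β * k := by
      refine Nat.eq_of_mul_eq_mul_left hα0 ?_
      rw [hab, hk]; ring
    have hgk : gg t = k := by
      rw [gg, hk, hk2, Nat.gcd_mul_right, hcop.gcd_eq_one, one_mul]
    rw [hgk]
    exact ⟨hk.trans (mul_comm _ _), hk2.trans (mul_comm _ _)⟩
  set K : ℝ := (C * U ^ (ε / 4)) ^ 4 with hK
  have hfib : ∀ g ∈ Icc 1 ⌊D⌋₊, ((T.filter (fun t => gg t = g)).card : ℝ) ≤ K := by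
    intro g _
    rcases Finset.eq_empty_or_nonempty (T.filter (fun t => gg t = g)) with h | ⟨t0, ht0⟩
    · rw [h, Finset.card_empty, Nat.cast_zero]; positivity
    obtain ⟨ht0T, hg⟩ := Finset.mem_filter.1 ht0
    obtain ⟨q1, q2, q3, q4⟩ := hg0 t0 ht0T
    obtain ⟨r1, r2⟩ := hrel t0 ht0T
    have hP : g * α = pu t0 := by rw [r1, hg]
    have hQ : g * β = pv t0 := by rw [r2, hg]
    have hsub : (T.filter (fun t => gg t = g)).card ≤
        (((g * α).divisors ×ˢ (g * α).divisors) ×ˢ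
          ((g * β).divisors ×ˢ (g * β).divisors)).card := by
      refine Finset.card_le_card_of_injOn
        (fun t => ((t.1.1, t.2.1.1), (t.1.2, t.2.1.2))) ?_ ?_
      · intro t ht
        obtain ⟨htT, htg⟩ := Finset.mem_filter.1 ht
        obtain ⟨r1', r2'⟩ := hrel t htT
        rw [htg] at r1' r2'
        simp only [Finset.coe_product, Set.mem_prod, Finset.mem_coe, Nat.mem_divisors]
        refine ⟨⟨⟨?_, by omega⟩, ⟨?_, by omega⟩⟩, ⟨⟨?_, by omega⟩, ⟨?_, by omega⟩⟩⟩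
        · exact r1' ▸ dvd_mul_of_dvd_left (dvd_mul_right _ _) _
        · exact r1' ▸ dvd_mul_of_dvd_left (dvd_mul_left _ _) _
        · exact r2' ▸ dvd_mul_of_dvd_left (dvd_mul_right _ _) _
        · exact r2' ▸ dvd_mul_of_dvd_left (dvd_mul_left _ _) _
      · intro t ht t' ht' hh
        obtain ⟨htT, htg⟩ := Finset.mem_filter.1 ht
        obtain ⟨htT', htg'⟩ := Finset.mem_filter.1 ht'
        obtain ⟨r1', r2'⟩ := hrel t htT
        obtain ⟨s1, s2⟩ := hrel t' htT'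
        simp only [Prod.mk.injEq] at hh
        obtain ⟨⟨e1, e2⟩, e3, e4⟩ := hh
        have hp : pu t = pu t' := by rw [r1', s1, htg, htg']
        have hq : pv t = pv t' := by rw [r2', s2, htg, htg']
        have hp0 := (hg0 t htT).1
        have hq0 := (hg0 t htT).2.1
        unfold pu at hp hp0
        unfold pv at hq hq0
        have f1 : t.2.2.1 = t'.2.2.1 := by
          rw [← e1, ← e2] at hp
          exact Nat.eq_of_mul_eq_mul_left (Nat.pos_of_mul_pos_right hp0) hp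
        have f2 : t.2.2.2 = t'.2.2.2 := by
          rw [← e3, ← e4] at hq
          exact Nat.eq_of_mul_eq_mul_left (Nat.pos_of_mul_pos_right hq0) hq
        exact Prod.ext (Prod.ext e1 e3) (Prod.ext (Prod.ext e2 e4) (Prod.ext f1 f2))
    rw [Finset.card_product, Finset.card_product, Finset.card_product] at hsub
    have d1 := hdiv U (g * α) hU (hP ▸ q1) (hP ▸ q3)
    have d2 := hdiv U (g * β) hU (hQ ▸ q2) (hQ ▸ q4)
    calc ((T.filter (fun t => gg t = g)).card : ℝ)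
        ≤ (((g * α).divisors.card : ℝ) * (g * α).divisors.card) *
            (((g * β).divisors.card : ℝ) * (g * β).divisors.card) := by exact_mod_cast hsub
      _ ≤ ((C * U ^ (ε / 4)) * (C * U ^ (ε / 4))) * ((C * U ^ (ε / 4)) * (C * U ^ (ε / 4))) := by
          gcongr
      _ = K := by rw [hK]; ring
  have hmap : ∀ t ∈ T, gg t ∈ Icc 1 ⌊D⌋₊ := fun t ht => Finset.mem_Icc.2
    ⟨Nat.gcd_pos_of_pos_left _ (hg0 t ht).1, Nat.le_floor (Finset.mem_filter.1 ht).2.2⟩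
  rw [Finset.card_eq_sum_card_fiberwise hmap]
  push_cast
  refine (Finset.sum_le_sum hfib).trans ?_
  rw [Finset.sum_const, Nat.card_Icc, Nat.add_sub_cancel, nsmul_eq_mul]
  refine (mul_le_mul_of_nonneg_right (Nat.floor_le (by linarith)) (by positivity)).trans_eq ?_
  rw [hK, mul_pow, ← Real.rpow_natCast (U ^ (ε / 4)) 4, ← Real.rpow_mul (by linarith)]
  rw [show ε / 4 * ((4:ℕ):ℝ) = ε by push_cast; ring]
  ring

/-- Pairs of steps sharing a large cross factor. -/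
noncomputable def Cross (N : Finset ℕ) (U K : ℝ) : Finset ((ℕ × ℕ) × (ℕ × ℕ)) :=
  (Steps N U ×ˢ Steps N U).filter
    (fun p => K ≤ (Nat.gcd p.1.1 p.2.2 : ℝ) * (Nat.gcd p.1.2 p.2.1 : ℝ))

lemma card_Cross {ε : ℝ} (hε : 0 < ε) :
    ∃ C : ℝ, 0 < C ∧ ∀ (N : Finset ℕ) (U K : ℝ), 1 ≤ U → 0 < K →
      ((Cross N U K).card : ℝ) ≤
        C * U ^ ε * (2 * (N.card : ℝ) * U) * (2 * (N.card : ℝ) * (U / K + 1)) := by
  obtain ⟨C, hC, hdiv⟩ := divisors_bound hε
  refine ⟨C ^ 2, by positivity, fun N U K hU hK => ?_⟩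
  set S := Steps N U with hS
  have hU0 : 0 ≤ U := by linarith
  set R : ℝ := 2 * (N.card : ℝ) * (U / K + 1) with hR
  -- the second step, given the two shared divisors
  have hcount : ∀ d1 d2 : ℕ, Nat.Coprime d1 d2 → K ≤ (d1:ℝ) * d2 →
      ((S.filter (fun t => d1 ∣ t.2 ∧ d2 ∣ t.1)).card : ℝ) ≤ R := by
    intro d1 d2 hcop hKd
    set m := d1 * d2 with hm
    have hmK : K ≤ (m:ℝ) := by rw [hm]; exact_mod_cast hKd
    have hm0 : 0 < m := by exact_mod_cast lt_of_lt_of_le hK hmK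
    have hinj : (S.filter (fun t => d1 ∣ t.2 ∧ d2 ∣ t.1)).card ≤
        (sdiff' N ×ˢ Finset.range (⌊U⌋₊ / m + 1)).card := by
      refine Finset.card_le_card_of_injOn (fun t => ((t.2:ℤ) - t.1, t.2 / m)) ?_ ?_
      · intro t ht
        obtain ⟨htS, -⟩ := Finset.mem_filter.1 ht
        obtain ⟨-, -, -, hv, -, hN⟩ := mem_Steps htS
        exact Finset.mem_product.2 ⟨hN, Finset.mem_range.2
          (Nat.lt_succ_of_le (Nat.div_le_div_right (Nat.le_floor hv)))⟩
      · intro t ht t' ht' hh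
        obtain ⟨-, h1, h2⟩ := Finset.mem_filter.1 ht
        obtain ⟨-, h1', h2'⟩ := Finset.mem_filter.1 ht'
        obtain ⟨e1, e2⟩ := Prod.ext_iff.1 hh
        simp only at e1 e2
        have k1 : (d1:ℤ) ∣ (t.2:ℤ) - t'.2 :=
          Int.dvd_sub (Int.natCast_dvd_natCast.2 h1) (Int.natCast_dvd_natCast.2 h1')
        have k2 : (d2:ℤ) ∣ (t.2:ℤ) - t'.2 := by
          have := Int.dvd_sub (Int.natCast_dvd_natCast.2 h2) (Int.natCast_dvd_natCast.2 h2')
          convert this using 1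
          omega
        have k3 : (m:ℤ) ∣ (t.2:ℤ) - t'.2 := by
          rw [hm, Nat.cast_mul]
          exact IsCoprime.mul_dvd (Nat.isCoprime_iff_coprime.2 hcop) k1 k2
        have k4 : |(t.2:ℤ) - t'.2| < m := by
          have a1 := Nat.div_add_mod t.2 m
          have a2 := Nat.div_add_mod t'.2 m
          have a3 := Nat.mod_lt t.2 hm0
          have a4 := Nat.mod_lt t'.2 hm0
          rw [← e2] at a2
          rw [abs_lt]; omega
        have k5 := Int.eq_zero_of_abs_lt_dvd k3 k4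
        exact Prod.ext (by omega) (by omega)
    rw [Finset.card_product, Finset.card_range] at hinj
    have hfl : ((⌊U⌋₊ / m + 1 : ℕ) : ℝ) ≤ U / K + 1 := by
      push_cast
      refine add_le_add ?_ le_rfl
      refine Nat.cast_div_le.trans ?_
      calc (⌊U⌋₊ : ℝ) / (m:ℝ) ≤ U / (m:ℝ) :=
            div_le_div_of_nonneg_right (Nat.floor_le hU0) (Nat.cast_nonneg _)
        _ ≤ U / K := div_le_div_of_nonneg_left hU0 hK hmK
    calc ((S.filter (fun t => d1 ∣ t.2 ∧ d2 ∣ t.1)).card : ℝ)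
        ≤ ((sdiff' N).card : ℝ) * ((⌊U⌋₊ / m + 1 : ℕ) : ℝ) := by exact_mod_cast hinj
      _ ≤ R := by
          rw [hR]
          refine mul_le_mul ?_ hfl (Nat.cast_nonneg _) (by positivity)
          exact_mod_cast card_sdiff' N
  -- each first step
  have hfib : ∀ s ∈ S, (((Cross N U K).filter (fun p => p.1 = s)).card : ℝ) ≤
      (C * U ^ (ε / 4)) ^ 2 * R := by
    intro s hs
    obtain ⟨s1, s2, S1, S2, scop, -⟩ := mem_Steps hs
    set P := (s.1.divisors ×ˢ s.2.divisors).filter (fun d => K ≤ (d.1:ℝ) * d.2) with hP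
    have hsub : ((Cross N U K).filter (fun p => p.1 = s)).card ≤
        (P.biUnion (fun d => S.filter (fun t => d.1 ∣ t.2 ∧ d.2 ∣ t.1))).card := by
      refine Finset.card_le_card_of_injOn (fun p => p.2) ?_ ?_
      · intro p hp
        obtain ⟨hpC, rfl⟩ := Finset.mem_filter.1 hp
        obtain ⟨hpS, hpK⟩ := Finset.mem_filter.1 hpC
        refine Finset.mem_biUnion.2 ⟨(Nat.gcd p.1.1 p.2.2, Nat.gcd p.1.2 p.2.1), ?_, ?_⟩
        · exact Finset.mem_filter.2 ⟨Finset.mem_product.2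
            ⟨Nat.mem_divisors.2 ⟨Nat.gcd_dvd_left _ _, s1.ne'⟩,
              Nat.mem_divisors.2 ⟨Nat.gcd_dvd_left _ _, s2.ne'⟩⟩, hpK⟩
        · exact Finset.mem_filter.2 ⟨(Finset.mem_product.1 hpS).2, Nat.gcd_dvd_right _ _,
            Nat.gcd_dvd_right _ _⟩
      · intro p hp p' hp' h
        exact Prod.ext ((Finset.mem_filter.1 hp).2.trans (Finset.mem_filter.1 hp').2.symm) h
    have hU3 : U ≤ U ^ 3 := le_self_pow₀ hU (by norm_num)
    have d1 := hdiv U s.1 hU s1 (S1.trans hU3)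
    have d2 := hdiv U s.2 hU s2 (S2.trans hU3)
    calc (((Cross N U K).filter (fun p => p.1 = s)).card : ℝ)
        ≤ ((P.biUnion (fun d => S.filter (fun t => d.1 ∣ t.2 ∧ d.2 ∣ t.1))).card : ℝ) := by
          exact_mod_cast hsub
      _ ≤ ∑ d ∈ P, ((S.filter (fun t => d.1 ∣ t.2 ∧ d.2 ∣ t.1)).card : ℝ) := by
          exact_mod_cast Finset.card_biUnion_le
      _ ≤ ∑ _d ∈ P, R := Finset.sum_le_sum fun d hd => by
          obtain ⟨h1, h2⟩ := Finset.mem_filter.1 hd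
          obtain ⟨h3, h4⟩ := Finset.mem_product.1 h1
          exact hcount _ _ (Nat.Coprime.coprime_dvd_left (Nat.dvd_of_mem_divisors h3)
            (Nat.Coprime.coprime_dvd_right (Nat.dvd_of_mem_divisors h4) scop)) h2
      _ = (P.card : ℝ) * R := by rw [Finset.sum_const, nsmul_eq_mul]
      _ ≤ ((s.1.divisors.card : ℝ) * s.2.divisors.card) * R := by
          refine mul_le_mul_of_nonneg_right ?_ (by positivity)
          calc (P.card : ℝ) ≤ ((s.1.divisors ×ˢ s.2.divisors).card : ℝ) := by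
                exact_mod_cast Finset.card_filter_le _ _
            _ = _ := by rw [Finset.card_product]; push_cast; ring
      _ ≤ ((C * U ^ (ε / 4)) * (C * U ^ (ε / 4))) * R := by gcongr
      _ = _ := by ring
  have hmap : ∀ p ∈ Cross N U K, p.1 ∈ S := fun p hp =>
    (Finset.mem_product.1 (Finset.mem_filter.1 hp).1).1
  rw [Finset.card_eq_sum_card_fiberwise hmap]
  push_cast
  refine (Finset.sum_le_sum hfib).trans ?_
  rw [Finset.sum_const, nsmul_eq_mul]
  have hpow : (U ^ (ε / 4)) ^ 2 ≤ U ^ ε := by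
    rw [← Real.rpow_natCast (U ^ (ε / 4)) 2, ← Real.rpow_mul hU0]
    exact Real.rpow_le_rpow_of_exponent_le hU (by push_cast; linarith)
  calc (S.card : ℝ) * ((C * U ^ (ε / 4)) ^ 2 * R)
      ≤ (2 * (N.card : ℝ) * U) * ((C ^ 2 * U ^ ε) * R) := by
        refine mul_le_mul (card_Steps hU0) ?_ (by positivity) (by positivity)
        refine mul_le_mul_of_nonneg_right ?_ (by positivity)
        rw [mul_pow]
        exact mul_le_mul_of_nonneg_left hpow (sq_nonneg C)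
    _ = _ := by rw [hR]; ring

lemma card_trip_large {ε : ℝ} (hε : 0 < ε) :
    ∃ C : ℝ, 0 < C ∧ ∀ (N : Finset ℕ) (U D : ℝ), 1 ≤ U → 1 ≤ D →
      (((Trip N U).filter (fun t => D < (gg t : ℝ))).card : ℝ) ≤
        C * U ^ ε * ((U * (N.card:ℝ)) ^ 2 * ((N.card:ℝ) * (U / D ^ (1/3:ℝ) + 1))) := by
  obtain ⟨C, hC, hQ⟩ := card_Cross hε
  refine ⟨24 * C, by positivity, fun N U D hU hD => ?_⟩
  set K : ℝ := D ^ (1/3:ℝ) with hK
  have hK0 : 0 < K := Real.rpow_pos_of_pos (by linarith) _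
  set S := Steps N U with hS
  set Q := Cross N U K with hQdef
  have hsub : (Trip N U).filter (fun t => D < (gg t : ℝ)) ⊆
      ((Q ×ˢ S).image (fun p => (p.1.1, p.1.2, p.2)) ∪
        (Q ×ˢ S).image (fun p => (p.1.1, p.2, p.1.2))) ∪
        (Q ×ˢ S).image (fun p => (p.2, p.1.1, p.1.2)) := by
    intro t ht
    obtain ⟨h1, hg⟩ := Finset.mem_filter.1 ht
    obtain ⟨s1, s23⟩ := Finset.mem_product.1 h1
    obtain ⟨s2, s3⟩ := Finset.mem_product.1 s23
    obtain ⟨a1, b1, -, -, c1, -⟩ := mem_Steps s1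
    obtain ⟨a2, b2, -, -, c2, -⟩ := mem_Steps s2
    obtain ⟨a3, b3, -, -, c3, -⟩ := mem_Steps s3
    obtain ⟨⟨x1, y1⟩, ⟨x2, y2⟩, ⟨x3, y3⟩⟩ := t
    simp only at a1 b1 c1 a2 b2 c2 a3 b3 c3
    simp only [gg, pu, pv] at hg
    have hdvd : Nat.gcd (x1 * x2 * x3) (y1 * y2 * y3) ∣
        (Nat.gcd x1 y2 * Nat.gcd y1 x2) * (Nat.gcd x1 y3 * Nat.gcd y1 x3) *
          (Nat.gcd x2 y3 * Nat.gcd y2 x3) := by
      have g3 : ∀ k a b c : ℕ, Nat.gcd k (a * b * c) ∣ Nat.gcd k a * Nat.gcd k b * Nat.gcd k c :=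
        fun k a b c => (_root_.gcd_mul_dvd_mul_gcd (α := ℕ) k (a * b) c).trans
          (mul_dvd_mul_right (_root_.gcd_mul_dvd_mul_gcd (α := ℕ) k a b) _)
      have e : ∀ x, Nat.gcd x (y1 * y2 * y3) ∣ Nat.gcd x y1 * Nat.gcd x y2 * Nat.gcd x y3 :=
        fun x => g3 x y1 y2 y3
      have h := (Nat.gcd_comm (x1 * x2 * x3) (y1 * y2 * y3)).dvd.trans (g3 (y1 * y2 * y3) x1 x2 x3)
      rw [Nat.gcd_comm _ x1, Nat.gcd_comm _ x2, Nat.gcd_comm _ x3] at h
      refine (h.trans (mul_dvd_mul (mul_dvd_mul (e x1) (e x2)) (e x3))).trans (dvd_of_eq ?_)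
      rw [c1.gcd_eq_one, c2.gcd_eq_one, c3.gcd_eq_one, Nat.gcd_comm y1 x2, Nat.gcd_comm y1 x3,
        Nat.gcd_comm y2 x3]
      ring
    set p := Nat.gcd x1 y2 * Nat.gcd y1 x2
    set q := Nat.gcd x1 y3 * Nat.gcd y1 x3
    set r := Nat.gcd x2 y3 * Nat.gcd y2 x3
    have hpos : 0 < p * q * r :=
      Nat.mul_pos (Nat.mul_pos
        (Nat.mul_pos (Nat.gcd_pos_of_pos_left _ a1) (Nat.gcd_pos_of_pos_left _ b1))
        (Nat.mul_pos (Nat.gcd_pos_of_pos_left _ a1) (Nat.gcd_pos_of_pos_left _ b1)))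
        (Nat.mul_pos (Nat.gcd_pos_of_pos_left _ a2) (Nat.gcd_pos_of_pos_left _ b2))
    have hle : D < ((p:ℝ) * q * r) := by
      refine hg.trans_le ?_
      exact_mod_cast Nat.le_of_dvd hpos hdvd
    have hcases : K ≤ (p:ℝ) ∨ K ≤ (q:ℝ) ∨ K ≤ (r:ℝ) := by
      by_contra hc
      push Not at hc
      have e : K * K * K = D := by
        rw [hK, ← Real.rpow_add (by linarith), ← Real.rpow_add (by linarith)]
        norm_num
      have : (p:ℝ) * q * r ≤ K * K * K :=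
        mul_le_mul (mul_le_mul hc.1.le hc.2.1.le (Nat.cast_nonneg _) hK0.le) hc.2.2.le
          (Nat.cast_nonneg _) (by positivity)
      linarith
    rcases hcases with h | h | h
    · refine Finset.mem_union_left _ (Finset.mem_union_left _
        (Finset.mem_image.2 ⟨(((x1, y1), (x2, y2)), (x3, y3)), ?_, rfl⟩))
      exact Finset.mem_product.2 ⟨Finset.mem_filter.2
        ⟨Finset.mem_product.2 ⟨s1, s2⟩, by simpa [p] using h⟩, s3⟩
    · refine Finset.mem_union_left _ (Finset.mem_union_right _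
        (Finset.mem_image.2 ⟨(((x1, y1), (x3, y3)), (x2, y2)), ?_, rfl⟩))
      exact Finset.mem_product.2 ⟨Finset.mem_filter.2
        ⟨Finset.mem_product.2 ⟨s1, s3⟩, by simpa [q] using h⟩, s2⟩
    · refine Finset.mem_union_right _
        (Finset.mem_image.2 ⟨(((x2, y2), (x3, y3)), (x1, y1)), ?_, rfl⟩)
      exact Finset.mem_product.2 ⟨Finset.mem_filter.2
        ⟨Finset.mem_product.2 ⟨s2, s3⟩, by simpa [r] using h⟩, s1⟩
  have hcard : ((Trip N U).filter (fun t => D < (gg t : ℝ))).card ≤ 3 * (Q.card * S.card) := by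
    refine (Finset.card_le_card hsub).trans ((Finset.card_union_le _ _).trans ?_)
    refine (add_le_add (Finset.card_union_le _ _) le_rfl).trans ?_
    rw [← Finset.card_product]
    have h1 := Finset.card_image_le (s := Q ×ˢ S) (f := fun p => (p.1.1, p.1.2, p.2))
    have h2 := Finset.card_image_le (s := Q ×ˢ S) (f := fun p => (p.1.1, p.2, p.1.2))
    have h3 := Finset.card_image_le (s := Q ×ˢ S) (f := fun p => (p.2, p.1.1, p.1.2))
    omega
  calc (((Trip N U).filter (fun t => D < (gg t : ℝ))).card : ℝ)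
      ≤ 3 * ((Q.card : ℝ) * S.card) := by exact_mod_cast hcard
    _ ≤ 3 * ((C * U ^ ε * (2 * (N.card : ℝ) * U) * (2 * (N.card : ℝ) * (U / K + 1))) *
          (2 * (N.card : ℝ) * U)) := by
        refine mul_le_mul_of_nonneg_left ?_ (by norm_num)
        exact mul_le_mul (hQ N U K hU hK0) (card_Steps (by linarith)) (Nat.cast_nonneg _)
          (by positivity)
    _ = _ := by ring

/-- The three-walk bound. -/
theorem walk_bound {ε : ℝ} (hε : 0 < ε) : ∃ C : ℝ, 0 < C ∧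
    ∀ (μ : ℕ → ℝ) (F : Finset ℕ) (E : Finset (ℕ × ℕ)) (N : Finset ℕ) (U D m : ℝ),
      (∀ x, 0 ≤ μ x) → (∀ x ∈ F, 0 < x ∧ μ x ≤ m) → 1 ≤ U → 1 ≤ D →
      (∀ x ∈ E, x.1 ∈ F ∧ x.2 ∈ F ∧ x.1 < x.2 ∧ (cv x.1 x.2 : ℝ) ≤ U ∧
        (cv x.1 x.2 - cu x.1 x.2) ∈ N) →
      (∑ x ∈ E, μ x.1 * μ x.2) ^ 3 ≤ C * U ^ ε * (∑ x ∈ F, μ x) ^ 2 *
        ((∑ x ∈ F, μ x) ^ 2 * m ^ 2 * D + (∑ x ∈ F, μ x) * m ^ 3 * (U * (N.card : ℝ)) ^ 2 *
          ((N.card : ℝ) * (U / D ^ (1/3:ℝ) + 1))) := by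
  obtain ⟨C1, hC1, hsmall⟩ := card_trip_small hε
  obtain ⟨C2, hC2, hlarge⟩ := card_trip_large hε
  refine ⟨4 * (C1 + C2), by positivity, fun μ F E N U D m hμ hF hU hD hE => ?_⟩
  set M := ∑ x ∈ F, μ x with hM
  have hM0 : 0 ≤ M := Finset.sum_nonneg fun x _ => hμ x
  rcases Finset.eq_empty_or_nonempty F with hFe | ⟨x0, hx0⟩
  · have hEe : E = ∅ := Finset.eq_empty_of_forall_notMem fun x hx => by
      have := (hE x hx).1
      simp [hFe] at this
    have hMz : M = 0 := by rw [hM, hFe]; simp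
    rw [hEe, hMz]; simp
  have hm : 0 ≤ m := (hμ x0).trans (hF x0 hx0).2
  have hFpos : ∀ x ∈ F, 0 < x := fun x hx => (hF x hx).1
  refine (sum_cube_le_walks hμ fun x hx => ⟨(hE x hx).1, (hE x hx).2.1, (hE x hx).2.2.1⟩).trans ?_
  set G := sym E with hG
  set Wf : (ℕ × ℕ) × ℕ × ℕ → ℝ := fun w => μ w.1.1 * μ w.1.2 * (μ w.2.1 * μ w.2.2) with hWf
  have hfacts : ∀ w ∈ walks F G, w.1.1 ∈ F ∧ w.1.2 ∈ F ∧ w.2.1 ∈ F ∧ w.2.2 ∈ F ∧
      wsteps w ∈ Trip N U ∧ w.2.1 * (wsteps w).1.2 = w.1.1 * (wsteps w).1.1 ∧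
      w.1.1 * (wsteps w).2.1.2 = w.1.2 * (wsteps w).2.1.1 ∧
      w.1.2 * (wsteps w).2.2.2 = w.2.2 * (wsteps w).2.2.1 := by
    intro w hw
    obtain ⟨h0, h1, h2⟩ := Finset.mem_filter.1 hw
    obtain ⟨hbc, -⟩ := Finset.mem_product.1 h0
    obtain ⟨A1, B1, S1, R1⟩ := st_spec hFpos hE (swap_mem_sym h1)
    obtain ⟨A2, B2, S2, R2⟩ := st_spec hFpos hE (a := w.1.1) (b := w.1.2) hbc
    obtain ⟨A3, B3, S3, R3⟩ := st_spec hFpos hE h2
    exact ⟨B1, B2, A1, B3, Finset.mem_product.2 ⟨S1, Finset.mem_product.2 ⟨S2, S3⟩⟩, R1, R2, R3⟩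
  have hinj : ∀ w ∈ walks F G, ∀ w' ∈ walks F G, w.2.1 = w'.2.1 → wsteps w = wsteps w' →
      w = w' := by
    intro w hw w' hw' ha hs
    obtain ⟨-, -, -, -, hT, r1, r2, r3⟩ := hfacts w hw
    obtain ⟨-, -, -, -, -, r1', r2', r3'⟩ := hfacts w' hw'
    obtain ⟨t1, t23⟩ := Finset.mem_product.1 hT
    obtain ⟨t2, t3⟩ := Finset.mem_product.1 t23
    rw [← hs] at r1' r2' r3'
    rw [← ha] at r1'
    have eb : w.1.1 = w'.1.1 :=
      Nat.eq_of_mul_eq_mul_right (mem_Steps t1).1 (r1.symm.trans r1')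
    rw [← eb] at r2'
    have ec : w.1.2 = w'.1.2 :=
      Nat.eq_of_mul_eq_mul_right (mem_Steps t2).1 (r2.symm.trans r2')
    rw [← ec] at r3'
    have ed : w.2.2 = w'.2.2 :=
      Nat.eq_of_mul_eq_mul_right (mem_Steps t3).1 (r3.symm.trans r3')
    exact Prod.ext (Prod.ext eb ec) (Prod.ext ha ed)
  have hWn : ∀ w, 0 ≤ Wf w := fun w => by
    have := hμ w.1.1; have := hμ w.1.2; have := hμ w.2.1; have := hμ w.2.2
    positivity
  -- walks with a small common factor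
  have hsm : ∑ w ∈ (walks F G).filter (fun w => (gg (wsteps w) : ℝ) ≤ D), Wf w ≤
      C1 * U ^ ε * D * (m ^ 2 * M ^ 2) := by
    set W1 := (walks F G).filter (fun w => (gg (wsteps w) : ℝ) ≤ D) with hW1
    have hmap : ∀ w ∈ W1, w.2 ∈ F ×ˢ F := fun w hw => by
      obtain ⟨-, -, h3, h4, -⟩ := hfacts w (Finset.mem_filter.1 hw).1
      exact Finset.mem_product.2 ⟨h3, h4⟩
    rw [← Finset.sum_fiberwise_of_maps_to hmap]
    have hfib : ∀ ad ∈ F ×ˢ F, ∑ w ∈ W1.filter (fun w => w.2 = ad), Wf w ≤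
        (C1 * U ^ ε * D * m ^ 2) * (μ ad.1 * μ ad.2) := by
      intro ad had
      obtain ⟨ha, hd⟩ := Finset.mem_product.1 had
      have hc : (W1.filter (fun w => w.2 = ad)).card ≤
          ((Trip N U).filter (fun t => ad.1 * pv t = ad.2 * pu t ∧ (gg t : ℝ) ≤ D)).card := by
        refine Finset.card_le_card_of_injOn wsteps ?_ ?_
        · intro w hw
          obtain ⟨hw1, rfl⟩ := Finset.mem_filter.1 hw
          obtain ⟨hww, hg⟩ := Finset.mem_filter.1 hw1
          obtain ⟨hb, hc', -, -, hT, r1, r2, r3⟩ := hfacts w hww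
          refine Finset.mem_filter.2 ⟨hT, ?_, hg⟩
          refine Nat.eq_of_mul_eq_mul_left (Nat.mul_pos (hFpos _ hb) (hFpos _ hc')) ?_
          calc w.1.1 * w.1.2 * (w.2.1 * pv (wsteps w))
              = (w.2.1 * (wsteps w).1.2) * (w.1.1 * (wsteps w).2.1.2) *
                  (w.1.2 * (wsteps w).2.2.2) := by unfold pv; ring
            _ = (w.1.1 * (wsteps w).1.1) * (w.1.2 * (wsteps w).2.1.1) *
                  (w.2.2 * (wsteps w).2.2.1) := by rw [r1, r2, r3]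
            _ = w.1.1 * w.1.2 * (w.2.2 * pu (wsteps w)) := by unfold pu; ring
        · intro w hw w' hw' h
          obtain ⟨h1, e1⟩ := Finset.mem_filter.1 hw
          obtain ⟨h1', e1'⟩ := Finset.mem_filter.1 hw'
          exact hinj w (Finset.mem_filter.1 h1).1 w' (Finset.mem_filter.1 h1').1
            (by rw [e1, e1']) h
      calc ∑ w ∈ W1.filter (fun w => w.2 = ad), Wf w
          ≤ ∑ _w ∈ W1.filter (fun w => w.2 = ad), m ^ 2 * (μ ad.1 * μ ad.2) := by
            refine Finset.sum_le_sum fun w hw => ?_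
            obtain ⟨h1, rfl⟩ := Finset.mem_filter.1 hw
            obtain ⟨hb, hc', -⟩ := hfacts w (Finset.mem_filter.1 h1).1
            refine mul_le_mul_of_nonneg_right ?_ (mul_nonneg (hμ _) (hμ _))
            rw [sq]
            exact mul_le_mul (hF _ hb).2 (hF _ hc').2 (hμ _) hm
        _ = ((W1.filter (fun w => w.2 = ad)).card : ℝ) * (m ^ 2 * (μ ad.1 * μ ad.2)) := by
            rw [Finset.sum_const, nsmul_eq_mul]
        _ ≤ (C1 * U ^ ε * D) * (m ^ 2 * (μ ad.1 * μ ad.2)) := by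
            refine mul_le_mul_of_nonneg_right ((Nat.cast_le.2 hc).trans
              (hsmall N U D _ _ hU hD (hFpos _ ha) (hFpos _ hd))) ?_
            exact mul_nonneg (sq_nonneg m) (mul_nonneg (hμ _) (hμ _))
        _ = _ := by ring
    refine (Finset.sum_le_sum hfib).trans_eq ?_
    rw [← Finset.mul_sum, Finset.sum_product, ← Finset.sum_mul_sum, ← hM]
    ring
  -- walks with a large common factor
  set R : ℝ := (U * (N.card:ℝ)) ^ 2 * ((N.card:ℝ) * (U / D ^ (1/3:ℝ) + 1)) with hR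
  have hR0 : 0 ≤ R := by
    have : 0 < D ^ (1/3:ℝ) := Real.rpow_pos_of_pos (by linarith) _
    have : 0 ≤ U := by linarith
    positivity
  have hlg : ∑ w ∈ (walks F G).filter (fun w => ¬ (gg (wsteps w) : ℝ) ≤ D), Wf w ≤
      C2 * U ^ ε * R * (m ^ 3 * M) := by
    set W2 := (walks F G).filter (fun w => ¬ (gg (wsteps w) : ℝ) ≤ D) with hW2
    have hmap : ∀ w ∈ W2, w.2.1 ∈ F := fun w hw => (hfacts w (Finset.mem_filter.1 hw).1).2.2.1
    rw [← Finset.sum_fiberwise_of_maps_to hmap]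
    have hfib : ∀ a ∈ F, ∑ w ∈ W2.filter (fun w => w.2.1 = a), Wf w ≤
        (C2 * U ^ ε * R * m ^ 3) * μ a := by
      intro a _
      have hc : (W2.filter (fun w => w.2.1 = a)).card ≤
          ((Trip N U).filter (fun t => D < (gg t : ℝ))).card := by
        refine Finset.card_le_card_of_injOn wsteps ?_ ?_
        · intro w hw
          obtain ⟨hw1, -⟩ := Finset.mem_filter.1 hw
          obtain ⟨hww, hg⟩ := Finset.mem_filter.1 hw1
          exact Finset.mem_filter.2 ⟨(hfacts w hww).2.2.2.2.1, not_le.1 hg⟩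
        · intro w hw w' hw' h
          obtain ⟨h1, e1⟩ := Finset.mem_filter.1 hw
          obtain ⟨h1', e1'⟩ := Finset.mem_filter.1 hw'
          exact hinj w (Finset.mem_filter.1 h1).1 w' (Finset.mem_filter.1 h1').1
            (e1.trans e1'.symm) h
      calc ∑ w ∈ W2.filter (fun w => w.2.1 = a), Wf w
          ≤ ∑ _w ∈ W2.filter (fun w => w.2.1 = a), m ^ 3 * μ a := by
            refine Finset.sum_le_sum fun w hw => ?_
            obtain ⟨h1, rfl⟩ := Finset.mem_filter.1 hw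
            obtain ⟨hb, hc', -, hd, -⟩ := hfacts w (Finset.mem_filter.1 h1).1
            calc Wf w = μ w.1.1 * μ w.1.2 * μ w.2.2 * μ w.2.1 := by rw [hWf]; ring
              _ ≤ m * m * m * μ w.2.1 := by
                  refine mul_le_mul_of_nonneg_right ?_ (hμ _)
                  exact mul_le_mul (mul_le_mul (hF _ hb).2 (hF _ hc').2 (hμ _) hm) (hF _ hd).2
                    (hμ _) (by positivity)
              _ = _ := by ring
        _ = ((W2.filter (fun w => w.2.1 = a)).card : ℝ) * (m ^ 3 * μ a) := by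
            rw [Finset.sum_const, nsmul_eq_mul]
        _ ≤ (C2 * U ^ ε * R) * (m ^ 3 * μ a) := by
            refine mul_le_mul_of_nonneg_right ((Nat.cast_le.2 hc).trans (hlarge N U D hU hD)) ?_
            have := hμ a
            positivity
        _ = _ := by ring
    refine (Finset.sum_le_sum hfib).trans_eq ?_
    rw [← Finset.mul_sum, ← hM]
    ring
  have hUε : 0 ≤ U ^ ε := Real.rpow_nonneg (by linarith) _
  calc 4 * M ^ 2 * ∑ w ∈ walks F G, Wf w
      ≤ 4 * M ^ 2 * (C1 * U ^ ε * D * (m ^ 2 * M ^ 2) + C2 * U ^ ε * R * (m ^ 3 * M)) := by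
        refine mul_le_mul_of_nonneg_left ?_ (by positivity)
        rw [← Finset.sum_filter_add_sum_filter_not (walks F G) (fun w => (gg (wsteps w) : ℝ) ≤ D)]
        exact add_le_add hsm hlg
    _ ≤ 4 * M ^ 2 * ((C1 + C2) * U ^ ε * (D * (m ^ 2 * M ^ 2)) +
          (C1 + C2) * U ^ ε * (R * (m ^ 3 * M))) := by
        refine mul_le_mul_of_nonneg_left (add_le_add ?_ ?_) (by positivity)
        · rw [mul_assoc (C1 * U ^ ε)]
          refine mul_le_mul_of_nonneg_right ?_ (by positivity)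
          exact mul_le_mul_of_nonneg_right (by linarith) hUε
        · rw [mul_assoc (C2 * U ^ ε)]
          refine mul_le_mul_of_nonneg_right ?_ (by positivity)
          exact mul_le_mul_of_nonneg_right (by linarith) hUε
    _ = _ := by rw [hR]; ring

end Vale.Agent.P028.Div
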