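import Vale.Agent.P028.Div.Fib
import Vale.Agent.P028.Div.Walk

/-!
# The smallest scales

At scales `t ≤ exp (-0.484 l)` the cofactors of an edge differ by one of very few integers, so the
three-walk bound alone gives a power saving.
-/

namespace Vale.Agent.P028.Div

open Finset
open scoped Classical

variable {k : ℕ} {γ l t : ℝ} {ψ : ℕ → ℝ} {x : ℕ × ℕ}

/-- An edge forces the scale to be at least about `exp (-l / 2)`. -/
lemma edge_scale (hl : 0 ≤ l) (h : EdgeOK k γ l t ψ x) :
    1 ≤ Ub k l t ∧ Real.exp (-((1/2 + del k) * l)) / 4 ≤ t := by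
  have P := h.pf
  have hh := h.hitN
  have huv := P.huv
  set n := cv x.1 x.2 - cu x.1 x.2 with hndef
  have hn : 0 < n := by omega
  have hnz : ((cv x.1 x.2 : ℤ) - cu x.1 x.2) = (n : ℤ) := by omega
  rw [hnz] at hh
  obtain ⟨j, hj, hne⟩ := hh
  push_cast at hj
  have hnU : (n:ℝ) ≤ Ub k l t :=
    le_trans (Nat.cast_le.2 (Nat.sub_le _ _)) h.cv_le
  have hn1 : (1:ℝ) ≤ n := by exact_mod_cast hn
  refine ⟨hn1.trans hnU, ?_⟩
  by_contra hlt
  rw [not_le] at hlt
  set q : ℚ := ((-j : ℤ) : ℚ) / ((n:ℤ):ℚ) with hq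
  have hden : q.den ≤ n := by
    have h' : ((q.den : ℕ):ℤ) ∣ (n:ℤ) := by
      rw [hq, ← Rat.divInt_eq_div]
      exact Rat.den_dvd _ _
    exact Nat.le_of_dvd hn (Int.natCast_dvd_natCast.1 h')
  have hq0 : (0:ℝ) < q.den := by exact_mod_cast q.den_pos
  have hn0 : (0:ℝ) < n := by linarith
  have hcast : (q.num:ℝ) / q.den = -(j:ℝ) / n := by
    have h' : ((q:ℚ):ℝ) = -(j:ℝ) / n := by rw [hq]; push_cast; ring
    rw [← h', Rat.cast_def]
  have hnum : (q.num:ℝ) = -(j:ℝ) * q.den / n := by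
    rw [div_eq_iff hq0.ne'] at hcast
    rw [hcast]; ring
  have hE : Real.exp (-((1/2 + del k) * l)) ≤ Real.exp (-(l / 2)) := by
    refine Real.exp_le_exp.2 ?_
    have := mul_nonneg (del_nonneg k) hl
    linarith
  have hsel : sel γ l = (q.den, q.num) := by
    refine sel_eq ⟨q.den_pos, ?_, ?_, ?_⟩
    · rw [Int.isCoprime_iff_nat_coprime]; simpa using q.reduced.symm
    · have h1 : (q.den:ℝ) ≤ n := by exact_mod_cast hden
      refine (h1.trans hnU).trans ?_
      unfold Ub
      refine (mul_le_mul_of_nonneg_right hlt.le (Real.exp_pos _).le).trans ?_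
      rw [div_mul_eq_mul_div, ← Real.exp_add,
        show -((1/2 + del k) * l) + (1 + del k) * l = l / 2 by ring]
      linarith [Real.exp_pos (l / 2)]
    · have e : (q.den:ℝ) * γ - q.num = (q.den:ℝ) / n * ((j:ℝ) + γ * n) := by
        rw [hnum]; field_simp; ring
      rw [e, abs_mul, abs_of_pos (by positivity : 0 < (q.den:ℝ) / n)]
      refine le_trans (mul_le_of_le_one_left (abs_nonneg _) ?_) ?_
      · rw [div_le_one hn0]; exact_mod_cast hden
      · linarith [Real.exp_pos (-(l / 2))]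
  rw [hsel] at hne
  apply hne
  have h0 : (j:ℝ) * q.den + (q.num:ℝ) * n = 0 := by rw [hnum]; field_simp; ring
  exact_mod_cast h0

/-- The number of integers below `U` with a hit. -/
lemma hit_count (hl : 2 ≤ l) (ht : 0 < t) (L : ℕ) (U : ℝ) (hLU : (L:ℝ) ≤ U)
    (hU : t * Real.exp l ≤ U) (s : Finset ℕ)
    (hs : ∀ n ∈ s, 1 ≤ n ∧ n ≤ L ∧ HitN γ t (sel γ l) (n:ℤ)) :
    (s.card : ℝ) ≤ 20 * (1 + t * U + U / Real.exp (l / 2) + t * Real.exp (l / 2)) := by
  set R := Real.exp (l / 2) with hR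
  have hR0 : 0 < R := Real.exp_pos _
  have hR2 : 2 ≤ R := by
    have := Real.add_one_le_exp (l / 2)
    linarith
  have hRR : R * R = Real.exp l := by rw [hR, ← Real.exp_add]; ring_nf
  have hinv : Real.exp (-(l / 2)) = 1 / R := by rw [Real.exp_neg, hR, one_div]
  have hU0 : 0 ≤ U := le_trans (Nat.cast_nonneg _) hLU
  have htU : 0 ≤ t * U := mul_nonneg ht.le hU0
  have hUR : 0 ≤ U / R := div_nonneg hU0 hR0.le
  have htR : 0 ≤ t * R := mul_nonneg ht.le hR0.le
  have htL : t * L ≤ t * U := mul_le_mul_of_nonneg_left hLU ht.le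
  by_cases hex : ∃ y, Fr γ l y
  · -- an exceptional fraction
    obtain ⟨y, hy⟩ := hex
    have hy' : Fr γ l (sel γ l) := by rw [sel_eq hy]; exact hy
    obtain ⟨hB, hco, hBR, hBe⟩ := hy'
    rw [hinv] at hBe
    have h := major_count γ t ht.le (sel γ l) hB hco 1 L le_rfl 0 L
      (le_of_eq (by simp)) s fun a ha => by
        obtain ⟨h1, h2, h3⟩ := hs a ha
        refine ⟨h1, h2, ?_, by simpa using h3⟩
        simpa using h2
    have hg : Nat.gcd (sel γ l).1 1 = 1 := Nat.gcd_one_right _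
    rw [hg] at h
    simp only [Nat.cast_one, one_mul, div_one] at h
    have hmin := min_le_right ((L:ℝ) / ((sel γ l).1:ℝ)) (4 * t * L)
    have e1 : ((sel γ l).1:ℝ) * t ≤ t * R := by
      have := mul_le_mul_of_nonneg_right hBR ht.le
      linarith
    have e2 : (L:ℝ) * |((sel γ l).1:ℝ) * γ - (sel γ l).2| ≤ U / R := by
      refine (mul_le_mul hLU hBe (abs_nonneg _) hU0).trans ?_
      rw [show U * (1 / R / 2) = U / R / 2 by ring]
      linarith
    linarith
  · -- no exceptional fraction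
    set Q := ⌊R / 2⌋₊ with hQdef
    have hQ : 0 < Q := Nat.floor_pos.2 (by linarith)
    obtain ⟨q, hq1, hq2⟩ := Real.exists_rat_abs_sub_le_and_den_le γ hQ
    set d := q.den with hd
    set a := q.num with ha
    have hd0 : (0:ℝ) < d := by exact_mod_cast q.den_pos
    have hdR : (d:ℝ) ≤ R / 2 :=
      le_trans (Nat.cast_le.2 hq2) (Nat.floor_le (by positivity))
    have hco : IsCoprime (d:ℤ) a := by
      rw [Int.isCoprime_iff_nat_coprime]; simpa [hd, ha] using q.reduced.symm
    set ε := |(d:ℝ) * γ - a| with hε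
    have happ : ε ≤ 2 / R := by
      rw [Rat.cast_def, ← hd, ← ha] at hq1
      have h := mul_le_mul_of_nonneg_left hq1 hd0.le
      rw [← abs_of_pos hd0, ← abs_mul, abs_of_pos hd0, mul_sub, mul_div_cancel₀ _ hd0.ne'] at h
      refine h.trans ?_
      have e : (d:ℝ) * (1 / (((Q:ℝ) + 1) * d)) = 1 / ((Q:ℝ) + 1) := by field_simp
      rw [e]
      refine (one_div_le_one_div_of_le (by positivity) (Nat.lt_floor_add_one (R / 2)).le).trans
        (le_of_eq ?_)
      field_simp
    have hlow : 1 / R / 2 < ε := by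
      by_contra hle
      rw [not_lt, ← hinv] at hle
      exact hex ⟨(d, a), q.den_pos, hco, hdR, hle⟩
    have hε0 : 0 < ε := lt_trans (by positivity) hlow
    have h := arc_count γ 0 t ht.le L d a q.den_pos hco hε0 s fun V hV => by
      obtain ⟨h1, h2, z, hz, -⟩ := hs V hV
      refine ⟨h1, h2, z, ?_⟩
      push_cast at hz
      simpa using hz
    have e1 : t / ε ≤ 2 * t * R := by
      rw [div_le_iff₀ hε0]
      have : 1 ≤ ε * (2 * R) := by
        rw [div_div, div_lt_iff₀ (by positivity)] at hlow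
        linarith
      have := mul_le_mul_of_nonneg_left this ht.le
      linarith
    have e2 : (d:ℝ) * t ≤ R / 2 * t := mul_le_mul_of_nonneg_right hdR ht.le
    have e3 : (L:ℝ) * ε ≤ U * (2 / R) := mul_le_mul hLU happ hε0.le hU0
    have e4 : (2 * ((d:ℝ) * t + (L:ℝ) * ε) + 1) * (2 * t / ε + 1)
        ≤ (2 * (R / 2 * t + U * (2 / R)) + 1) * (4 * (t * R) + 1) := by
      refine mul_le_mul (by linarith) ?_ (by positivity) (by positivity)
      rw [mul_div_assoc]; linarith
    have e5 : (2 * (R / 2 * t + U * (2 / R)) + 1) * (4 * (t * R) + 1)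
        = 4 * (t * (t * Real.exp l)) + 16 * (t * U) + 5 * (t * R) + 4 * (U / R) + 1 := by
      rw [← hRR]; field_simp; ring
    have e6 := mul_le_mul_of_nonneg_left hU ht.le
    linarith

/-- The edge mass at the smallest scales. -/
theorem window_edges (k : ℕ) (hk : 100 ≤ k) : ∃ l0 C : ℝ, 0 < C ∧
    ∀ (γ l t : ℝ) (ψ : ℕ → ℝ) (F : Finset ℕ) (E : Finset (ℕ × ℕ)),
      Fib k γ l t ψ F E → l0 ≤ l → t ≤ Real.exp (-((484/1000) * l)) →
        Emass E ψ ≤ C * (t * t ^ kap k) / l * (1 + Mass F ψ) ^ 2 := by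
  obtain ⟨C, hC, hwalk⟩ := walk_bound (ε := (1/1000 : ℝ)) (by norm_num)
  set K : ℝ := 1 + 3000000 * C with hK
  have hK1 : 1 ≤ K := by rw [hK]; linarith
  refine ⟨2, 1000 * K, by linarith, fun γ l t ψ F E hF hl htl => ?_⟩
  have ht := hF.ht
  set M := Mass F ψ with hMdef
  have hM : 0 ≤ M := Mass_nonneg hF.nn
  have hl0 : 0 < l := by linarith
  rcases E.eq_empty_or_nonempty with hE | ⟨x, hx⟩
  · subst hE
    simp only [Emass, Finset.sum_empty]
    positivity
  obtain ⟨hU1, htlow⟩ := edge_scale hl0.le (hF.ok x hx)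
  have hd0 := del_nonneg k
  have hd : del k ≤ 1 / 10000 := by
    have : (100:ℝ) ≤ k := by exact_mod_cast hk
    unfold del
    exact one_div_le_one_div_of_le (by norm_num) (by linarith)
  have hdl : del k * l ≤ 1 / 10000 * l := mul_le_mul_of_nonneg_right hd hl0.le
  have hdl0 : 0 ≤ del k * l := mul_nonneg hd0 hl0.le
  have htlow' : Real.exp (-(5001/10000 * l)) / 4 ≤ t := by
    refine le_trans (div_le_div_of_nonneg_right (Real.exp_le_exp.2 ?_) (by norm_num)) htlow
    linarith
  set U := Ub k l t with hUdef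
  have hUt : t * Real.exp l ≤ U :=
    mul_le_mul_of_nonneg_left (Real.exp_le_exp.2 (by linarith)) ht.le
  have hUt' : U ≤ t * Real.exp (10001/10000 * l) :=
    mul_le_mul_of_nonneg_left (Real.exp_le_exp.2 (by linarith)) ht.le
  have hUtop : U ≤ Real.exp (5161/10000 * l) := by
    refine (hUt'.trans (mul_le_mul_of_nonneg_right htl (Real.exp_pos _).le)).trans (le_of_eq ?_)
    rw [← Real.exp_add]; ring_nf
  have hU0 : 0 < U := by linarith
  -- the differences
  set N := (Finset.Icc 1 ⌊U⌋₊).filter (fun n : ℕ => HitN γ t (sel γ l) (n:ℤ)) with hN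
  have hcard : (N.card : ℝ) ≤ 80 * Real.exp (33/1000 * l) := by
    have h := hit_count hl ht ⌊U⌋₊ U (Nat.floor_le hU0.le) hUt N fun n hn => by
      obtain ⟨hn1, hn2⟩ := Finset.mem_filter.1 hn
      exact ⟨(Finset.mem_Icc.1 hn1).1, (Finset.mem_Icc.1 hn1).2, hn2⟩
    have e0 : 1 ≤ Real.exp (33/1000 * l) := Real.one_le_exp (by linarith)
    have e1 : t * U ≤ Real.exp (33/1000 * l) := by
      refine (mul_le_mul htl hUtop hU0.le (Real.exp_pos _).le).trans ?_
      rw [← Real.exp_add]; exact Real.exp_le_exp.2 (by linarith)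
    have e2 : U / Real.exp (l / 2) ≤ Real.exp (33/1000 * l) := by
      refine (div_le_div_of_nonneg_right hUtop (Real.exp_pos _).le).trans ?_
      rw [← Real.exp_sub]; exact Real.exp_le_exp.2 (by linarith)
    have e3 : t * Real.exp (l / 2) ≤ Real.exp (33/1000 * l) := by
      refine (mul_le_mul_of_nonneg_right htl (Real.exp_pos _).le).trans ?_
      rw [← Real.exp_add]; exact Real.exp_le_exp.2 (by linarith)
    linarith
  -- the walk bound
  have hw := hwalk (fun q => lam q * ψ q) F E N U (Real.exp (36/100 * l)) (Real.exp (-l))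
    (fun q => mul_nonneg (lam_nonneg q) (hF.nn q))
    (fun q hq => ⟨(hF.blk q hq).1,
      (mul_le_of_le_one_left (hF.nn q) (lam_le_one q)).trans (hF.blk q hq).2.2⟩)
    hU1 (Real.one_le_exp (by linarith))
    (fun y hy => by
      have hok := hF.ok y hy
      have P := hok.pf
      have huv := P.huv
      refine ⟨(hF.sub y hy).1, (hF.sub y hy).2, hok.lt, hok.cv_le,
        Finset.mem_filter.2 ⟨Finset.mem_Icc.2 ⟨by omega, ?_⟩, ?_⟩⟩
      · exact le_trans (Nat.sub_le _ _) (Nat.le_floor hok.cv_le)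
      · have h := hok.hitN
        rwa [Nat.cast_sub huv.le])
  change Emass E ψ ^ 3 ≤ C * U ^ (1/1000 : ℝ) * M ^ 2 *
    (M ^ 2 * Real.exp (-l) ^ 2 * Real.exp (36/100 * l) + M * Real.exp (-l) ^ 3 *
      (U * (N.card : ℝ)) ^ 2 *
        ((N.card : ℝ) * (U / Real.exp (36/100 * l) ^ (1/3 : ℝ) + 1))) at hw
  have hUe : U ^ (1/1000 : ℝ) ≤ Real.exp (1/1000 * l) := by
    rw [mul_comm, Real.exp_mul]
    exact Real.rpow_le_rpow hU0.le (hUtop.trans (Real.exp_le_exp.2 (by linarith))) (by norm_num)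
  have hD : Real.exp (36/100 * l) ^ (1/3 : ℝ) = Real.exp (12/100 * l) := by
    rw [← Real.exp_mul]; ring_nf
  rw [hD] at hw
  set δ := Real.exp (-(2/100 * l)) with hδ
  have ht3 : Real.exp (-(15003/10000 * l)) ≤ 64 * t ^ 3 := by
    have h := pow_le_pow_left₀ (by positivity) htlow' 3
    rw [div_pow, ← Real.exp_nat_mul] at h
    refine le_trans (le_of_eq ?_) (le_trans
      (mul_le_mul_of_nonneg_left h (by norm_num : (0:ℝ) ≤ 64)) le_rfl)
    rw [show ((3:ℕ):ℝ) * -(5001/10000 * l) = -(15003/10000 * l) by push_cast; ring]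
    ring
  have hterm1 : Real.exp (-l) ^ 2 * Real.exp (36/100 * l) ≤ 64 * (t ^ 3 * δ) := by
    calc Real.exp (-l) ^ 2 * Real.exp (36/100 * l)
        ≤ Real.exp (-(15003/10000 * l)) * δ := by
          rw [← Real.exp_nat_mul, hδ, ← Real.exp_add, ← Real.exp_add]
          exact Real.exp_le_exp.2 (by push_cast; linarith)
      _ ≤ 64 * t ^ 3 * δ := mul_le_mul_of_nonneg_right ht3 (Real.exp_pos _).le
      _ = _ := by ring
  have hlast : U / Real.exp (12/100 * l) + 1 ≤ 5 * (t * Real.exp (8801/10000 * l)) := by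
    have a1 : U / Real.exp (12/100 * l) ≤ t * Real.exp (8801/10000 * l) := by
      refine (div_le_div_of_nonneg_right hUt' (Real.exp_pos _).le).trans (le_of_eq ?_)
      rw [mul_div_assoc, ← Real.exp_sub]; ring_nf
    have a2 : 1 / 4 ≤ t * Real.exp (8801/10000 * l) := by
      refine le_trans ?_ (mul_le_mul_of_nonneg_right htlow' (Real.exp_pos _).le)
      rw [div_mul_eq_mul_div, ← Real.exp_add]
      exact div_le_div_of_nonneg_right (Real.one_le_exp (by linarith)) (by norm_num)
    linarith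
  have hterm2 : Real.exp (-l) ^ 3 * (U * (N.card : ℝ)) ^ 2 *
      ((N.card : ℝ) * (U / Real.exp (12/100 * l) + 1)) ≤ 2560000 * (t ^ 3 * δ) := by
    have hn0 : (0:ℝ) ≤ N.card := Nat.cast_nonneg _
    calc _ ≤ Real.exp (-l) ^ 3 *
          (t * Real.exp (10001/10000 * l) * (80 * Real.exp (33/1000 * l))) ^ 2 *
          ((80 * Real.exp (33/1000 * l)) * (5 * (t * Real.exp (8801/10000 * l)))) := by
          refine mul_le_mul (mul_le_mul_of_nonneg_left (pow_le_pow_left₀ (by positivity)
            (mul_le_mul hUt' hcard hn0 (by positivity)) 2) (by positivity))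
            (mul_le_mul hcard hlast (by positivity) (by positivity)) (by positivity) (by positivity)
      _ = 2560000 * t ^ 3 * (Real.exp (-l) ^ 3 * Real.exp (10001/10000 * l) ^ 2 *
            Real.exp (33/1000 * l) ^ 3 * Real.exp (8801/10000 * l)) := by ring
      _ ≤ 2560000 * t ^ 3 * δ := by
          refine mul_le_mul_of_nonneg_left ?_ (by positivity)
          simp only [← Real.exp_nat_mul, ← Real.exp_add, hδ]
          exact Real.exp_le_exp.2 (by push_cast; linarith)
      _ = _ := by ring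
  -- the cube
  have hM1 : M ^ 2 * M ^ 2 ≤ (1 + M) ^ 6 ∧ M ^ 2 * M ≤ (1 + M) ^ 6 := by
    constructor
    · calc M ^ 2 * M ^ 2 = M ^ 4 := by ring
        _ ≤ (1 + M) ^ 4 := pow_le_pow_left₀ hM (by linarith) 4
        _ ≤ _ := pow_le_pow_right₀ (by linarith) (by norm_num)
    · calc M ^ 2 * M = M ^ 3 := by ring
        _ ≤ (1 + M) ^ 3 := pow_le_pow_left₀ hM (by linarith) 3
        _ ≤ _ := pow_le_pow_right₀ (by linarith) (by norm_num)
  set e := Real.exp (-(6/1000 * l)) with he
  have he3 : Real.exp (1/1000 * l) * δ ≤ e ^ 3 := by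
    rw [hδ, he, ← Real.exp_nat_mul, ← Real.exp_add]
    exact Real.exp_le_exp.2 (by push_cast; linarith)
  have hcube : Emass E ψ ^ 3 ≤ (K * (t * e * (1 + M) ^ 2)) ^ 3 := by
    refine hw.trans ?_
    have hin : M ^ 2 * (M ^ 2 * Real.exp (-l) ^ 2 * Real.exp (36/100 * l) +
        M * Real.exp (-l) ^ 3 * (U * (N.card : ℝ)) ^ 2 *
          ((N.card : ℝ) * (U / Real.exp (12/100 * l) + 1)))
        ≤ 3000000 * (t ^ 3 * δ) * (1 + M) ^ 6 := by
      calc _ = M ^ 2 * M ^ 2 * (Real.exp (-l) ^ 2 * Real.exp (36/100 * l)) +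
            M ^ 2 * M * (Real.exp (-l) ^ 3 * (U * (N.card : ℝ)) ^ 2 *
              ((N.card : ℝ) * (U / Real.exp (12/100 * l) + 1))) := by ring
        _ ≤ (1 + M) ^ 6 * (64 * (t ^ 3 * δ)) + (1 + M) ^ 6 * (2560000 * (t ^ 3 * δ)) :=
            add_le_add (mul_le_mul hM1.1 hterm1 (by positivity) (by positivity))
              (mul_le_mul hM1.2 hterm2 (by positivity) (by positivity))
        _ ≤ _ := by
            have : 0 ≤ (1 + M) ^ 6 * (t ^ 3 * δ) := by positivity
            linarith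
    calc _ = C * U ^ (1/1000 : ℝ) * (M ^ 2 * (M ^ 2 * Real.exp (-l) ^ 2 * Real.exp (36/100 * l) +
          M * Real.exp (-l) ^ 3 * (U * (N.card : ℝ)) ^ 2 *
            ((N.card : ℝ) * (U / Real.exp (12/100 * l) + 1)))) := by ring
      _ ≤ C * Real.exp (1/1000 * l) * (3000000 * (t ^ 3 * δ) * (1 + M) ^ 6) :=
          mul_le_mul (mul_le_mul_of_nonneg_left hUe hC.le) hin (by positivity) (by positivity)
      _ = 3000000 * C * (t ^ 3 * (Real.exp (1/1000 * l) * δ) * (1 + M) ^ 6) := by ring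
      _ ≤ K ^ 3 * (t ^ 3 * e ^ 3 * (1 + M) ^ 6) := by
          refine mul_le_mul ?_ (mul_le_mul_of_nonneg_right
            (mul_le_mul_of_nonneg_left he3 (by positivity)) (by positivity)) (by positivity)
            (by positivity)
          have := le_self_pow₀ hK1 (n := 3) (by norm_num)
          linarith
      _ = _ := by ring
  have hmain : Emass E ψ ≤ K * (t * e * (1 + M) ^ 2) :=
    (pow_le_pow_iff_left₀ (Emass_nonneg hF.nn) (by positivity) (by norm_num)).1 hcube
  refine hmain.trans ?_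
  have hkap : kap k ≤ 1 / 100000 := by
    have : (100:ℝ) ≤ k := by exact_mod_cast hk
    unfold kap
    exact one_div_le_one_div_of_le (by norm_num) (by linarith)
  have hkap0 : 0 ≤ kap k := by unfold kap; positivity
  have hsave : l * e ≤ 1000 * t ^ kap k := by
    have h1 : l ≤ 1000 * Real.exp (1/1000 * l) := by
      linarith [Real.add_one_le_exp (1/1000 * l)]
    have h2 : Real.exp (-(5001/10000 * l + 2)) ≤ t := by
      refine le_trans ?_ htlow'
      rw [neg_add, Real.exp_add, div_eq_mul_one_div (Real.exp _)]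
      refine mul_le_mul_of_nonneg_left ?_ (Real.exp_pos _).le
      rw [Real.exp_neg, one_div]
      refine inv_anti₀ (by norm_num) ?_
      have h := pow_le_pow_left₀ (by norm_num) (by linarith [Real.add_one_le_exp (1:ℝ)] : (2:ℝ) ≤ Real.exp 1) 2
      rw [← Real.exp_nat_mul] at h
      norm_num at h ⊢
      linarith
    have h3 := Real.rpow_le_rpow (Real.exp_pos _).le h2 hkap0
    rw [← Real.exp_mul] at h3
    calc l * e ≤ 1000 * Real.exp (1/1000 * l) * e :=
          mul_le_mul_of_nonneg_right h1 (Real.exp_pos _).le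
      _ = 1000 * Real.exp (-(5/1000 * l)) := by
          rw [he, mul_assoc, ← Real.exp_add]; ring_nf
      _ ≤ 1000 * Real.exp (-(5001/10000 * l + 2) * kap k) := by
          refine mul_le_mul_of_nonneg_left (Real.exp_le_exp.2 ?_) (by norm_num)
          have := mul_le_mul_of_nonneg_left hkap (by linarith : (0:ℝ) ≤ 5001/10000 * l + 2)
          linarith
      _ ≤ _ := mul_le_mul_of_nonneg_left h3 (by norm_num)
  rw [div_mul_eq_mul_div, le_div_iff₀ hl0]
  calc K * (t * e * (1 + M) ^ 2) * l = K * t * (1 + M) ^ 2 * (l * e) := by ring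
    _ ≤ K * t * (1 + M) ^ 2 * (1000 * t ^ kap k) :=
        mul_le_mul_of_nonneg_left hsave (by positivity)
    _ = _ := by ring

end Vale.Agent.P028.Div
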