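import Vale.Agent.P028.Div.Near
import Vale.Agent.P028.Div.Window
import Vale.Agent.P028.Div.Mid
import Vale.Agent.P028.Wide.Moment

namespace Vale.Agent.P028.Div

open Finset MeasureTheory
open scoped Classical
open Vale.Agent.P028.Wide (dyb dyi tof dy_spec)

variable {k : ℕ}

lemma tof_pos (b : Bool) (i : ℕ) : 0 < tof b i := by unfold Wide.tof; split_ifs <;> positivity

/-- The sum of the geometric weights over the binary scales. -/
lemma scale_sum (k : ℕ) (hk : 100 ≤ k) : ∃ C : ℝ, 0 < C ∧ ∀ K : Finset (Bool × ℕ),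
    ∑ κ ∈ K, min (tof κ.1 κ.2 ^ kap k) (tof κ.1 κ.2 ^ (-kap k)) ≤ C := by
  have hkap : 0 < kap k := by
    have : (0:ℝ) < k := by exact_mod_cast (by omega : 0 < k)
    unfold kap; positivity
  set r := (2:ℝ) ^ (-kap k)
  have hr0 : 0 < r := by positivity
  have hr1 : r < 1 := Real.rpow_lt_one_of_one_lt_of_neg (by norm_num) (by linarith)
  have hd : 0 < 1 - r := by linarith
  refine ⟨2 / (1 - r), by positivity, fun K => ?_⟩
  have hterm : ∀ κ ∈ K, min (tof κ.1 κ.2 ^ kap k) (tof κ.1 κ.2 ^ (-kap k)) ≤ r ^ κ.2 := by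
    rintro ⟨b, i⟩ _
    simp only [r]
    rw [← Real.rpow_natCast, ← Real.rpow_mul two_pos.le]
    cases b
    · refine (min_le_right _ _).trans ?_
      simp only [Wide.tof, Bool.false_eq_true, if_false]
      rw [← Real.rpow_natCast 2 (i + 1), ← Real.rpow_mul two_pos.le]
      refine Real.rpow_le_rpow_of_exponent_le one_le_two ?_
      push_cast; linarith
    · refine (min_le_left _ _).trans (le_of_eq ?_)
      simp only [Wide.tof, if_true]
      rw [one_div, inv_pow, ← Real.rpow_natCast 2 i, ← Real.rpow_neg two_pos.le, ← Real.rpow_mul two_pos.le]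
      ring_nf
  refine (Finset.sum_le_sum hterm).trans ?_
  calc ∑ κ ∈ K, r ^ κ.2 ≤ ∑ κ ∈ (Finset.univ : Finset Bool) ×ˢ (K.image Prod.snd), r ^ κ.2 :=
        Finset.sum_le_sum_of_subset_of_nonneg (fun κ hκ => Finset.mem_product.2
          ⟨Finset.mem_univ _, Finset.mem_image_of_mem _ hκ⟩) fun _ _ _ => by positivity
    _ = 2 * ∑ i ∈ K.image Prod.snd, r ^ i := by
        rw [Finset.sum_product]; simp
    _ ≤ 2 * ∑' i : ℕ, r ^ i := mul_le_mul_of_nonneg_left
        ((summable_geometric_of_lt_one hr0.le hr1).sum_le_tsum _ fun _ _ => by positivity) two_pos.le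
    _ = _ := by rw [tsum_geometric_of_lt_one hr0.le hr1]; ring

/-- The overlaps of one dyadic scale. -/
lemma scale_ov (k : ℕ) (hk : 100 ≤ k) : ∃ l0 C : ℝ, 0 < C ∧
    ∀ (γ l t : ℝ) (ψ : ℕ → ℝ) (F : Finset ℕ) (E : Finset (ℕ × ℕ)), Fib k γ l t ψ F E → l0 ≤ l →
      Lg l ^ 50 ≤ Mass F ψ →
      ∑ x ∈ E, ov (sel γ l) γ ψ x.1 x.2
        ≤ C * (Emass E ψ + min (t ^ kap k) (t ^ (-kap k)) * Mass F ψ ^ 2) := by
  obtain ⟨lw, CW, hCW, hwin⟩ := window_edges k hk
  obtain ⟨lm, CM, hCM, hmid⟩ := mid_edges k hk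
  obtain ⟨ln, C1, hC1, hone⟩ := near_ov k hk
  obtain ⟨CB, hCB, hbigov⟩ := big_ov k hk
  obtain ⟨ll, CL, hCL, hlarge⟩ := large_ov k hk
  obtain ⟨CP, hCP, hPL⟩ := PL_sq_le one_pos
  have hk0 : (0:ℝ) < k := by exact_mod_cast (by omega : 0 < k)
  have hkap : 0 ≤ kap k := by unfold kap; positivity
  refine ⟨max (max lw lm) (max ll ln), 32 * CP * (4 * CW + CM) + C1 + CL + CB, by positivity,
    fun γ l t ψ F E H hl hM => ?_⟩
  have hl1 := H.hl
  have ht := H.ht
  set M := Mass F ψ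
  set w := min (t ^ kap k) (t ^ (-kap k))
  have hM1 : 1 ≤ M := le_trans (one_le_pow₀ (by linarith [two_le_Lg (l := l) (by linarith)])) hM
  have hw0 : 0 ≤ w := le_min (by positivity) (by positivity)
  have hE0 : 0 ≤ Emass E ψ := Emass_nonneg H.nn
  set C := 32 * CP * (4 * CW + CM) + C1 + CL + CB
  have hfin : ∀ {X c : ℝ}, X ≤ c * w * M ^ 2 → c ≤ C → X ≤ C * (Emass E ψ + w * M ^ 2) :=
    fun {X c} h hc => by
      refine h.trans ?_
      rw [mul_assoc]
      exact mul_le_mul hc (le_add_of_nonneg_left hE0) (by positivity) (by positivity)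
  have hsmall : ∀ {c : ℝ}, 0 ≤ c → t ≤ 1 → Emass E ψ ≤ c * (t * t ^ kap k) / l * M ^ 2 →
      ∑ x ∈ E, ov (sel γ l) γ ψ x.1 x.2 ≤ 32 * CP * c * w * M ^ 2 := by
    intro c hc ht1 hE
    have hwt : w = t ^ kap k := min_eq_left ((Real.rpow_le_one ht.le ht1 hkap).trans
      (Real.one_le_rpow_of_pos_of_le_one_of_nonpos ht ht1 (by linarith)))
    have hP := hPL l t hl1 ht.le (ht1.trans hl1)
    rw [Real.rpow_one] at hP
    refine (Finset.sum_le_sum fun x hx => H.ov_loss hk hx).trans ?_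
    rw [← Finset.mul_sum]
    calc 16 * ((1 + t) / t) * PL (Xl l t) ^ 2 * Emass E ψ
        ≤ 16 * (2 / t) * (CP * l) * (c * (t * t ^ kap k) / l * M ^ 2) := by
          gcongr
          linarith
      _ = _ := by rw [hwt]; field_simp; ring
  have hCs : 0 ≤ 32 * CP * (4 * CW + CM) := by positivity
  rcases le_or_gt t (Real.exp (-((484/1000) * l))) with hc1 | hc1
  · have ht1 : t ≤ 1 := hc1.trans (Real.exp_le_one_iff.2 (by linarith))
    have h := hwin γ l t ψ F E H (le_trans (le_trans (le_max_left _ _) (le_max_left _ _)) hl) hc1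
    have h2 : (1 + M) ^ 2 ≤ 4 * M ^ 2 := by nlinarith
    refine hfin (hsmall (c := 4 * CW) (by positivity) ht1 (h.trans ?_)) ?_
    · rw [show 4 * CW * (t * t ^ kap k) / l * M ^ 2 = CW * (t * t ^ kap k) / l * (4 * M ^ 2) by ring]
      gcongr
    · simp only [C]
      have : 0 ≤ CP * CM := by positivity
      linarith
  rcases le_or_gt t (l ^ (-(15:ℝ))) with hc2 | hc2
  · have ht1 : t ≤ 1 := hc2.trans (Real.rpow_le_one_of_one_le_of_nonpos hl1 (by norm_num))
    have h := hmid γ l t ψ F E H (le_trans (le_trans (le_max_right _ _) (le_max_left _ _)) hl) hc1 hc2 hM1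
    refine hfin (hsmall hCM.le ht1 h) ?_
    simp only [C]
    have : 0 ≤ CP * CW := by positivity
    linarith
  have hwt : 1 ≤ t → w = t ^ (-kap k) := fun ht1 => min_eq_right
      ((Real.rpow_le_one_of_one_le_of_nonpos ht1 (by linarith)).trans (Real.one_le_rpow ht1 hkap))
  rcases le_or_gt t (l ^ (1 / (k:ℝ))) with hc3 | hc3
  · have htl : t ≤ l := hc3.trans (Real.rpow_le_self_of_one_le hl1 (by
      rw [div_le_one hk0]; exact_mod_cast (by omega : 1 ≤ k)))
    rcases le_or_gt t (Lg l ^ 32) with hc4 | hc4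
    · refine hfin (hone γ l t ψ F E H (le_trans (le_trans (le_max_right _ _) (le_max_right _ _)) hl) hc2 hc4 htl hM) ?_
      simp only [C]; linarith
    · refine (hbigov γ l t ψ F E H hc4 htl hM1).trans ?_
      rw [hwt ((one_le_pow₀ (by linarith [two_le_Lg (l := l) (by linarith)])).trans hc4.le)]
      exact mul_le_mul_of_nonneg_right (by simp only [C]; linarith) (add_nonneg hE0 (by positivity))
  · refine (hlarge γ l t ψ F E H (le_trans (le_trans (le_max_left _ _) (le_max_right _ _)) hl) hc3 hM1).trans ?_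
    rw [hwt (le_trans (Real.one_le_rpow hl1 (by positivity)) hc3.le)]
    exact mul_le_mul_of_nonneg_right (by simp only [C]; linarith)
      (add_nonneg hE0 (by positivity))

lemma ov_symm (xf : ℕ × ℤ) (γ : ℝ) (ψ : ℕ → ℝ) (q r : ℕ) : ov xf γ ψ q r = ov xf γ ψ r q := by
  unfold ov; rw [Set.inter_comm]

/-- The second moment over one block. -/
theorem block_moment (k : ℕ) (hk : 100 ≤ k) : ∃ l0 C : ℝ, 0 < C ∧
    ∀ (γ l : ℝ) (ψ : ℕ → ℝ) (F : Finset ℕ), l0 ≤ l → |γ| ≤ Real.exp l → (∀ q, 0 ≤ ψ q) →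
      (∀ q ∈ F, InBlk k l ψ q) → Lg l ^ 50 ≤ Mass F ψ →
      ∑ q ∈ F, ∑ r ∈ F, ov (sel γ l) γ ψ q r ≤ C * Mass F ψ ^ 2 := by
  obtain ⟨l1, C1, hC1, hscale⟩ := scale_ov k hk
  obtain ⟨CS, hCS, hsum⟩ := scale_sum k hk
  refine ⟨max l1 1, 2 * C1 * (1 + CS) + 2, by positivity, fun γ l ψ F hl hγ hnn hblk hM => ?_⟩
  have hl1 : 1 ≤ l := le_trans (le_max_right _ _) hl
  set M := Mass F ψ with hMdef
  have hM1 : 1 ≤ M := le_trans (one_le_pow₀ (by linarith [two_le_Lg (l := l) (by linarith)])) hM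
  set xs := sel γ l
  set O := (F ×ˢ F).filter (fun x => x.1 < x.2)
  set P := O.filter (fun x => (Hits xs γ ψ x.1 x.2).Nonempty)
  have hPmem : ∀ x ∈ P, x.1 ∈ F ∧ x.2 ∈ F ∧ x.1 < x.2 ∧ (Hits xs γ ψ x.1 x.2).Nonempty := fun x hx => by
    obtain ⟨h1, h2⟩ := Finset.mem_filter.1 hx
    obtain ⟨h3, h4⟩ := Finset.mem_filter.1 h1
    exact ⟨(Finset.mem_product.1 h3).1, (Finset.mem_product.1 h3).2, h4, h2⟩
  have hOP : ∑ x ∈ O, ov xs γ ψ x.1 x.2 = ∑ x ∈ P, ov xs γ ψ x.1 x.2 := by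
    refine (Finset.sum_filter_of_ne fun x hx hne => ?_).symm
    by_contra hempty
    obtain ⟨h3, h4⟩ := Finset.mem_filter.1 hx
    exact hne (hits_empty (hblk x.1 (Finset.mem_product.1 h3).1).1 (hblk x.2 (Finset.mem_product.1 h3).2).1
      (hnn _) (hnn _) (Finset.not_nonempty_iff_eq_empty.1 hempty))
  set key : ℕ × ℕ → Bool × ℕ := fun x => (dyb (tt ψ x.1 x.2), dyi (tt ψ x.1 x.2))
  have hoff : ∑ x ∈ P, ov xs γ ψ x.1 x.2 ≤ C1 * (1 + CS) * M ^ 2 := by
    rw [← Finset.sum_fiberwise_of_maps_to (g := key) (t := P.image key)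
      (fun x hx => Finset.mem_image_of_mem key hx)]
    refine (Finset.sum_le_sum (g := fun κ => C1 * (Emass (P.filter (fun x => key x = κ)) ψ
        + min (tof κ.1 κ.2 ^ kap k) (tof κ.1 κ.2 ^ (-kap k)) * M ^ 2)) fun κ _ => ?_).trans ?_
    · refine hscale γ l (tof κ.1 κ.2) ψ F _ ?_ (le_trans (le_max_left _ _) hl) hM
      have hfacts : ∀ x ∈ P.filter (fun x => key x = κ),
          EdgeOK k γ l (tof κ.1 κ.2) ψ x ∧ tof κ.1 κ.2 / 2 ≤ tt ψ x.1 x.2 := by
        intro x hx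
        obtain ⟨hxP, hxk⟩ := Finset.mem_filter.1 hx
        obtain ⟨h1, h2, h3, h4⟩ := hPmem x hxP
        have hT : 0 < tt ψ x.1 x.2 := by
          have P' := pairFacts (hblk x.1 h1).1 h3
          rw [tt_eq P']
          have hv : (0:ℝ) < cv x.1 x.2 := by exact_mod_cast lt_trans P'.hu0 P'.huv
          have := lt_of_lt_of_le (Real.exp_pos _) (hblk x.1 h1).2.1
          have := hnn x.2
          positivity
        obtain ⟨a, b, -, -⟩ := dy_spec hT
        subst hxk
        exact ⟨⟨hblk _ h1, hblk _ h2, h3, a, h4⟩, by linarith⟩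
      exact ⟨hl1, hγ, tof_pos _ _, hnn, hblk,
        fun x hx => ⟨(hPmem x (Finset.mem_filter.1 hx).1).1, (hPmem x (Finset.mem_filter.1 hx).1).2.1⟩,
        fun x hx => (hfacts x hx).1, fun x hx => (hfacts x hx).2⟩
    rw [← Finset.mul_sum, Finset.sum_add_distrib, ← Finset.sum_mul, mul_assoc]
    refine mul_le_mul_of_nonneg_left ?_ hC1.le
    rw [add_mul, one_mul]
    refine add_le_add ?_ (mul_le_mul_of_nonneg_right (hsum _) (sq_nonneg _))
    unfold Emass
    rw [Finset.sum_fiberwise_of_maps_to (fun x hx => Finset.mem_image_of_mem key hx)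
      (fun x => (lam x.1 * ψ x.1) * (lam x.2 * ψ x.2)), hMdef, Mass, sq, Finset.sum_mul_sum, ← Finset.sum_product']
    exact Finset.sum_le_sum_of_subset_of_nonneg ((Finset.filter_subset _ _).trans (Finset.filter_subset _ _))
      fun x _ _ => mul_nonneg (mul_nonneg (lam_nonneg _) (hnn _)) (mul_nonneg (lam_nonneg _) (hnn _))
  have hdiag : ∑ q ∈ F, ov xs γ ψ q q ≤ 2 * M := by
    rw [hMdef, Mass, Finset.mul_sum]
    refine Finset.sum_le_sum fun q hq => le_of_eq ?_
    obtain ⟨hq0, -, hq2⟩ := hblk q hq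
    have h2 : 2 * ψ q ≤ 1 := by
      have : Real.exp (-l) ≤ Real.exp (-1) := Real.exp_le_exp.2 (by linarith)
      have := Real.exp_neg_one_lt_d9
      linarith
    unfold ov
    rw [Set.inter_self, volume_real_SSet hq0 (hnn q) h2]; ring
  have hsplit : ∑ q ∈ F, ∑ r ∈ F, ov xs γ ψ q r
      = 2 * ∑ x ∈ O, ov xs γ ψ x.1 x.2 + ∑ q ∈ F, ov xs γ ψ q q := by
    rw [← Finset.sum_product' F F, ← Finset.sum_filter_add_sum_filter_not (F ×ˢ F) (fun x => x.1 < x.2),
      ← Finset.sum_filter_add_sum_filter_not ((F ×ˢ F).filter (fun x => ¬ x.1 < x.2)) (fun x => x.2 < x.1)]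
    have e1 : ∑ x ∈ ((F ×ˢ F).filter (fun x => ¬ x.1 < x.2)).filter (fun x => x.2 < x.1), ov xs γ ψ x.1 x.2
        = ∑ x ∈ O, ov xs γ ψ x.1 x.2 := by
      refine Finset.sum_nbij' (fun x => (x.2, x.1)) (fun x => (x.2, x.1)) ?_ ?_ ?_ ?_ ?_
      · intro x hx
        simp only [O, Finset.mem_filter, Finset.mem_product] at hx ⊢
        exact ⟨⟨hx.1.1.2, hx.1.1.1⟩, hx.2⟩
      · intro x hx
        simp only [O, Finset.mem_filter, Finset.mem_product] at hx ⊢
        exact ⟨⟨⟨hx.1.2, hx.1.1⟩, by omega⟩, hx.2⟩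
      · intro x _; rfl
      · intro x _; rfl
      · intro x _; exact ov_symm _ _ _ _ _
    have e2 : ∑ x ∈ ((F ×ˢ F).filter (fun x => ¬ x.1 < x.2)).filter (fun x => ¬ x.2 < x.1), ov xs γ ψ x.1 x.2
        = ∑ q ∈ F, ov xs γ ψ q q := by
      refine Finset.sum_nbij' (fun x => x.1) (fun q => (q, q)) ?_ ?_ ?_ ?_ ?_
      · intro x hx
        simp only [Finset.mem_filter, Finset.mem_product] at hx
        exact hx.1.1.1
      · intro q hq
        simp only [Finset.mem_filter, Finset.mem_product]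
        exact ⟨⟨⟨hq, hq⟩, lt_irrefl q⟩, lt_irrefl q⟩
      · intro x hx
        simp only [Finset.mem_filter, Finset.mem_product] at hx
        exact Prod.ext rfl (by simp only; omega)
      · intro q _; rfl
      · intro x hx
        simp only [Finset.mem_filter, Finset.mem_product] at hx
        have : x.2 = x.1 := by omega
        rw [this]
    rw [e1, e2]; ring
  rw [hsplit, hOP]
  have h1 : M ≤ M ^ 2 := by rw [sq]; exact le_mul_of_one_le_left (by linarith) hM1
  linarith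

end Vale.Agent.P028.Div
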