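import Vale.Agent.P028.Div.Row
import Vale.Agent.P028.Div.Window

/-!
# Hits against the random cofactor of one side (P028)
-/

namespace Vale.Agent.P028.Div

open Finset
open scoped Classical
open Vale.Agent.P028.Wide (wT wT_nonneg sum_wT pinv pinv_nonneg dens_pos)

/-- The saving exponent at the scales near one. -/
noncomputable def zk (k : ℕ) : ℝ := 201 / (100 * (k:ℝ))

lemma zk_facts {k : ℕ} (hk : 100 ≤ k) : 0 ≤ zk k ∧ 2 * zk k ≤ 41/1000 ∧ zk k / g0 k = 201/98 := by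
  have hkR : (100:ℝ) ≤ k := by exact_mod_cast hk
  refine ⟨by unfold zk; positivity, ?_, ?_⟩
  · unfold zk
    rw [← mul_div_assoc, div_le_iff₀ (by positivity)]; linarith
  · unfold zk g0; field_simp

lemma PL_le_Lg {x l : ℝ} (hx : 0 ≤ x) (hxl : x ≤ 30 * l) (hl : 1 ≤ l) :
    PL x ≤ 3 * Real.exp 10 * 8 ^ 8 * Lg l ^ 8 := by
  have h0 := Real.log_nonneg (by linarith : (1:ℝ) ≤ 2 + x)
  have h1 : Real.log (2 + x) ≤ Real.log 32 + Real.log (2 + l) := by
    rw [← Real.log_mul (by norm_num) (by linarith)]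
    exact Real.log_le_log (by linarith) (by linarith)
  have h2 : Real.log 32 ≤ 35/10 := by
    rw [show (32:ℝ) = 2 ^ 5 by norm_num, Real.log_pow]
    push_cast; linarith [Real.log_two_lt_d9]
  have h3 : 1 + 2 * Real.log (2 + x) ≤ 4 * Lg l := by
    have := Real.log_nonneg (by linarith : (1:ℝ) ≤ 2 + l)
    unfold Lg; linarith
  unfold PL
  rw [show (3:ℝ) * Real.exp 10 * 8 ^ 8 * Lg l ^ 8 = 3 * Real.exp 10 * (2 * (4 * Lg l)) ^ 8 by ring]
  gcongr

/-- What is used of the size of `l`. -/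
lemma big_l : ∃ l0 : ℝ, 100 ≤ l0 ∧ ∀ l : ℝ, l0 ≤ l →
    l ^ 200 ≤ Real.exp (l / 10000) ∧ 100000 * Lg l ≤ l := by
  refine ⟨max (10 ^ 14) ((10000:ℝ) ^ 201 * (Nat.factorial 201 : ℝ)), le_trans (by norm_num) (le_max_left _ _),
    fun l hl => ⟨?_, ?_⟩⟩
  · have hl0 : 0 < l := lt_of_lt_of_le (by norm_num) (le_trans (le_max_left _ _) hl)
    have h := Real.pow_div_factorial_le_exp (l / 10000) (by positivity) 201
    refine le_trans ?_ h
    rw [div_pow, div_div, le_div_iff₀ (by positivity)]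
    calc l ^ 200 * ((10000:ℝ) ^ 201 * (Nat.factorial 201 : ℝ)) ≤ l ^ 200 * l :=
          mul_le_mul_of_nonneg_left (le_trans (le_max_right _ _) hl) (by positivity)
      _ = _ := by ring
  · have hl0 : (10:ℝ) ^ 14 ≤ l := le_trans (le_max_left _ _) hl
    have h1 : Real.log (2 + l) ≤ 2 * Real.sqrt (2 + l) := by
      have h := Real.log_le_rpow_div (by linarith : (0:ℝ) ≤ 2 + l) (by norm_num : (0:ℝ) < 1/2)
      rw [← Real.sqrt_eq_rpow] at h
      linarith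
    have h2 : Real.sqrt (2 + l) ≤ l / 1000000 := by
      rw [Real.sqrt_le_iff]
      refine ⟨by positivity, ?_⟩
      nlinarith
    unfold Lg; linarith

/-- Small integers have no hits at tiny scales. -/
lemma no_small_hit {γ l τ : ℝ} {n : ℕ} (hn : 1 ≤ n) (hnl : (n:ℝ) ≤ Real.exp (l / 2) / 2)
    (hτ : τ ≤ Real.exp (-(l / 2)) / 2) : ¬ HitN γ τ (sel γ l) (n:ℤ) := by
  rintro ⟨j, hj, hne⟩
  push_cast at hj
  set q : ℚ := ((-j : ℤ) : ℚ) / ((n:ℤ):ℚ) with hq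
  have hden : q.den ≤ n := by
    have h' : ((q.den : ℕ):ℤ) ∣ (n:ℤ) := by
      rw [hq, ← Rat.divInt_eq_div]
      exact Rat.den_dvd _ _
    exact Nat.le_of_dvd hn (Int.natCast_dvd_natCast.1 h')
  have hq0 : (0:ℝ) < q.den := by exact_mod_cast q.den_pos
  have hn0 : (0:ℝ) < n := by exact_mod_cast hn
  have hcast : (q.num:ℝ) / q.den = -(j:ℝ) / n := by
    have h' : ((q:ℚ):ℝ) = -(j:ℝ) / n := by rw [hq]; push_cast; ring
    rw [← h', Rat.cast_def]
  have hnum : (q.num:ℝ) = -(j:ℝ) * q.den / n := by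
    rw [div_eq_iff hq0.ne'] at hcast
    rw [hcast]; ring
  have hsel : sel γ l = (q.den, q.num) := by
    refine sel_eq ⟨q.den_pos, ?_, (Nat.cast_le.2 hden).trans hnl, ?_⟩
    · rw [Int.isCoprime_iff_nat_coprime]; simpa using q.reduced.symm
    · have e : (q.den:ℝ) * γ - q.num = (q.den:ℝ) / n * ((j:ℝ) + γ * n) := by
        rw [hnum]; field_simp; ring
      rw [e, abs_mul, abs_of_pos (by positivity : 0 < (q.den:ℝ) / n)]
      exact ((mul_le_of_le_one_left (abs_nonneg _) (by rw [div_le_one hn0]; exact_mod_cast hden)).trans hj.le).trans hτ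
  rw [hsel] at hne
  apply hne
  have h0 : (j:ℝ) * q.den + (q.num:ℝ) * n = 0 := by rw [hnum]; field_simp; ring
  exact_mod_cast h0

/-- The common part with a random product, on average. -/
lemma sum_wT_gcd {G : Finset ℕ} (hG : ∀ p ∈ G, p.Prime) {B : ℕ} (hB : 0 < B) :
    ∑ T ∈ G.powerset, wT G T * (Nat.gcd B (∏ p ∈ T, p) : ℝ) ≤ (B.divisors.card : ℝ) := by
  have hG1 : ∀ p ∈ G, 1 ≤ p := fun p hp => (hG p hp).one_le
  have hgle : ∀ T ⊆ G, (Nat.gcd B (∏ p ∈ T, p) : ℝ) ≤ ∏ p ∈ T, (if p ∣ B then (p:ℝ) else 1) := by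
    intro T hT
    rw [← Finset.prod_filter]
    set T' := T.filter (fun p => p ∣ B)
    have hd : Nat.gcd B (∏ p ∈ T, p) ∣ ∏ p ∈ T', p := by
      have e : ∏ p ∈ T, p = (∏ p ∈ T', p) * ∏ p ∈ T.filter (fun p => ¬ p ∣ B), p :=
        (Finset.prod_filter_mul_prod_filter_not T _ _).symm
      rw [e]
      refine (Nat.gcd_mul_right_dvd_mul_gcd B _ _).trans ?_
      have h1 : Nat.gcd B (∏ p ∈ T.filter (fun p => ¬ p ∣ B), p) = 1 := by
        refine Nat.Coprime.prod_right fun p hp => ?_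
        obtain ⟨h1, h2⟩ := Finset.mem_filter.1 hp
        exact ((hG p (hT h1)).coprime_iff_not_dvd.2 h2).symm
      rw [h1, mul_one]
      exact Nat.gcd_dvd_right _ _
    have hpos : 0 < ∏ p ∈ T', p := Finset.prod_pos fun p hp => (hG p (hT (Finset.mem_filter.1 hp).1)).pos
    rw [← Nat.cast_prod]
    exact Nat.cast_le.2 (Nat.le_of_dvd hpos hd)
  refine (Finset.sum_le_sum fun T hT => mul_le_mul_of_nonneg_left (hgle T (Finset.mem_powerset.1 hT))
    (wT_nonneg hG1 T)).trans ?_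
  calc ∑ T ∈ G.powerset, wT G T * ∏ p ∈ T, (if p ∣ B then (p:ℝ) else 1)
      = ∏ p ∈ G, (1 / (p:ℝ) * (if p ∣ B then (p:ℝ) else 1) + (1 - 1 / (p:ℝ))) := by
        rw [Finset.prod_add]
        refine Finset.sum_congr rfl fun T _ => ?_
        rw [wT, Finset.prod_mul_distrib]; ring
    _ ≤ ∏ p ∈ G, (if p ∣ B then (2:ℝ) else 1) := by
        refine Finset.prod_le_prod (fun p hp => ?_) fun p hp => ?_
        all_goals have h1 : (1:ℝ) ≤ p := by exact_mod_cast hG1 p hp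
        all_goals have h2 : 0 ≤ 1 / (p:ℝ) ∧ 1 / (p:ℝ) ≤ 1 := ⟨by positivity, by rw [div_le_one (by linarith)]; exact h1⟩
        · have : 0 ≤ 1 / (p:ℝ) * (if p ∣ B then (p:ℝ) else 1) := mul_nonneg h2.1 (by split_ifs <;> linarith)
          linarith
        · split_ifs
          · rw [one_div_mul_cancel (by linarith)]; linarith
          · linarith
    _ ≤ _ := by
        rw [← Finset.prod_filter, Finset.prod_const]
        refine le_trans (pow_le_pow_right₀ one_le_two (Finset.card_le_card (t := B.primeFactors) fun p hp => ?_)) ?_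
        · obtain ⟨h1, h2⟩ := Finset.mem_filter.1 hp
          exact Nat.mem_primeFactors.2 ⟨hG p h1, h2, hB.ne'⟩
        · rw [Nat.card_divisors hB.ne', Nat.cast_prod, ← Finset.prod_const]
          refine Finset.prod_le_prod (fun _ _ => two_pos.le) fun p hp => ?_
          have : 1 ≤ B.factorization p := (Nat.prime_of_mem_primeFactors hp).factorization_pos_of_dvd hB.ne'
            (Nat.dvd_of_mem_primeFactors hp)
          exact_mod_cast (by omega : 2 ≤ B.factorization p + 1)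

/-- The common part with a running integer, on average. -/
lemma sum_gcd_le {B : ℕ} (hB : 0 < B) (N : ℕ) :
    ∑ n ∈ Finset.Icc 1 N, (Nat.gcd B n : ℝ) ≤ (B.divisors.card : ℝ) * N := by
  have h : ∀ n ∈ Finset.Icc 1 N, (Nat.gcd B n : ℝ) ≤ ∑ d ∈ B.divisors, if d ∣ n then (d:ℝ) else 0 := by
    intro n _
    refine le_trans ?_ (Finset.single_le_sum (fun d _ => by split_ifs <;> positivity)
      (Nat.mem_divisors.2 ⟨Nat.gcd_dvd_left B n, hB.ne'⟩))
    rw [if_pos (Nat.gcd_dvd_right B n)]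
  refine (Finset.sum_le_sum h).trans ?_
  rw [Finset.sum_comm]
  refine (Finset.sum_le_card_nsmul _ _ (N:ℝ) fun d hd => ?_).trans (le_of_eq (by rw [nsmul_eq_mul]))
  have hd0 := Nat.pos_of_mem_divisors hd
  rw [← Finset.sum_filter, Finset.sum_const, nsmul_eq_mul]
  have hd' : (0:ℝ) < d := by exact_mod_cast hd0
  refine (mul_le_mul_of_nonneg_right (card_multiples_le N d hd0) hd'.le).trans (le_of_eq ?_)
  field_simp

/-- The constant of `PL_le_Lg`. -/
noncomputable def CP : ℝ := 3 * Real.exp 10 * 8 ^ 8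

/-- The loss from small prime factors below `e^{2l}`. -/
noncomputable def D0 (l : ℝ) : ℝ := CP * Lg l ^ 8

lemma one_le_CP : 1 ≤ CP := by
  have := Real.add_one_le_exp (10:ℝ)
  unfold CP; linarith

lemma one_le_D0 {l : ℝ} (hl : 0 ≤ l) : 1 ≤ D0 l :=
  one_le_mul_of_one_le_of_one_le one_le_CP (one_le_pow₀ (by linarith [two_le_Lg hl]))

lemma pinv_le_D0 {l : ℝ} (hl : 1 ≤ l) {d : ℕ} (hd : 1 ≤ d) (hdl : (d:ℝ) ≤ Real.exp (2 * l)) :
    pinv d.primeFactors ≤ D0 l := by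
  refine (pinv_le_PL _ (fun p hp => Nat.prime_of_mem_primeFactors hp) le_rfl).trans
    (PL_le_Lg (Nat.cast_nonneg _) ?_ hl)
  have h := card_primeFactors_le_log d hd
  have h' := Real.log_le_log (by exact_mod_cast hd) hdl
  rw [Real.log_exp] at h'
  have := mul_le_mul_of_nonneg_left (by linarith [Real.log_two_gt_d9] : (69/100:ℝ) ≤ Real.log 2)
    (Nat.cast_nonneg (α := ℝ) d.primeFactors.card)
  linarith

/-- What is used of a scale `t` near one. -/
structure Scale (k : ℕ) (l t R : ℝ) : Prop where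
  l100 : 100 ≤ l
  lg : 100000 * Lg l ≤ l
  lpow : ∀ n : ℕ, n ≤ 200 → l ^ n ≤ Real.exp (l / 10000)
  t0 : 0 < t
  t1 : t ≤ 1
  R0 : 0 < R
  R1 : R ≤ 1
  tR : t ≤ R
  R4 : R < 4 * t → 1 ≤ 8 * R
  invR : 1 / R ≤ l ^ 15
  Rexp : Real.exp (-(l / 10000)) ≤ R
  Rl : Real.exp (-(2 * l / 10000)) ≤ R / l
  ub : Ub k l t ≤ Real.exp (10001/10000 * l)
  th : Real.exp (9997/10000 * l) ≤ t ^ (1 + zk k) * Real.exp l

lemma scale_of {k : ℕ} (hk : 100 ≤ k) : ∃ l0 : ℝ, ∀ l t : ℝ, l0 ≤ l → l ^ (-(15:ℝ)) < t → t ≤ 1 →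
    Scale k l t (t ^ (2 * zk k)) := by
  obtain ⟨l0, hl100, hbig⟩ := big_l
  obtain ⟨hz0, hz1, -⟩ := zk_facts hk
  refine ⟨l0, fun l t hl htlo ht1 => ?_⟩
  obtain ⟨hpow, hLgl⟩ := hbig l hl
  have hl1 : 100 ≤ l := hl100.trans hl
  have hl0 : 0 < l := by linarith
  have ht : 0 < t := lt_trans (Real.rpow_pos_of_pos hl0 _) htlo
  set R := t ^ (2 * zk k)
  have hR0 : 0 < R := Real.rpow_pos_of_pos ht _
  have htR : t ≤ R := by
    calc t = t ^ (1:ℝ) := (Real.rpow_one t).symm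
      _ ≤ _ := Real.rpow_le_rpow_of_exponent_ge ht ht1 (by linarith)
  have hlpow : ∀ n : ℕ, n ≤ 200 → l ^ n ≤ Real.exp (l / 10000) := fun n hn =>
    (pow_le_pow_right₀ (by linarith) hn).trans hpow
  have ht15 : 1 / t ≤ l ^ 15 := by
    rw [Real.rpow_neg hl0.le, show l ^ (15:ℝ) = l ^ (15:ℕ) by norm_cast, inv_lt_comm₀ (by positivity) ht] at htlo
    rw [one_div]; exact htlo.le
  have hinvR : 1 / R ≤ l ^ 15 := le_trans (one_div_le_one_div_of_le ht htR) ht15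
  have hRexp : Real.exp (-(l / 10000)) ≤ R := by
    rw [Real.exp_neg, inv_le_comm₀ (Real.exp_pos _) hR0, ← one_div]
    exact hinvR.trans (hlpow 15 (by norm_num))
  refine ⟨hl1, hLgl, hlpow, ht, ht1, hR0, Real.rpow_le_one ht.le ht1 (by linarith), htR, ?_, hinvR, hRexp,
    ?_, ?_, ?_⟩
  · intro h
    rcases le_or_gt (1/8) R with h' | h'
    · linarith
    exfalso
    have h3 : t ^ (1/4 : ℝ) ≤ R := Real.rpow_le_rpow_of_exponent_ge ht ht1 (by linarith)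
    have h4 : (t ^ (1/4 : ℝ)) ^ 4 = t := by
      rw [← Real.rpow_natCast, ← Real.rpow_mul ht.le]; norm_num
    have h5 : (t ^ (1/4 : ℝ)) ^ 4 ≤ R ^ 4 := by gcongr
    have h8 : R ^ 4 ≤ R * (1/8) ^ 3 := by
      rw [pow_succ' R 3]; gcongr
    linarith
  · rw [le_div_iff₀ hl0]
    have h1 : l ≤ Real.exp (l / 10000) := by simpa using hlpow 1 (by norm_num)
    calc Real.exp (-(2 * l / 10000)) * l ≤ Real.exp (-(2 * l / 10000)) * Real.exp (l / 10000) :=
          mul_le_mul_of_nonneg_left h1 (Real.exp_pos _).le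
      _ ≤ R := by rw [← Real.exp_add]; refine le_trans (le_of_eq ?_) hRexp; ring_nf
  · have hdel : del k * l ≤ 1/10000 * l := by
      refine mul_le_mul_of_nonneg_right ?_ hl0.le
      have : (100:ℝ) ≤ k := by exact_mod_cast hk
      unfold del
      exact one_div_le_one_div_of_le (by norm_num) (by linarith)
    exact (mul_le_of_le_one_left (Real.exp_pos _).le ht1).trans (Real.exp_le_exp.2 (by linarith))
  · have h1 : t ^ (2:ℝ) ≤ t ^ (1 + zk k) := Real.rpow_le_rpow_of_exponent_ge ht ht1 (by linarith)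
    have h2 : Real.exp (-(2 * l / 10000)) ≤ t ^ (2:ℝ) := by
      rw [Real.rpow_two, sq, Real.exp_neg, inv_le_comm₀ (Real.exp_pos _) (mul_pos ht ht)]
      calc (t * t)⁻¹ = 1 / t * (1 / t) := by field_simp
        _ ≤ l ^ 15 * l ^ 15 := mul_le_mul ht15 ht15 (by positivity) (by positivity)
        _ ≤ Real.exp (l / 10000) * Real.exp (l / 10000) :=
            mul_le_mul (hlpow 15 (by norm_num)) (hlpow 15 (by norm_num)) (by positivity) (Real.exp_pos _).le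
        _ = _ := by rw [← Real.exp_add]; ring_nf
    refine le_trans ?_ (mul_le_mul_of_nonneg_right (h2.trans h1) (Real.exp_pos _).le)
    rw [← Real.exp_add]; exact Real.exp_le_exp.2 (by linarith)

/-- Tiny steps admit no wrong fraction. -/
lemma no_bad {k : ℕ} {γ l t R : ℝ} (S : Scale k l t R) {M N : ℕ} (hM : 1 ≤ M)
    (hM2 : (M:ℝ) ≤ Real.exp (48/100 * l)) (hN : Real.exp (509/1000 * l) ≤ N) :
    ¬ ∃ d : ℕ, 1 ≤ d ∧ (d:ℝ) ≤ 1 / R ∧ HitN γ (3 * t / (R * N)) (sel γ l) ((d * M : ℕ):ℤ) := by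
  have hl : 200000 ≤ l := by linarith [S.lg, two_le_Lg (l := l) (by linarith [S.l100])]
  have hR0 := S.R0
  rintro ⟨d, hd1, hdR, hh⟩
  refine no_small_hit (Nat.mul_pos hd1 hM) ?_ ?_ hh
  · push_cast
    refine (mul_le_mul (hdR.trans (S.invR.trans (S.lpow 15 (by norm_num)))) hM2 (Nat.cast_nonneg _)
      (Real.exp_pos _).le).trans ?_
    rw [← Real.exp_add, le_div_iff₀ two_pos]
    calc Real.exp (l / 10000 + 48/100 * l) * 2 ≤ Real.exp (l / 10000 + 48/100 * l) * Real.exp 1 := by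
          gcongr; linarith [Real.add_one_le_exp (1:ℝ)]
      _ ≤ _ := by rw [← Real.exp_add]; exact Real.exp_le_exp.2 (by linarith)
  · have hN0 : (0:ℝ) < N := lt_of_lt_of_le (Real.exp_pos _) hN
    rw [le_div_iff₀ two_pos, div_mul_eq_mul_div, div_le_iff₀ (by positivity)]
    calc 3 * t * 2 ≤ Real.exp (5:ℝ) := by linarith [Real.add_one_le_exp (5:ℝ), S.t1]
      _ ≤ Real.exp (-(l / 2)) * (Real.exp (-(l / 10000)) * Real.exp (509/1000 * l)) := by
          rw [← Real.exp_add, ← Real.exp_add]; exact Real.exp_le_exp.2 (by linarith)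
      _ ≤ _ := by
          gcongr
          exact S.Rexp

/-- A row in the free variable. -/
lemma short_row {k : ℕ} {γ l t R : ℝ} (S : Scale k l t R) {M Vm w : ℕ} (hM : 1 ≤ M)
    (hMX : (M:ℝ) ≤ Real.exp (54/100 * l)) (s : Finset ℕ)
    (hs : ∀ V ∈ s, 1 ≤ V ∧ V ≤ Vm ∧ t ^ (1 + zk k) * Real.exp l ≤ (M:ℝ) * V ∧
      (M:ℝ) * V ≤ Ub k l t ∧ w < M * V ∧ HitN γ t (sel γ l) ((M:ℤ) * V - (w:ℤ))) :
    (s.card : ℝ) ≤ (28 * R + (Nat.gcd (sel γ l).1 M : ℝ) * min (1 / ((sel γ l).1:ℝ)) (4 * t)) * D0 l * Vm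
      + if Real.exp (48/100 * l) < M ∧ ∃ d : ℕ, 1 ≤ d ∧ (d:ℝ) ≤ l ^ 15 ∧
          HitN γ (Real.exp (-(44/100 * l))) (sel γ l) ((d * M : ℕ):ℤ) then (Vm:ℝ) else 0 := by
  have hl : 200000 ≤ l := by linarith [S.lg, two_le_Lg (l := l) (by linarith [S.l100])]
  have ht := S.t0
  have hR0 := S.R0
  have hD1 := one_le_D0 (l := l) (by linarith)
  set mm := min (1 / ((sel γ l).1:ℝ)) (4 * t)
  have hpos : 0 ≤ (28 * R + (Nat.gcd (sel γ l).1 M : ℝ) * mm) * D0 l * Vm := by positivity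
  rcases s.eq_empty_or_nonempty with he | ⟨V1, hV1⟩
  · rw [he, Finset.card_empty, Nat.cast_zero]; split_ifs <;> positivity
  have hM0 : (0:ℝ) < M := by exact_mod_cast hM
  set N := min Vm ⌊Ub k l t / M⌋₊
  have hsN : ∀ V ∈ s, V ≤ N := fun V hV => le_min (hs V hV).2.1 (Nat.le_floor (by
    rw [le_div_iff₀ hM0, mul_comm]; exact (hs V hV).2.2.2.1))
  obtain ⟨v1, -, v3, -, -, -⟩ := hs V1 hV1
  have hMV : Real.exp (9997/10000 * l) ≤ (M:ℝ) * N :=
    (S.th.trans v3).trans (mul_le_mul_of_nonneg_left (Nat.cast_le.2 (hsN V1 hV1)) hM0.le)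
  have hNlow : Real.exp (459/1000 * l) ≤ N := by
    refine le_of_mul_le_mul_left (le_trans ?_ hMV) hM0
    refine (mul_le_mul_of_nonneg_right hMX (Real.exp_pos _).le).trans ?_
    rw [← Real.exp_add]; exact Real.exp_le_exp.2 (by linarith)
  have hN1 : 1 ≤ N := v1.trans (hsN V1 hV1)
  have hsqN : Real.sqrt N ≤ Real.exp (2 * l) := by
    rw [Real.sqrt_le_iff]
    refine ⟨(Real.exp_pos _).le, (Nat.cast_le.2 (min_le_right _ _)).trans
      ((Nat.floor_le (by unfold Ub; positivity)).trans ?_)⟩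
    refine (div_le_self (by unfold Ub; positivity) (by exact_mod_cast hM)).trans (S.ub.trans ?_)
    refine (Real.exp_le_exp.2 (by linarith : 10001/10000 * l ≤ 2 * l)).trans ?_
    exact le_self_pow₀ (Real.one_le_exp (by linarith)) two_ne_zero
  have hsN2 : Real.sqrt N ≤ N * R := by
    have h1 : Real.exp (459/2000 * l) ≤ Real.sqrt N := by
      refine Real.le_sqrt_of_sq_le (le_trans (le_of_eq ?_) hNlow)
      rw [← Real.exp_nat_mul]; ring_nf
    have h2 : 1 ≤ Real.sqrt N * R := by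
      refine le_trans ?_ (mul_le_mul h1 S.Rexp (Real.exp_pos _).le (Real.sqrt_nonneg _))
      rw [← Real.exp_add]; exact Real.one_le_exp (by linarith)
    have := mul_le_mul_of_nonneg_left h2 (Real.sqrt_nonneg (N:ℝ))
    rwa [mul_one, ← mul_assoc, Real.mul_self_sqrt (Nat.cast_nonneg _)] at this
  have h := row_sieve γ t l M N (w:ℤ) ∅ (fun p hp => absurd hp (Finset.notMem_empty p)) 0 R (D0 l)
    ht S.t1 hR0 S.tR S.R4 hM hN1 (fun d hd1 hd2 => by
      simpa using pinv_le_D0 (l := l) (by linarith) hd1 (hd2.trans hsqN)) (by linarith) s fun V hV => by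
      obtain ⟨a1, -, -, -, a4, a5⟩ := hs V hV
      refine ⟨a1, hsN V hV, ?_, a5, fun p hp => absurd hp (Finset.notMem_empty p)⟩
      push_cast
      have h4 : (w:ℝ) ≤ (M:ℝ) * V := by exact_mod_cast a4.le
      have h5 : (M:ℝ) * V ≤ (M:ℝ) * N := mul_le_mul_of_nonneg_left (Nat.cast_le.2 (hsN V hV)) hM0.le
      have h6 : (0:ℝ) ≤ w := Nat.cast_nonneg _
      rw [abs_of_nonneg (by linarith)]; linarith
  rcases h with h | ⟨d, hd1, hdR, hh⟩
  · refine h.trans (le_trans ?_ (le_add_of_nonneg_right (by split_ifs <;> positivity)))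
    simp only [Finset.card_empty, Nat.cast_zero, add_zero, mul_zero, pow_zero]
    have hNV : (N:ℝ) ≤ Vm := Nat.cast_le.2 (min_le_left _ _)
    calc _ ≤ (12 * R + (Nat.gcd (sel γ l).1 M : ℝ) * mm) * N * D0 l + 8 * (N * R) * (2 * D0 l) := by
          gcongr; linarith
      _ = (28 * R + (Nat.gcd (sel γ l).1 M : ℝ) * mm) * N * D0 l := by ring
      _ ≤ (28 * R + (Nat.gcd (sel γ l).1 M : ℝ) * mm) * Vm * D0 l := by gcongr
      _ = _ := by ring
  · have hMbig : Real.exp (48/100 * l) < M := by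
      by_contra hsm
      refine no_bad S hM (not_lt.1 hsm) ?_ ⟨d, hd1, hdR, hh⟩
      refine le_of_mul_le_mul_left (le_trans ?_ hMV) hM0
      refine (mul_le_mul_of_nonneg_right (not_lt.1 hsm) (Real.exp_pos _).le).trans ?_
      rw [← Real.exp_add]; exact Real.exp_le_exp.2 (by linarith)
    rw [if_pos ⟨hMbig, d, hd1, hdR.trans S.invR, hh.mono (by
      rw [div_le_iff₀ (by positivity)]
      calc 3 * t ≤ Real.exp 3 := by linarith [Real.add_one_le_exp (3:ℝ), S.t1]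
        _ ≤ Real.exp (-(44/100 * l)) * (Real.exp (-(l / 10000)) * Real.exp (459/1000 * l)) := by
            rw [← Real.exp_add, ← Real.exp_add]; exact Real.exp_le_exp.2 (by linarith)
        _ ≤ _ := by gcongr; exact S.Rexp)⟩]
    have : (s.card : ℝ) ≤ Vm := by
      exact_mod_cast (Finset.card_le_card (t := Finset.Icc 1 Vm) fun V hV =>
        Finset.mem_Icc.2 ⟨(hs V hV).1, (hs V hV).2.1⟩).trans (by simp)
    linarith

lemma prod_pos_of_prime {G T : Finset ℕ} (hG : ∀ p ∈ G, p.Prime) (hT : T ⊆ G) : 0 < ∏ p ∈ T, p :=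
  Finset.prod_pos fun p hp => (hG p (hT hp)).pos

lemma prod_inj_of_prime {G T T' : Finset ℕ} (hG : ∀ p ∈ G, p.Prime) (hT : T ⊆ G) (hT' : T' ⊆ G)
    (e : ∏ p ∈ T, p = ∏ p ∈ T', p) : T = T' := by
  rw [← Nat.primeFactors_prod (fun p hp => hG p (hT hp)),
    ← Nat.primeFactors_prod (fun p hp => hG p (hT' hp))]
  exact congrArg Nat.primeFactors e

lemma inv_prod_cast (T : Finset ℕ) : ∏ p ∈ T, (1 / (p:ℝ)) = 1 / ((∏ p ∈ T, p : ℕ):ℝ) := by
  push_cast; simp [one_div, Finset.prod_inv_distrib]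

lemma wT_le_inv {G T : Finset ℕ} (hG : ∀ p ∈ G, p.Prime) : wT G T ≤ 1 / ((∏ p ∈ T, p : ℕ):ℝ) := by
  unfold wT
  refine (mul_le_of_le_one_right (Finset.prod_nonneg fun p _ => by positivity)
    (Finset.prod_le_one (fun p hp => ?_) fun p hp => ?_)).trans (le_of_eq (inv_prod_cast T))
  · have h1 : (1:ℝ) ≤ p := by exact_mod_cast (hG p (Finset.mem_sdiff.1 hp).1).one_le
    rw [sub_nonneg, div_le_one (by linarith)]; exact h1
  · have : 0 ≤ 1 / (p:ℝ) := by positivity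
    linarith

/-- The middle products next to a wrong fraction are negligible. -/
lemma bad_weight {k : ℕ} {γ l t R : ℝ} (S : Scale k l t R) {G : Finset ℕ} (hG : ∀ p ∈ G, p.Prime)
    {c : ℕ} (hc : 1 ≤ c) (hcl : (c:ℝ) ≤ l ^ 40) (Bad : Finset (Finset ℕ))
    (hBad : ∀ T ∈ Bad, T ⊆ G ∧ ((c * ∏ p ∈ T, p : ℕ):ℝ) ≤ Real.exp (54/100 * l) ∧
      Real.exp (48/100 * l) < ((c * ∏ p ∈ T, p : ℕ):ℝ) ∧ ∃ d : ℕ, 1 ≤ d ∧ (d:ℝ) ≤ l ^ 15 ∧
      HitN γ (Real.exp (-(44/100 * l))) (sel γ l) ((d * (c * ∏ p ∈ T, p) : ℕ):ℤ)) :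
    ∑ T ∈ Bad, wT G T ≤ R := by
  have hl := S.l100
  set L := ⌊Real.exp (56/100 * l)⌋₊
  set Sn := (Finset.Icc 1 L).filter (fun n : ℕ => HitN γ (Real.exp (-(44/100 * l))) (sel γ l) (n:ℤ))
  have hS : (Sn.card : ℝ) ≤ 80 * Real.exp (12/100 * l) := by
    refine (hit_count (γ := γ) (l := l) (by linarith) (Real.exp_pos _) L (Real.exp (56/100 * l))
      (Nat.floor_le (Real.exp_pos _).le) (by rw [← Real.exp_add]; exact Real.exp_le_exp.2 (by linarith)) Sn
      fun n hn => ⟨(Finset.mem_Icc.1 (Finset.mem_filter.1 hn).1).1, (Finset.mem_Icc.1 (Finset.mem_filter.1 hn).1).2,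
        (Finset.mem_filter.1 hn).2⟩).trans ?_
    rw [← Real.exp_add, ← Real.exp_add, ← Real.exp_sub]
    have b1 : (1:ℝ) ≤ Real.exp (12/100 * l) := Real.one_le_exp (by linarith)
    have b2 := Real.exp_le_exp.2 (show -(44/100 * l) + 56/100 * l ≤ 12/100 * l by linarith)
    have b3 := Real.exp_le_exp.2 (show 56/100 * l - l / 2 ≤ 12/100 * l by linarith)
    have b4 := Real.exp_le_exp.2 (show -(44/100 * l) + l / 2 ≤ 12/100 * l by linarith)
    linarith
  have hD : ∀ T : Finset ℕ, ∃ d : ℕ, T ∈ Bad → 1 ≤ d ∧ (d:ℝ) ≤ l ^ 15 ∧ d * (c * ∏ p ∈ T, p) ∈ Sn := by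
    intro T
    by_cases hT : T ∈ Bad
    · obtain ⟨hTG, hTX, -, d, h1, h2, h3⟩ := hBad T hT
      refine ⟨d, fun _ => ⟨h1, h2, Finset.mem_filter.2 ⟨Finset.mem_Icc.2 ⟨Nat.mul_pos h1 (Nat.mul_pos hc
        (prod_pos_of_prime hG hTG)), Nat.le_floor ?_⟩, h3⟩⟩⟩
      rw [Nat.cast_mul]
      refine (mul_le_mul (h2.trans (S.lpow 15 (by norm_num))) hTX (Nat.cast_nonneg _) (Real.exp_pos _).le).trans ?_
      rw [← Real.exp_add]; exact Real.exp_le_exp.2 (by linarith)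
    · exact ⟨0, fun h => absurd h hT⟩
  choose dd hdd using hD
  have hcard : (Bad.card : ℝ) ≤ l ^ 15 * (80 * Real.exp (12/100 * l)) := by
    have h1 : Bad.card ≤ (Finset.Icc 1 ⌊l ^ 15⌋₊ ×ˢ Sn).card := by
      refine Finset.card_le_card_of_injOn (fun T => (dd T, dd T * (c * ∏ p ∈ T, p))) (fun T hT => ?_)
        fun T hT T' hT' e => ?_
      · obtain ⟨a, b, c'⟩ := hdd T hT
        exact Finset.mem_product.2 ⟨Finset.mem_Icc.2 ⟨a, Nat.le_floor b⟩, c'⟩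
      · simp only [Prod.mk.injEq] at e
        obtain ⟨e1, e2⟩ := e
        rw [e1] at e2
        exact prod_inj_of_prime hG (hBad T hT).1 (hBad T' hT').1 (Nat.eq_of_mul_eq_mul_left hc
          (Nat.eq_of_mul_eq_mul_left (hdd T' hT').1 e2))
    rw [Finset.card_product, Nat.card_Icc, Nat.add_sub_cancel] at h1
    refine (Nat.cast_le.2 h1).trans ?_
    push_cast
    exact mul_le_mul (Nat.floor_le (by positivity)) hS (Nat.cast_nonneg _) (by positivity)
  have hone : ∀ T ∈ Bad, wT G T ≤ l ^ 40 / Real.exp (48/100 * l) := by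
    intro T hT
    obtain ⟨hTG, -, hbig, -⟩ := hBad T hT
    rw [Nat.cast_mul] at hbig
    refine (wT_le_inv hG).trans ?_
    rw [div_le_div_iff₀ (by exact_mod_cast prod_pos_of_prime hG hTG) (Real.exp_pos _), one_mul]
    exact hbig.le.trans (mul_le_mul_of_nonneg_right hcl (Nat.cast_nonneg _))
  refine (Finset.sum_le_card_nsmul _ _ _ hone).trans ?_
  rw [nsmul_eq_mul]
  refine (mul_le_mul_of_nonneg_right hcard (by positivity)).trans (le_trans ?_ S.Rexp)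
  calc l ^ 15 * (80 * Real.exp (12/100 * l)) * (l ^ 40 / Real.exp (48/100 * l))
      = 80 * l ^ 55 * (Real.exp (12/100 * l) / Real.exp (48/100 * l)) := by ring
    _ ≤ Real.exp (l / 10000) * (Real.exp (12/100 * l) / Real.exp (48/100 * l)) := by
        refine mul_le_mul_of_nonneg_right ?_ (by positivity)
        refine le_trans ?_ (S.lpow 56 (by norm_num))
        rw [pow_succ l 55, mul_comm]
        exact mul_le_mul_of_nonneg_left (by linarith) (by positivity)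
    _ ≤ _ := by rw [← Real.exp_sub, ← Real.exp_add]; exact Real.exp_le_exp.2 (by linarith)

/-- Short products: rows in the free variable. -/
lemma short_side {k : ℕ} {γ l t R : ℝ} (S : Scale k l t R) {G : Finset ℕ} (hG : ∀ p ∈ G, p.Prime)
    {c : ℕ} (hc : 1 ≤ c) (hcl : (c:ℝ) ≤ l ^ 40) (Vm w : ℕ) (s : Finset (ℕ × Finset ℕ))
    (hs : ∀ x ∈ s, 1 ≤ x.1 ∧ x.1 ≤ Vm ∧ x.2 ⊆ G ∧ ((c * ∏ p ∈ x.2, p : ℕ):ℝ) ≤ Real.exp (54/100 * l) ∧
      t ^ (1 + zk k) * Real.exp l ≤ ((c * x.1 * ∏ p ∈ x.2, p : ℕ):ℝ) ∧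
      ((c * x.1 * ∏ p ∈ x.2, p : ℕ):ℝ) ≤ Ub k l t ∧ w < c * x.1 * ∏ p ∈ x.2, p ∧
      HitN γ t (sel γ l) (((c * x.1 * ∏ p ∈ x.2, p : ℕ):ℤ) - (w:ℤ))) :
    ∑ x ∈ s, wT G x.2 ≤ (30 * R + (Nat.gcd (sel γ l).1 c : ℝ) * ((sel γ l).1.divisors.card : ℝ)
      * min (1 / ((sel γ l).1:ℝ)) (4 * t)) * D0 l * Vm := by
  have hl := S.l100
  have ht := S.t0
  have hR0 := S.R0
  have hG1 : ∀ p ∈ G, 1 ≤ p := fun p hp => (hG p hp).one_le
  have hD1 := one_le_D0 (l := l) (by linarith)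
  set B := (sel γ l).1
  have hB : 0 < B := (sel_spec γ l).1
  set mm := min (1 / (B:ℝ)) (4 * t)
  have hmm : 0 ≤ mm := by positivity
  set GI := s.image Prod.snd
  have hGI : GI ⊆ G.powerset := fun T hT => by
    obtain ⟨x, hx, rfl⟩ := Finset.mem_image.1 hT
    exact Finset.mem_powerset.2 (hs x hx).2.2.1
  rw [← Finset.sum_fiberwise_of_maps_to (g := Prod.snd) (fun x hx => Finset.mem_image_of_mem _ hx)]
  set bad := fun T : Finset ℕ => Real.exp (48/100 * l) < ((c * ∏ p ∈ T, p : ℕ):ℝ) ∧ ∃ d : ℕ, 1 ≤ d ∧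
    (d:ℝ) ≤ l ^ 15 ∧ HitN γ (Real.exp (-(44/100 * l))) (sel γ l) ((d * (c * ∏ p ∈ T, p) : ℕ):ℤ)
  have hrow : ∀ T ∈ GI, ∑ x ∈ s.filter (fun x => x.2 = T), wT G x.2
      ≤ wT G T * ((28 * R + (Nat.gcd B (c * ∏ p ∈ T, p) : ℝ) * mm) * D0 l * Vm
        + if bad T then (Vm:ℝ) else 0) := by
    intro T hT
    obtain ⟨x0, hx0, hxT⟩ := Finset.mem_image.1 hT
    rw [Finset.sum_congr rfl (g := fun _ => wT G T) fun x hx => by rw [(Finset.mem_filter.1 hx).2],
      Finset.sum_const, nsmul_eq_mul, mul_comm]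
    refine mul_le_mul_of_nonneg_left ?_ (wT_nonneg hG1 T)
    have hinj : ((s.filter fun x => x.2 = T).image Prod.fst).card = (s.filter fun x => x.2 = T).card :=
      Finset.card_image_of_injOn fun x hx y hy e =>
        Prod.ext e ((Finset.mem_filter.1 hx).2.trans (Finset.mem_filter.1 hy).2.symm)
    rw [← hinj]
    refine short_row S (Nat.mul_pos hc (prod_pos_of_prime hG (hxT ▸ (hs x0 hx0).2.2.1)))
      (hxT ▸ (hs x0 hx0).2.2.2.1) (w := w) _ fun V hV => ?_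
    obtain ⟨x, hxf, rfl⟩ := Finset.mem_image.1 hV
    obtain ⟨hxs, hxe⟩ := Finset.mem_filter.1 hxf
    obtain ⟨a1, a2, -, -, a5, a6, a7, a8⟩ := hs x hxs
    subst hxe
    have e : c * x.1 * ∏ p ∈ x.2, p = c * (∏ p ∈ x.2, p) * x.1 := by ring
    rw [e] at a5 a6 a7 a8
    rw [Nat.cast_mul] at a5 a6 a8
    exact ⟨a1, a2, a5, a6, a7, a8⟩
  refine (Finset.sum_le_sum hrow).trans ?_
  have hgT : ∀ T ∈ GI, wT G T * (Nat.gcd B (c * ∏ p ∈ T, p) : ℝ)
      ≤ (Nat.gcd B c : ℝ) * (wT G T * (Nat.gcd B (∏ p ∈ T, p) : ℝ)) := by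
    intro T _
    have h : (Nat.gcd B (c * ∏ p ∈ T, p) : ℝ) ≤ (Nat.gcd B c : ℝ) * (Nat.gcd B (∏ p ∈ T, p) : ℝ) := by
      rw [← Nat.cast_mul]
      exact Nat.cast_le.2 (Nat.le_of_dvd (Nat.mul_pos (Nat.gcd_pos_of_pos_left _ hB) (Nat.gcd_pos_of_pos_left _ hB))
        (Nat.gcd_mul_right_dvd_mul_gcd B _ _))
    have := mul_le_mul_of_nonneg_left h (wT_nonneg hG1 T)
    linarith
  have s1 : ∑ T ∈ GI, wT G T ≤ 1 :=
    (Finset.sum_le_sum_of_subset_of_nonneg hGI fun T _ _ => wT_nonneg hG1 T).trans (le_of_eq (sum_wT G))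
  have s2 : ∑ T ∈ GI, wT G T * (Nat.gcd B (c * ∏ p ∈ T, p) : ℝ) ≤ (Nat.gcd B c : ℝ) * (B.divisors.card : ℝ) := by
    refine (Finset.sum_le_sum hgT).trans ?_
    rw [← Finset.mul_sum]
    refine mul_le_mul_of_nonneg_left ?_ (Nat.cast_nonneg _)
    exact (Finset.sum_le_sum_of_subset_of_nonneg hGI
      fun T _ _ => mul_nonneg (wT_nonneg hG1 T) (Nat.cast_nonneg _)).trans (sum_wT_gcd hG hB)
  have s3 : ∑ T ∈ GI, wT G T * (if bad T then (Vm:ℝ) else 0) ≤ R * Vm := by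
    simp only [mul_ite, mul_zero]
    rw [← Finset.sum_filter, ← Finset.sum_mul]
    refine mul_le_mul_of_nonneg_right (bad_weight (γ := γ) S hG hc hcl _ fun T hT => ?_) (Nat.cast_nonneg _)
    obtain ⟨hT, hb⟩ := Finset.mem_filter.1 hT
    obtain ⟨x, hx, rfl⟩ := Finset.mem_image.1 hT
    exact ⟨(hs x hx).2.2.1, (hs x hx).2.2.2.1, hb⟩
  calc ∑ T ∈ GI, wT G T * ((28 * R + (Nat.gcd B (c * ∏ p ∈ T, p) : ℝ) * mm) * D0 l * Vm
        + if bad T then (Vm:ℝ) else 0)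
      = (28 * R * D0 l * Vm) * ∑ T ∈ GI, wT G T
        + (mm * D0 l * Vm) * ∑ T ∈ GI, wT G T * (Nat.gcd B (c * ∏ p ∈ T, p) : ℝ)
        + ∑ T ∈ GI, wT G T * (if bad T then (Vm:ℝ) else 0) := by
        rw [Finset.mul_sum, Finset.mul_sum, ← Finset.sum_add_distrib, ← Finset.sum_add_distrib]
        exact Finset.sum_congr rfl fun T _ => by ring
    _ ≤ (28 * R * D0 l * Vm) * 1 + (mm * D0 l * Vm) * ((Nat.gcd B c : ℝ) * (B.divisors.card : ℝ)) + R * Vm := by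
        gcongr
    _ ≤ _ := by
        have : R * Vm ≤ 2 * R * D0 l * Vm :=
          mul_le_mul_of_nonneg_right (by nlinarith) (Nat.cast_nonneg _)
        linarith

/-- What is used of the sieve of the primes missing from `G`. -/
lemma sieve_par {k : ℕ} {l t R : ℝ} (S : Scale k l t R) {G : Finset ℕ} (hG : ∀ p ∈ G, p.Prime) :
    ∃ (H : Finset ℕ) (r : ℕ), (∀ p ∈ H, p.Prime) ∧ (∀ p ∈ H, p ∉ G) ∧
      (∏ p ∈ G, (1 - 1 / (p:ℝ))) * (∏ p ∈ H, (1 - 1 / (p:ℝ))) ≤ 1000 * Lg l / l ∧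
      (∑ p ∈ H, 1 / (p:ℝ)) ^ (2 * r + 1) / ((2 * r + 1).factorial : ℝ) ≤ 1 / l ∧
      (1 + (H.card : ℝ)) ^ (2 * r) ≤ Real.exp (7/100 * l) := by
  have hl := S.l100
  have hl0 : 0 < l := by linarith
  have hLgl := S.lg
  have hLg := two_le_Lg (l := l) hl0.le
  set z := Real.exp (l / (1000 * Lg l)) with hzdef
  set H := (Pz z).filter (fun p => p ∉ G)
  have hH : ∀ p ∈ H, p.Prime := fun p hp => prime_Pz (Finset.mem_filter.1 hp).1
  have hzexp : 2 ≤ l / (1000 * Lg l) := by rw [le_div_iff₀ (by positivity)]; linarith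
  have hz2 : 2 ≤ z := by
    rw [hzdef]
    linarith [Real.add_one_le_exp (l / (1000 * Lg l))]
  have hzl : Real.log z ≤ l := by
    rw [hzdef, Real.log_exp]; exact div_le_self hl0.le (by linarith)
  refine ⟨H, ⌈32 * Lg l⌉₊, hH, fun p hp => (Finset.mem_filter.1 hp).2, ?_, ?_, ?_⟩
  · rw [← Finset.prod_union (s₁ := G) (s₂ := H) (Finset.disjoint_left.2 fun p hp hp' => (Finset.mem_filter.1 hp').2 hp)]
    have hsub : Pz z ⊆ G ∪ H := fun p hp => by
      by_cases h : p ∈ G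
      · exact Finset.mem_union_left _ h
      · exact Finset.mem_union_right _ (Finset.mem_filter.2 ⟨hp, h⟩)
    have hprime : ∀ p ∈ G ∪ H, p.Prime := fun p hp => (Finset.mem_union.1 hp).elim (hG p) (hH p)
    have hfac : ∀ p ∈ G ∪ H, 0 ≤ 1 - 1 / (p:ℝ) ∧ 1 - 1 / (p:ℝ) ≤ 1 := fun p hp => by
      have h1 : (1:ℝ) ≤ p := by exact_mod_cast (hprime p hp).one_le
      have : 0 ≤ 1 / (p:ℝ) := by positivity
      exact ⟨by rw [sub_nonneg, div_le_one (by linarith)]; exact h1, by linarith⟩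
    rw [← Finset.prod_sdiff hsub]
    refine (mul_le_of_le_one_left (Finset.prod_nonneg fun p hp => (hfac p (hsub hp)).1)
      (Finset.prod_le_one (fun p hp => (hfac p (Finset.mem_sdiff.1 hp).1).1)
        fun p hp => (hfac p (Finset.mem_sdiff.1 hp).1).2)).trans ((euler_le hz2).trans (le_of_eq ?_))
    rw [hzdef, Real.log_exp, one_div_div]
  · have hsumH : ∑ p ∈ H, 1 / (p:ℝ) ≤ 8 * Lg l :=
      (Finset.sum_le_sum_of_subset_of_nonneg (Finset.filter_subset _ _) fun p _ _ => by positivity).trans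
        (pz_sum hl0.le (by linarith) hzl)
    have hr : 32 * Lg l ≤ (⌈32 * Lg l⌉₊:ℝ) := Nat.le_ceil _
    refine (sieve_tail (Finset.sum_nonneg fun p _ => by positivity) (by push_cast; linarith)).trans ?_
    rw [Real.exp_neg, ← one_div]
    refine one_div_le_one_div_of_le hl0 ?_
    calc l ≤ 2 + l := by linarith
      _ = Real.exp (Real.log (2 + l)) := (Real.exp_log (by linarith)).symm
      _ ≤ _ := by
          refine Real.exp_le_exp.2 ?_
          push_cast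
          have : Real.log (2 + l) ≤ Lg l := by unfold Lg; linarith
          linarith
  · have hr : (⌈32 * Lg l⌉₊:ℝ) < 32 * Lg l + 1 := Nat.ceil_lt_add_one (by positivity)
    have h1 : 1 + (H.card : ℝ) ≤ Real.exp (l / (1000 * Lg l) + 1) := by
      have hc' : (H.card : ℝ) ≤ z := by
        refine le_trans ?_ (Nat.floor_le (by linarith))
        exact_mod_cast ((Finset.card_filter_le _ _).trans (Finset.card_filter_le _ _)).trans (by simp)
      rw [Real.exp_add, ← hzdef]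
      have : 2 ≤ Real.exp 1 := by linarith [Real.add_one_le_exp (1:ℝ)]
      nlinarith
    refine (pow_le_pow_left₀ (by positivity) h1 _).trans ?_
    rw [← Real.exp_nat_mul]
    refine Real.exp_le_exp.2 ?_
    push_cast
    calc 2 * (⌈32 * Lg l⌉₊:ℝ) * (l / (1000 * Lg l) + 1) ≤ 66 * Lg l * (l / (1000 * Lg l) + 1) := by
          exact mul_le_mul_of_nonneg_right (by linarith) (by positivity)
      _ = 66/1000 * l + 66 * Lg l := by field_simp
      _ ≤ _ := by linarith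

/-- The sieve error is below the main term. -/
lemma sieve_err {k : ℕ} {l t R : ℝ} (S : Scale k l t R) {N Δ E0 πG : ℝ} (_hπG : 0 ≤ πG) (hπG1 : πG ≤ 1)
    (hN : Real.exp (535/1000 * l) ≤ N) (hΔ0 : 0 ≤ Δ) (hΔ : Δ ≤ D0 l + 1) (hE0 : E0 ≤ Real.exp (7/100 * l))
    (hE00 : 0 ≤ E0) :
    πG * (8 * Real.sqrt N * (Δ + E0)) ≤ N * (D0 l * (Lg l / l) * R) := by
  have hl : 200000 ≤ l := by linarith [S.lg, two_le_Lg (l := l) (by linarith [S.l100])]
  have hl0 : 0 < l := by linarith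
  have hR0 := S.R0
  have hN0 : 0 ≤ N := (Real.exp_pos _).le.trans hN
  have hD1 := one_le_D0 (l := l) hl0.le
  have he : 1 ≤ Real.exp (7/100 * l) := Real.one_le_exp (by linarith)
  have h1 : Δ + E0 ≤ 3 * D0 l * Real.exp (7/100 * l) := by nlinarith
  have h2 : 24 * Real.exp (7/100 * l) ≤ Real.sqrt N * (R / l) := by
    have hs' : Real.exp (535/2000 * l) ≤ Real.sqrt N := by
      refine Real.le_sqrt_of_sq_le (le_trans (le_of_eq ?_) hN)
      rw [← Real.exp_nat_mul]; ring_nf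
    refine le_trans ?_ (mul_le_mul hs' S.Rl (Real.exp_pos _).le (Real.sqrt_nonneg _))
    rw [← Real.exp_add]
    calc 24 * Real.exp (7/100 * l) ≤ Real.exp 23 * Real.exp (7/100 * l) := by
          gcongr; linarith [Real.add_one_le_exp (23:ℝ)]
      _ ≤ _ := by rw [← Real.exp_add]; exact Real.exp_le_exp.2 (by linarith)
  have hRLg : R / l ≤ Lg l / l * R := by
    rw [div_mul_eq_mul_div]
    exact div_le_div_of_nonneg_right (le_mul_of_one_le_left hR0.le (by linarith [two_le_Lg hl0.le])) hl0.le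
  calc πG * (8 * Real.sqrt N * (Δ + E0))
      ≤ 1 * (8 * Real.sqrt N * (3 * D0 l * Real.exp (7/100 * l))) := by gcongr
    _ = Real.sqrt N * D0 l * (24 * Real.exp (7/100 * l)) := by ring
    _ ≤ Real.sqrt N * D0 l * (Real.sqrt N * (R / l)) := mul_le_mul_of_nonneg_left h2 (by positivity)
    _ = N * (D0 l * (R / l)) := by
        rw [show Real.sqrt N * D0 l * (Real.sqrt N * (R / l))
          = (Real.sqrt N * Real.sqrt N) * (D0 l * (R / l)) by ring, Real.mul_self_sqrt hN0]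
    _ ≤ _ := by
        refine mul_le_mul_of_nonneg_left ?_ hN0
        rw [mul_assoc]
        exact mul_le_mul_of_nonneg_left hRLg (by linarith)

/-- Long products with step `M` in one dyadic range. -/
lemma long_dyadic {k : ℕ} {γ l t R : ℝ} (S : Scale k l t R) {G : Finset ℕ} (hG : ∀ p ∈ G, p.Prime)
    {M : ℕ} (hM : 1 ≤ M) (w j : ℕ) (s : Finset (Finset ℕ))
    (hs : ∀ T ∈ s, T ⊆ G ∧ w < M * ∏ p ∈ T, p ∧ HitN γ t (sel γ l) ((M:ℤ) * (∏ p ∈ T, p : ℕ) - (w:ℤ)) ∧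
      Real.exp (535/1000 * l) ≤ ((∏ p ∈ T, p : ℕ):ℝ) ∧
      (M:ℝ) * (∏ p ∈ T, p : ℕ) ≤ Real.exp (10001/10000 * l) ∧ Nat.log 2 (∏ p ∈ T, p) = j) :
    ∑ T ∈ s, wT G T ≤ 30000 * CP ^ 2 * Lg l ^ 17 *
      (R + (Nat.gcd (sel γ l).1 M : ℝ) * min (1 / ((sel γ l).1:ℝ)) (4 * t)) / l := by
  have hl := S.l100
  have hl0 : 0 < l := by linarith
  have ht := S.t0
  have hR0 := S.R0
  have hLg := two_le_Lg (l := l) hl0.le
  have hD1 := one_le_D0 (l := l) hl0.le
  have hCP := one_le_CP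
  set mm := min (1 / ((sel γ l).1:ℝ)) (4 * t)
  set gM := (Nat.gcd (sel γ l).1 M : ℝ) * mm
  have hgM : 0 ≤ gM := by positivity
  rcases s.eq_empty_or_nonempty with he | ⟨T1, hT1⟩
  · rw [he, Finset.sum_empty]; positivity
  obtain ⟨H, r, hH, hHG, hprod, htail, hE0⟩ := sieve_par S hG
  set πG := ∏ p ∈ G, (1 - 1 / (p:ℝ))
  set πH := ∏ p ∈ H, (1 - 1 / (p:ℝ))
  have hπH : 0 < πH := dens_pos _ fun p hp => (hH p hp).two_le
  have hπH1 : πH ≤ 1 := Finset.prod_le_one (fun p hp => by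
    have h1 : (1:ℝ) ≤ p := by exact_mod_cast (hH p hp).one_le
    rw [sub_nonneg, div_le_one (by linarith)]; exact h1) fun p _ => by
    have : 0 ≤ 1 / (p:ℝ) := by positivity
    linarith
  have hπG : 0 < πG := dens_pos _ fun p hp => (hG p hp).two_le
  have hπG1 : πG ≤ 1 := Finset.prod_le_one (fun p hp => by
    have h1 : (1:ℝ) ≤ p := by exact_mod_cast (hG p hp).one_le
    rw [sub_nonneg, div_le_one (by linarith)]; exact h1) fun p _ => by
    have : 0 ≤ 1 / (p:ℝ) := by positivity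
    linarith
  set N := 2 ^ (j + 1)
  have hN1 : 1 ≤ N := Nat.one_le_two_pow
  have hN0 : (0:ℝ) < N := by exact_mod_cast hN1
  have hM0 : (0:ℝ) < M := by exact_mod_cast hM
  have hTP : ∀ T ∈ s, (∏ p ∈ T, p) ≤ N ∧ (N:ℝ) ≤ 2 * ((∏ p ∈ T, p : ℕ) : ℝ) := by
    intro T hT
    obtain ⟨g1, -, -, -, -, g6⟩ := hs T hT
    have hp := (prod_pos_of_prime hG g1).ne'
    refine ⟨?_, ?_⟩
    · simp only [N, ← g6]; exact (Nat.lt_pow_succ_log_self one_lt_two _).le
    · simp only [N, ← g6]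
      rw [pow_succ', Nat.cast_mul, Nat.cast_ofNat]
      exact mul_le_mul_of_nonneg_left (Nat.cast_le.2 (Nat.pow_log_le_self 2 hp)) two_pos.le
  obtain ⟨g1, -, -, f4, f6, -⟩ := hs T1 hT1
  have hNlow : Real.exp (535/1000 * l) ≤ N := f4.trans (Nat.cast_le.2 (hTP T1 hT1).1)
  have f5 : ((∏ p ∈ T1, p : ℕ):ℝ) ≤ Real.exp (10001/10000 * l) :=
    le_trans (le_mul_of_one_le_left (Nat.cast_nonneg _) (by exact_mod_cast hM)) f6
  have hMup : (M:ℝ) ≤ Real.exp (48/100 * l) := by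
    refine le_of_mul_le_mul_right ?_ (Real.exp_pos (535/1000 * l))
    refine ((mul_le_mul_of_nonneg_left f4 hM0.le).trans f6).trans ?_
    rw [← Real.exp_add]; exact Real.exp_le_exp.2 (by linarith)
  have hsqN : Real.sqrt N ≤ Real.exp (2 * l) := by
    rw [Real.sqrt_le_iff]
    refine ⟨(Real.exp_pos _).le, ((hTP T1 hT1).2.trans (mul_le_mul_of_nonneg_left f5 two_pos.le)).trans ?_⟩
    calc 2 * Real.exp (10001/10000 * l) ≤ Real.exp 1 * Real.exp (10001/10000 * l) := by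
          gcongr; linarith [Real.add_one_le_exp (1:ℝ)]
      _ ≤ _ := by rw [← Real.exp_add, ← Real.exp_nat_mul]; exact Real.exp_le_exp.2 (by push_cast; linarith)
  set Δ := D0 l * πH + 1 / l
  have hΔD : Δ ≤ D0 l + 1 := add_le_add (mul_le_of_le_one_right (by linarith) hπH1) (by
    rw [div_le_one hl0]; linarith)
  set s' := s.image fun T => ∏ p ∈ T, p
  have hs' : ∀ a ∈ s', 1 ≤ a ∧ a ≤ N ∧ |(((M:ℤ) * a - (w:ℤ) : ℤ):ℝ)| ≤ (M:ℝ) * N ∧
      HitN γ t (sel γ l) ((M:ℤ) * a - (w:ℤ)) ∧ ∀ p ∈ H, ¬ p ∣ a := by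
    intro a ha
    obtain ⟨T, hT, rfl⟩ := Finset.mem_image.1 ha
    obtain ⟨g1, g2, g3, -, -, -⟩ := hs T hT
    refine ⟨prod_pos_of_prime hG g1, (hTP T hT).1, ?_, g3, fun p hp hd => ?_⟩
    · push_cast
      have h4 : (w:ℝ) ≤ (M:ℝ) * (∏ p ∈ T, p : ℕ) := by exact_mod_cast g2.le
      have h5 : (M:ℝ) * (∏ p ∈ T, p : ℕ) ≤ (M:ℝ) * N :=
        mul_le_mul_of_nonneg_left (Nat.cast_le.2 (hTP T hT).1) hM0.le
      have h6 : (0:ℝ) ≤ w := Nat.cast_nonneg _
      push_cast at h4 h5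
      rw [abs_of_nonneg (by linarith)]; linarith
    · obtain ⟨q, hq, hpq⟩ := ((hH p hp).prime.dvd_finsetProd_iff _).1 hd
      exact hHG p hp (((Nat.prime_dvd_prime_iff_eq (hH p hp) (hG q (g1 hq))).1 hpq).symm ▸ g1 hq)
  have hrow := (row_sieve γ t l M N (w:ℤ) H hH r R Δ ht S.t1 hR0 S.tR S.R4 hM hN1 (fun d hd1 hd2 =>
      add_le_add (mul_le_mul_of_nonneg_right (pinv_le_D0 (l := l) (by linarith) hd1 (hd2.trans hsqN)) hπH.le) htail)
      (by positivity) s' hs').resolve_right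
    (no_bad S hM hMup (le_trans (Real.exp_le_exp.2 (by linarith)) hNlow))
  have hw : ∀ T ∈ s, wT G T ≤ πG * D0 l * (2 / N) := by
    intro T hT
    obtain ⟨g1, -, -, -, g5, -⟩ := hs T hT
    have hPT : (0:ℝ) < (∏ p ∈ T, p : ℕ) := by exact_mod_cast prod_pos_of_prime hG g1
    have hd0 := dens_pos T fun p hp => (hG p (g1 hp)).two_le
    have e : wT G T = πG * pinv T * (1 / ((∏ p ∈ T, p : ℕ) : ℝ)) := by
      have h1 : (∏ p ∈ G \ T, (1 - 1 / (p:ℝ))) * ∏ p ∈ T, (1 - 1 / (p:ℝ)) = πG := Finset.prod_sdiff g1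
      rw [wT, pinv, ← h1, mul_inv_cancel_right₀ hd0.ne', mul_comm, inv_prod_cast]
    rw [e]
    refine mul_le_mul (mul_le_mul_of_nonneg_left ?_ hπG.le) ?_ (by positivity) (by positivity)
    · have hpf : (∏ p ∈ T, p).primeFactors = T := Nat.primeFactors_prod fun p hp => hG p (g1 hp)
      have := pinv_le_D0 (l := l) (by linarith) (prod_pos_of_prime hG g1)
        ((le_mul_of_one_le_left (Nat.cast_nonneg _) (by exact_mod_cast hM)).trans (g5.trans
          (Real.exp_le_exp.2 (by linarith))))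
      rwa [hpf] at this
    · rw [div_le_div_iff₀ hPT hN0]; linarith [(hTP T hT).2]
  have hTs : s.card = s'.card := (Finset.card_image_of_injOn fun T hT T' hT' e =>
    prod_inj_of_prime hG (hs T hT).1 (hs T' hT').1 e).symm
  refine (Finset.sum_le_card_nsmul _ _ _ hw).trans ?_
  rw [nsmul_eq_mul, hTs]
  refine (mul_le_mul_of_nonneg_right hrow (by positivity)).trans ?_
  have hGΔ : πG * Δ ≤ 1001 * D0 l * (Lg l / l) := by
    simp only [Δ]
    have h1 := mul_le_mul_of_nonneg_left hprod (by linarith : (0:ℝ) ≤ D0 l)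
    have h2 : πG * (1 / l) ≤ 1 * (1 / l) := mul_le_mul_of_nonneg_right hπG1 (by positivity)
    have h3 : 1 / l ≤ D0 l * (Lg l / l) := by
      rw [← mul_div_assoc]
      exact div_le_div_of_nonneg_right (one_le_mul_of_one_le_of_one_le hD1 (by linarith)) hl0.le
    rw [show (1000:ℝ) * Lg l / l = 1000 * (Lg l / l) by ring] at h1
    linarith
  have herr := sieve_err S hπG.le hπG1 hNlow (by positivity : 0 ≤ Δ) hΔD hE0 (by positivity)
  calc _ = 2 * D0 l / N * ((12 * R + gM) * N * (πG * Δ)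
        + πG * (8 * Real.sqrt N * (Δ + (1 + (H.card : ℝ)) ^ (2 * r)))) := by ring
    _ ≤ 2 * D0 l / N * ((12 * R + gM) * N * (1001 * D0 l * (Lg l / l)) + N * (D0 l * (Lg l / l) * R)) := by
        gcongr
    _ = 2 * CP ^ 2 * (12013 * R + 1001 * gM) * (Lg l ^ 17 / l) := by
        simp only [D0]; field_simp; ring
    _ ≤ 2 * CP ^ 2 * (15000 * (R + gM)) * (Lg l ^ 17 / l) := by gcongr; linarith
    _ = _ := by ring

/-- Long products with step `M`. -/
lemma long_step {k : ℕ} {γ l t R : ℝ} (S : Scale k l t R) {G : Finset ℕ} (hG : ∀ p ∈ G, p.Prime)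
    {M : ℕ} (hM : 1 ≤ M) (w : ℕ) (s : Finset (Finset ℕ))
    (hs : ∀ T ∈ s, T ⊆ G ∧ w < M * ∏ p ∈ T, p ∧ HitN γ t (sel γ l) ((M:ℤ) * (∏ p ∈ T, p : ℕ) - (w:ℤ)) ∧
      Real.exp (535/1000 * l) ≤ ((∏ p ∈ T, p : ℕ):ℝ) ∧
      (M:ℝ) * (∏ p ∈ T, p : ℕ) ≤ Real.exp (10001/10000 * l)) :
    ∑ T ∈ s, wT G T ≤ 100000 * CP ^ 2 * Lg l ^ 17 *
      (R + (Nat.gcd (sel γ l).1 M : ℝ) * min (1 / ((sel γ l).1:ℝ)) (4 * t)) := by
  have hl := S.l100
  have hl0 : 0 < l := by linarith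
  have ht := S.t0
  have hR0 := S.R0
  have hLg := two_le_Lg (l := l) hl0.le
  have hjmap : ∀ T ∈ s, Nat.log 2 (∏ p ∈ T, p) ∈ Finset.range (⌊2 * l⌋₊ + 1) := by
    intro T hT
    obtain ⟨hTG, -, -, -, h5⟩ := hs T hT
    refine Finset.mem_range.2 (Nat.lt_succ_of_le (Nat.le_floor ?_))
    have h1 : (2:ℝ) ^ Nat.log 2 (∏ p ∈ T, p) ≤ Real.exp (10001/10000 * l) := by
      refine le_trans ?_ ((le_mul_of_one_le_left (Nat.cast_nonneg _) (by exact_mod_cast hM)).trans h5)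
      exact_mod_cast Nat.pow_log_le_self 2 (prod_pos_of_prime hG hTG).ne'
    have h2 := Real.log_le_log (by positivity) h1
    rw [Real.log_pow, Real.log_exp] at h2
    have := mul_le_mul_of_nonneg_left (by linarith [Real.log_two_gt_d9] : (69/100:ℝ) ≤ Real.log 2)
      (Nat.cast_nonneg (α := ℝ) (Nat.log 2 (∏ p ∈ T, p)))
    linarith
  rw [← Finset.sum_fiberwise_of_maps_to hjmap]
  refine (Finset.sum_le_card_nsmul _ _ (30000 * CP ^ 2 * Lg l ^ 17 *
      (R + (Nat.gcd (sel γ l).1 M : ℝ) * min (1 / ((sel γ l).1:ℝ)) (4 * t)) / l) fun j _ =>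
    long_dyadic S hG hM w j _ fun T hT => by
      obtain ⟨h1, h2⟩ := Finset.mem_filter.1 hT
      obtain ⟨a1, a2, a3, a4, a5⟩ := hs T h1
      exact ⟨a1, a2, a3, a4, a5, h2⟩).trans ?_
  rw [Finset.card_range, nsmul_eq_mul]
  have hfl : ((⌊2 * l⌋₊ + 1 : ℕ):ℝ) ≤ 3 * l := by
    push_cast
    have := Nat.floor_le (by positivity : 0 ≤ 2 * l)
    linarith
  have hC := one_le_CP
  set X := CP ^ 2 * Lg l ^ 17 * (R + (Nat.gcd (sel γ l).1 M : ℝ) * min (1 / ((sel γ l).1:ℝ)) (4 * t))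
  have h0 : 0 ≤ X := by positivity
  calc _ ≤ 3 * l * (30000 * X / l) :=
        (mul_le_mul_of_nonneg_right hfl (by positivity)).trans (le_of_eq (by simp only [X]; ring))
    _ = 90000 * X := by field_simp; ring
    _ ≤ 100000 * X := by linarith
    _ = _ := by simp only [X]; ring

/-- A fixed side against the other random cofactor. -/
theorem one_side (k : ℕ) (hk : 100 ≤ k) : ∃ l0 K : ℝ, 0 < K ∧
    ∀ (γ l t : ℝ) (G : Finset ℕ), (∀ p ∈ G, p.Prime) → l0 ≤ l → l ^ (-(15:ℝ)) < t → t ≤ 1 →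
      ∀ (c Vm w : ℕ), 1 ≤ c → (c:ℝ) ≤ l ^ 40 →
      ∑ x ∈ (Finset.Icc 1 Vm ×ˢ G.powerset).filter (fun x : ℕ × Finset ℕ =>
          t ^ (1 + zk k) * Real.exp l ≤ ((c * x.1 * ∏ p ∈ x.2, p : ℕ):ℝ) ∧
          ((c * x.1 * ∏ p ∈ x.2, p : ℕ):ℝ) ≤ Ub k l t ∧ w < c * x.1 * ∏ p ∈ x.2, p ∧
          HitN γ t (sel γ l) (((c * x.1 * ∏ p ∈ x.2, p : ℕ):ℤ) - (w:ℤ))), wT G x.2
        ≤ K * Lg l ^ 17 * (t ^ (2 * zk k) + (Nat.gcd (sel γ l).1 c : ℝ) * ((sel γ l).1.divisors.card : ℝ)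
            * min (1 / ((sel γ l).1:ℝ)) (4 * t)) * Vm := by
  obtain ⟨l0, hsc⟩ := scale_of hk
  have hCP := one_le_CP
  refine ⟨l0, 100000 * CP ^ 2 + 30 * CP, by positivity, fun γ l t G hG hl htlo ht1 c Vm w hc hcl => ?_⟩
  have S := hsc l t hl htlo ht1
  have hl1 := S.l100
  have hl0 : 0 < l := by linarith
  have hLg := two_le_Lg (l := l) hl0.le
  set R := t ^ (2 * zk k)
  have hR0 := S.R0
  set B := (sel γ l).1
  have hB : 0 < B := (sel_spec γ l).1
  set mm := min (1 / (B:ℝ)) (4 * t)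
  have hmm : 0 ≤ mm := by have := S.t0; positivity
  set gc := (Nat.gcd B c : ℝ)
  set τB := (B.divisors.card : ℝ)
  set F := (Finset.Icc 1 Vm ×ˢ G.powerset).filter (fun x : ℕ × Finset ℕ =>
          t ^ (1 + zk k) * Real.exp l ≤ ((c * x.1 * ∏ p ∈ x.2, p : ℕ):ℝ) ∧
          ((c * x.1 * ∏ p ∈ x.2, p : ℕ):ℝ) ≤ Ub k l t ∧ w < c * x.1 * ∏ p ∈ x.2, p ∧
          HitN γ t (sel γ l) (((c * x.1 * ∏ p ∈ x.2, p : ℕ):ℤ) - (w:ℤ)))
  have hF : ∀ x ∈ F, 1 ≤ x.1 ∧ x.1 ≤ Vm ∧ x.2 ⊆ G ∧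
      t ^ (1 + zk k) * Real.exp l ≤ ((c * x.1 * ∏ p ∈ x.2, p : ℕ):ℝ) ∧
      ((c * x.1 * ∏ p ∈ x.2, p : ℕ):ℝ) ≤ Ub k l t ∧ w < c * x.1 * ∏ p ∈ x.2, p ∧
      HitN γ t (sel γ l) (((c * x.1 * ∏ p ∈ x.2, p : ℕ):ℤ) - (w:ℤ)) := by
    intro x hx
    obtain ⟨h1, h2⟩ := Finset.mem_filter.1 hx
    obtain ⟨h1, h1'⟩ := Finset.mem_product.1 h1
    exact ⟨(Finset.mem_Icc.1 h1).1, (Finset.mem_Icc.1 h1).2, Finset.mem_powerset.1 h1', h2⟩
  rw [← Finset.sum_filter_add_sum_filter_not F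
    (fun x : ℕ × Finset ℕ => ((c * ∏ p ∈ x.2, p : ℕ):ℝ) ≤ Real.exp (54/100 * l))]
  have hI := short_side S hG hc hcl Vm w (F.filter fun x : ℕ × Finset ℕ =>
      ((c * ∏ p ∈ x.2, p : ℕ):ℝ) ≤ Real.exp (54/100 * l)) fun x hx => by
    obtain ⟨h1, h2⟩ := Finset.mem_filter.1 hx
    obtain ⟨a1, a2, a3, a4⟩ := hF x h1
    exact ⟨a1, a2, a3, h2, a4⟩
  set F2 := F.filter fun x : ℕ × Finset ℕ => ¬ ((c * ∏ p ∈ x.2, p : ℕ):ℝ) ≤ Real.exp (54/100 * l)
  have hII : ∑ x ∈ F2, wT G x.2 ≤ 100000 * CP ^ 2 * Lg l ^ 17 * (R + gc * τB * mm) * Vm := by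
    have hmap : ∀ x ∈ F2, x.1 ∈ Finset.Icc 1 Vm := fun x hx =>
      Finset.mem_Icc.2 ⟨(hF x (Finset.mem_filter.1 hx).1).1, (hF x (Finset.mem_filter.1 hx).1).2.1⟩
    rw [← Finset.sum_fiberwise_of_maps_to hmap]
    have hV : ∀ V ∈ Finset.Icc 1 Vm, ∑ x ∈ F2.filter (fun x => x.1 = V), wT G x.2
        ≤ 100000 * CP ^ 2 * Lg l ^ 17 * (R + (Nat.gcd B (c * V) : ℝ) * mm) := by
      intro V hV
      rw [← Finset.sum_image (f := wT G) (g := Prod.snd) (fun x hx y hy e =>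
        Prod.ext ((Finset.mem_filter.1 hx).2.trans (Finset.mem_filter.1 hy).2.symm) e)]
      refine long_step S hG (Nat.mul_pos hc (Finset.mem_Icc.1 hV).1) w _ fun T hT => ?_
      obtain ⟨x, hxf, rfl⟩ := Finset.mem_image.1 hT
      obtain ⟨hx2, hxe⟩ := Finset.mem_filter.1 hxf
      obtain ⟨hxF, hlong⟩ := Finset.mem_filter.1 hx2
      obtain ⟨-, -, a3, -, a5, a6, a7⟩ := hF x hxF
      subst hxe
      rw [Nat.cast_mul] at a5 hlong a7
      refine ⟨a3, a6, a7, ?_, a5.trans S.ub⟩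
      refine le_of_mul_le_mul_left ?_ (lt_of_lt_of_le (by exact_mod_cast hc) hcl : (0:ℝ) < l ^ 40)
      refine le_trans ?_ ((not_le.1 hlong).le.trans (mul_le_mul_of_nonneg_right hcl (Nat.cast_nonneg _)))
      refine (mul_le_mul_of_nonneg_right (S.lpow 40 (by norm_num)) (Real.exp_pos _).le).trans ?_
      rw [← Real.exp_add]; exact Real.exp_le_exp.2 (by linarith)
    refine (Finset.sum_le_sum hV).trans ?_
    have hgV : ∑ V ∈ Finset.Icc 1 Vm, (Nat.gcd B (c * V) : ℝ) ≤ gc * (τB * Vm) := by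
      refine (Finset.sum_le_sum (g := fun V => gc * (Nat.gcd B V : ℝ)) fun V _ => ?_).trans ?_
      · simp only [gc]; rw [← Nat.cast_mul]
        exact Nat.cast_le.2 (Nat.le_of_dvd (Nat.mul_pos (Nat.gcd_pos_of_pos_left _ hB) (Nat.gcd_pos_of_pos_left _ hB))
          (Nat.gcd_mul_right_dvd_mul_gcd B _ _))
      · rw [← Finset.mul_sum]; exact mul_le_mul_of_nonneg_left (sum_gcd_le hB Vm) (Nat.cast_nonneg _)
    rw [← Finset.mul_sum, Finset.sum_add_distrib, ← Finset.sum_mul, Finset.sum_const, Nat.card_Icc,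
      Nat.add_sub_cancel, nsmul_eq_mul]
    rw [mul_assoc (100000 * CP ^ 2 * Lg l ^ 17)]
    refine mul_le_mul_of_nonneg_left ?_ (by positivity)
    have := mul_le_mul_of_nonneg_right hgV hmm
    linarith
  refine (add_le_add hI hII).trans ?_
  have hmid : 30 * R + gc * τB * mm ≤ 30 * (R + gc * τB * mm) := by
    have : 0 ≤ gc * τB * mm := by positivity
    linarith
  have hLg17 : Lg l ^ 8 ≤ Lg l ^ 17 := pow_le_pow_right₀ (by linarith) (by norm_num)
  calc (30 * R + gc * τB * mm) * D0 l * Vm + 100000 * CP ^ 2 * Lg l ^ 17 * (R + gc * τB * mm) * Vm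
      ≤ 30 * (R + gc * τB * mm) * (CP * Lg l ^ 17) * Vm
        + 100000 * CP ^ 2 * Lg l ^ 17 * (R + gc * τB * mm) * Vm := by
        unfold D0; gcongr
    _ = _ := by ring

end Vale.Agent.P028.Div
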