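import Vale.Agent.P028.Div.Mid
import Vale.Agent.P028.Div.Side

/-!
# Gcd graphs controlled by pair counts (P028)
-/

namespace Vale.Agent.P028.Div

open Finset
open scoped Classical
open Wide (mass EE Conf wT wT_nonneg sum_wT sum_wT_le mu_le_wT nbr_alg mass_nonneg EE_nonneg
  EE_le_mass mass_pos_of_EE_pos xw xw_union_le xw_le_card xw_nonneg card_xw_tail wT_xw_tail)

variable {κ k : ℕ}

/-- The gain of a configuration per unit of its common part. -/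
noncomputable def gs (κ : ℕ) (Fc : Finset ℕ) {E : Finset (ℕ × ℕ)} (S : Conf E) : ℝ :=
  cgain κ Fc (S.c * S.e) / ((S.c : ℝ) * S.e)

/-- The neighbourhoods of extremal vertices, split by a property of the left vertex. -/
lemma nbr_typ {E : Finset (ℕ × ℕ)} (S : Conf E) {μ ψ : ℕ → ℝ} {Fc V W : Finset ℕ} {t Γ : ℝ}
    (Typ : ℕ → ℕ → Prop) (hμ : ∀ x, 0 ≤ μ x) (hψ : ∀ x, 0 ≤ ψ x) (hμψ : ∀ x, μ x ≤ ψ x * lam x)
    (ht : 0 ≤ t)
    (hedge : ∀ x ∈ E, (cv x.1 x.2 : ℝ) * ψ x.1 ≤ t ∧ (cu x.1 x.2 : ℝ) * ψ x.2 ≤ t)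
    (hE : 0 < EE μ S.E2 V W)
    (hdegV : ∀ q ∈ V, 0 < μ q →
        (sg κ) * EE μ S.E2 V W / mass μ V ≤ ∑ r ∈ W.filter (fun r => (q, r) ∈ S.E2), μ r)
    (hdegW : ∀ r ∈ W, 0 < μ r →
        (sg κ) * EE μ S.E2 V W / mass μ W ≤ ∑ q ∈ V.filter (fun q => (q, r) ∈ S.E2), μ q)
    (_hΓ : 0 ≤ Γ)
    (hA : ∀ (r : ℕ) (N : ℕ) (A : Finset ℕ),
      (∀ q ∈ A, (q, r) ∈ S.E2 ∧ S.Uf q ≤ N ∧ ¬ Typ r q) →
      (∑ q ∈ A, wT S.G (S.Tl q)) * (cgain κ Fc (S.c * S.e) / ((S.c : ℝ) * S.e)) ≤ Γ * N)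
    (hB : ∀ (r q : ℕ) (A : Finset ℕ), (q, r) ∈ S.E2 → Typ r q →
      (∀ r' ∈ A, (q, r') ∈ S.E2 ∧ S.Vf r' ≤ S.Vf r) →
      (∑ r' ∈ A, wT S.G (S.Tr r')) * (cgain κ Fc (S.c * S.e) / ((S.c : ℝ) * S.e)) ≤ Γ * S.Vf r) :
    (sg κ) ^ 2 * EE μ S.E2 V W ^ 2 * cgain κ Fc (S.c * S.e) ≤ 2 * t ^ 2 * Γ * (mass μ V * mass μ W) := by
  obtain ⟨hMV, hMW⟩ := mass_pos_of_EE_pos hμ hE
  have hc : (0:ℝ) < S.c := by exact_mod_cast S.hc
  have he : (0:ℝ) < S.e := by exact_mod_cast S.he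
  have hg : 0 < cgain κ Fc (S.c * S.e) := Finset.prod_pos fun p hp => by
    have : (0:ℝ) < p := by exact_mod_cast Nat.pos_of_mem_primeFactors hp
    positivity
  set g := cgain κ Fc (S.c * S.e)
  set gs := g / ((S.c:ℝ) * S.e) with hgs
  have hgs0 : 0 < gs := by positivity
  have hG1 : ∀ p ∈ S.G, 1 ≤ p := fun p hp => (S.primeG p hp).one_le
  -- the extremal right vertex
  set W' := W.filter (fun r => 0 < μ r ∧ ∃ q ∈ V, (q, r) ∈ S.E2 ∧ 0 < μ q) with hW'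
  have hW'ne : W'.Nonempty := by
    obtain ⟨x, hx, hpos⟩ := Finset.exists_lt_of_sum_lt (f := fun _ => (0:ℝ))
      (g := fun x : ℕ × ℕ => μ x.1 * μ x.2) (by simpa [EE] using hE)
    obtain ⟨hxE, hx1, hx2⟩ := Finset.mem_filter.1 hx
    have h2 : 0 < μ x.2 := pos_of_mul_pos_right hpos (hμ _)
    exact ⟨x.2, Finset.mem_filter.2 ⟨hx2, h2, x.1, hx1, hxE, pos_of_mul_pos_left hpos (hμ _)⟩⟩
  obtain ⟨r, hr, hrmax⟩ := Finset.exists_max_image W' S.Vf hW'ne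
  obtain ⟨hrW, hμr, q0, hq0V, hq0E, -⟩ := Finset.mem_filter.1 hr
  set N := (V.filter (fun q => (q, r) ∈ S.E2)).filter (fun q => 0 < μ q) with hN
  have hNdeg : (sg κ) * EE μ S.E2 V W / mass μ W ≤ mass μ N := by
    refine (hdegW r hrW hμr).trans (le_of_eq ?_)
    refine (Finset.sum_filter_of_ne fun q _ hne => ?_).symm
    exact lt_of_le_of_ne (hμ q) (Ne.symm hne)
  have hNne : N.Nonempty := by
    refine Finset.nonempty_of_sum_ne_zero (f := μ) (ne_of_gt (lt_of_lt_of_le ?_ hNdeg))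
    exact div_pos (mul_pos (sg_pos κ) hE) hMW
  have hNmem : ∀ q ∈ N, q ∈ V ∧ (q, r) ∈ S.E2 ∧ 0 < μ q := fun q hq => by
    obtain ⟨h1, h2⟩ := Finset.mem_filter.1 hq
    exact ⟨(Finset.mem_filter.1 h1).1, (Finset.mem_filter.1 h1).2, h2⟩
  set Vm := S.Vf r
  have hVm : (1:ℝ) ≤ Vm := by exact_mod_cast (S.right _ hq0E).1
  have hμq : ∀ q ∈ N, μ q ≤ t / ((S.c:ℝ) * Vm) * wT S.G (S.Tl q) := fun q hq => by
    obtain ⟨-, h2, -⟩ := hNmem q hq
    refine mu_le_wT S.primeG (S.left _ h2).2 (hμψ q) (hψ q) (S.lamL (q, r) h2) (by positivity) ?_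
    have h := (hedge _ (S.sub h2)).1
    rw [S.cofV _ h2] at h
    push_cast at h ⊢
    exact h
  -- neighbourhood of a left vertex
  have hNu : ∀ u ∈ N, (sg κ) * EE μ S.E2 V W / mass μ V ≤
      t / ((S.e:ℝ) * S.Uf u) * ∑ r' ∈ (W.filter (fun r' => (u, r') ∈ S.E2)).filter (fun r' => 0 < μ r'),
        wT S.G (S.Tr r') := by
    intro u hu
    obtain ⟨huV, huE, huμ⟩ := hNmem u hu
    have hUu : (1:ℝ) ≤ S.Uf u := by exact_mod_cast (S.left _ huE).1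
    refine (hdegV u huV huμ).trans ?_
    rw [← Finset.sum_filter_of_ne (p := fun r' => 0 < μ r') (fun r' _ hne => lt_of_le_of_ne (hμ r') (Ne.symm hne)),
      Finset.mul_sum]
    refine Finset.sum_le_sum fun r' hr' => ?_
    have h2 := (Finset.mem_filter.1 (Finset.mem_filter.1 hr').1).2
    refine mu_le_wT S.primeG (S.right _ h2).2 (hμψ r') (hψ r') (S.lamR (u, r') h2) (by positivity) ?_
    have h := (hedge _ (S.sub h2)).2
    rw [S.cofU _ h2] at h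
    push_cast at h ⊢
    exact h
  have hVmax : ∀ u ∈ N, ∀ r' ∈ (W.filter (fun r' => (u, r') ∈ S.E2)).filter (fun r' => 0 < μ r'),
      (u, r') ∈ S.E2 ∧ S.Vf r' ≤ Vm := by
    intro u hu r' hr'
    obtain ⟨h1, h2⟩ := Finset.mem_filter.1 hr'
    obtain ⟨h1W, h1E⟩ := Finset.mem_filter.1 h1
    exact ⟨h1E, hrmax r' (Finset.mem_filter.2 ⟨h1W, h2, u, (hNmem u hu).1, h1E, (hNmem u hu).2.2⟩)⟩
  have hfinal : ∀ (u : ℕ) (X Y : ℝ), u ∈ N → 0 ≤ X → 0 ≤ Y →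
      mass μ N ≤ 2 * (t / ((S.c:ℝ) * Vm) * X) →
      (∑ r' ∈ (W.filter (fun r' => (u, r') ∈ S.E2)).filter (fun r' => 0 < μ r'), wT S.G (S.Tr r')) ≤ Y →
      X * Y * gs ≤ Γ * (S.Uf u : ℝ) * Vm →
      (sg κ) ^ 2 * EE μ S.E2 V W ^ 2 * g ≤ 2 * t ^ 2 * Γ * (mass μ V * mass μ W) := by
    intro u X Y hu hX hY hmass hY' hXY
    have hUu : (1:ℝ) ≤ S.Uf u := by exact_mod_cast (S.left _ (hNmem u hu).2.1).1
    have h1 := (hNu u hu).trans (mul_le_mul_of_nonneg_left hY' (div_nonneg ht (mul_nonneg he.le (by linarith))))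
    have h2 := hNdeg.trans hmass
    have h := nbr_alg (mul_pos (sg_pos κ) hE).le hMV hMW hc he (by linarith) (by linarith) ht hg.le hY h1 h2 hXY
    rwa [sq, sq, mul_mul_mul_comm]
  have hall : ∀ u ∈ N, (∑ r' ∈ (W.filter (fun r' => (u, r') ∈ S.E2)).filter (fun r' => 0 < μ r'),
      wT S.G (S.Tr r')) ≤ (Vm:ℝ) := fun u hu => by
    refine sum_wT_le hG1 _ Vm S.Vf S.Tr (fun r' hr' => ⟨(S.right _ (hVmax u hu r' hr').1).1, (hVmax u hu r' hr').2⟩)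
      (fun r' hr' => (S.right _ (hVmax u hu r' hr').1).2) fun x hx y hy => ?_
    exact S.injR _ (hVmax u hu x hx).1 _ (hVmax u hu y hy).1
  have hwsum : ∀ (A : Finset ℕ) (M : ℕ), A ⊆ N → (∀ q ∈ A, S.Uf q ≤ M) →
      ∑ q ∈ A, wT S.G (S.Tl q) ≤ (M:ℝ) := fun A M hA hM => by
    refine sum_wT_le hG1 _ M S.Uf S.Tl (fun q hq => ⟨(S.left _ (hNmem q (hA hq)).2.1).1, hM q hq⟩)
      (fun q hq => (S.left _ (hNmem q (hA hq)).2.1).2) fun x hx y hy => ?_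
    exact S.injL _ (hNmem x (hA hx)).2.1 _ (hNmem y (hA hy)).2.1
  have hmassle : ∀ A : Finset ℕ, A ⊆ N → mass μ A ≤ t / ((S.c:ℝ) * Vm) * ∑ q ∈ A, wT S.G (S.Tl q) :=
    fun A hA => by
      rw [Finset.mul_sum]; exact Finset.sum_le_sum fun q hq => hμq q (hA hq)
  have hsplit : mass μ N = mass μ (N.filter (fun q => Typ r q)) + mass μ (N.filter (fun q => ¬ Typ r q)) :=
    (Finset.sum_filter_add_sum_filter_not N _ _).symm
  rcases le_or_gt (mass μ (N.filter (fun q => Typ r q))) (mass μ (N.filter (fun q => ¬ Typ r q))) with hcase | hcase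
  · obtain ⟨u, hu, humax⟩ := Finset.exists_max_image N S.Uf hNne
    set A := N.filter (fun q => ¬ Typ r q)
    have hA0 : 0 ≤ ∑ q ∈ A, wT S.G (S.Tl q) := Finset.sum_nonneg fun q _ => wT_nonneg hG1 _
    refine hfinal u _ _ hu hA0 (Nat.cast_nonneg Vm) ?_ (hall u hu) ?_
    · have := hmassle A (Finset.filter_subset _ _); linarith
    · have := hA r (S.Uf u) A (fun q hq => ⟨(hNmem q (Finset.mem_filter.1 hq).1).2.1,
        humax q (Finset.mem_filter.1 hq).1, (Finset.mem_filter.1 hq).2⟩)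
      calc _ = (∑ q ∈ A, wT S.G (S.Tl q)) * gs * Vm := mul_right_comm _ _ _
        _ ≤ Γ * (S.Uf u : ℝ) * Vm := mul_le_mul_of_nonneg_right this (Nat.cast_nonneg _)
  · set A := N.filter (fun q => Typ r q)
    have hAne : A.Nonempty := Finset.nonempty_of_sum_ne_zero (f := μ)
      (ne_of_gt (lt_of_le_of_lt (mass_nonneg hμ _) hcase))
    obtain ⟨u, hu, humax⟩ := Finset.exists_max_image A S.Uf hAne
    have huN := (Finset.mem_filter.1 hu).1
    refine hfinal u (S.Uf u : ℝ) _ huN (Nat.cast_nonneg _) (Finset.sum_nonneg fun x _ => wT_nonneg hG1 _) ?_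
      le_rfl ?_
    · have h1 := hmassle A (Finset.filter_subset _ _)
      have h2 := mul_le_mul_of_nonneg_left (hwsum A (S.Uf u) (Finset.filter_subset _ _) humax)
        (by positivity : 0 ≤ t / ((S.c:ℝ) * Vm))
      linarith
    · have := hB r u _ (hNmem u huN).2.1 (Finset.mem_filter.1 hu).2 (hVmax u huN)
      calc _ = (S.Uf u : ℝ) * ((∑ r' ∈ (W.filter (fun r' => (u, r') ∈ S.E2)).filter (fun r' => 0 < μ r'),
            wT S.G (S.Tr r')) * gs) := by ring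
        _ ≤ (S.Uf u : ℝ) * (Γ * Vm) := mul_le_mul_of_nonneg_left this (Nat.cast_nonneg _)
        _ = _ := by ring

lemma gs_nonneg (κ : ℕ) (Fc : Finset ℕ) {E : Finset (ℕ × ℕ)} (S : Conf E) : 0 ≤ gs κ Fc S :=
  div_nonneg (cgain_pos κ Fc _).le (by positivity)

lemma gs_le (hκ : 2 ≤ κ) (Fc : Finset ℕ) {E : Finset (ℕ × ℕ)} (S : Conf E) :
    gs κ Fc S ≤ ((S.c * S.e : ℕ):ℝ) ^ (-gk κ) ∧ gs κ Fc S ≤ 1 := by
  have hn : 0 < S.c * S.e := Nat.mul_pos S.hc S.he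
  have h1 := cgain_div_le hκ Fc hn
  have h2 := cgain_div_le_one hκ Fc hn
  unfold gs
  rw [Nat.cast_mul] at h1 h2 ⊢
  exact ⟨h1, h2⟩

lemma gs_le_gcd (κ : ℕ) (Fc : Finset ℕ) {E : Finset (ℕ × ℕ)} (S : Conf E) {B : ℕ} (hB : 0 < B)
    (hBF : B.primeFactors ⊆ Fc) : gs κ Fc S ≤ (Nat.gcd B (S.c * S.e) : ℝ) ^ (-(19/20 : ℝ)) := by
  have h := cgain_div_le_gcd κ Fc hB (Nat.mul_pos S.hc S.he) hBF
  unfold gs
  rw [Nat.cast_mul] at h
  exact h

/-- The pairs of a configuration below two sizes. -/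
noncomputable def boxE {E : Finset (ℕ × ℕ)} (S : Conf E) (N Vm : ℕ) : Finset (ℕ × ℕ) :=
  S.E2.filter (fun x => S.Uf x.1 ≤ N ∧ S.Vf x.2 ≤ Vm)

/-- The weight of the pairs of a configuration below two sizes. -/
noncomputable def boxW {E : Finset (ℕ × ℕ)} (S : Conf E) (N Vm : ℕ) : ℝ :=
  ∑ x ∈ boxE S N Vm, wT S.G (S.Tl x.1) * wT S.G (S.Tr x.2)

/-- The extremal neighbourhoods under a bound for weighted pairs. -/
lemma nbr_pair {E : Finset (ℕ × ℕ)} (S : Conf E) {μ ψ : ℕ → ℝ} {Fc V W : Finset ℕ} {t Γ : ℝ}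
    (hμ : ∀ x, 0 ≤ μ x) (hψ : ∀ x, 0 ≤ ψ x) (hμψ : ∀ x, μ x ≤ ψ x * lam x) (ht : 0 ≤ t)
    (hedge : ∀ x ∈ E, (cv x.1 x.2 : ℝ) * ψ x.1 ≤ t ∧ (cu x.1 x.2 : ℝ) * ψ x.2 ≤ t)
    (hE : 0 < EE μ S.E2 V W)
    (hdegV : ∀ q ∈ V, 0 < μ q →
        (sg κ) * EE μ S.E2 V W / mass μ V ≤ ∑ r ∈ W.filter (fun r => (q, r) ∈ S.E2), μ r)
    (hdegW : ∀ r ∈ W, 0 < μ r →
        (sg κ) * EE μ S.E2 V W / mass μ W ≤ ∑ q ∈ V.filter (fun q => (q, r) ∈ S.E2), μ q)
    (hΓ : 0 < Γ) (hpair : ∀ N Vm : ℕ, boxW S N Vm * gs κ Fc S ^ 2 ≤ Γ ^ 2 * N * Vm) :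
    (sg κ) ^ 2 * EE μ S.E2 V W ^ 2 * cgain κ Fc (S.c * S.e) ≤ 2 * t ^ 2 * Γ * (mass μ V * mass μ W) := by
  have hG1 : ∀ p ∈ S.G, 1 ≤ p := fun p hp => (S.primeG p hp).one_le
  have hg0 := gs_nonneg κ Fc S
  set Y := fun r q : ℕ => ∑ x ∈ S.E2.filter (fun x => x.1 = q ∧ S.Vf x.2 ≤ S.Vf r), wT S.G (S.Tr x.2)
  refine nbr_typ S (fun r q => Y r q * gs κ Fc S ≤ Γ * S.Vf r) hμ hψ hμψ ht hedge hE hdegV hdegW hΓ.le ?_ ?_
  · intro r N A hA
    show (∑ q ∈ A, wT S.G (S.Tl q)) * gs κ Fc S ≤ Γ * N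
    rcases A.eq_empty_or_nonempty with he | ⟨q0, hq0⟩
    · rw [he, Finset.sum_empty, zero_mul]; positivity
    have hVr : (0:ℝ) < S.Vf r := by exact_mod_cast (S.right _ (hA q0 hq0).1).1
    set X := ∑ q ∈ A, wT S.G (S.Tl q)
    have h1 : X * (Γ * S.Vf r) ≤ gs κ Fc S * ∑ q ∈ A, wT S.G (S.Tl q) * Y r q := by
      rw [Finset.sum_mul, Finset.mul_sum]
      refine Finset.sum_le_sum fun q hq => ?_
      have := mul_le_mul_of_nonneg_left (le_of_not_ge (hA q hq).2.2) (wT_nonneg hG1 (S.Tl q))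
      linarith
    have h2 : ∑ q ∈ A, wT S.G (S.Tl q) * Y r q ≤ boxW S N (S.Vf r) := by
      unfold boxW
      have e : ∑ q ∈ A, wT S.G (S.Tl q) * Y r q
          = ∑ x ∈ (S.E2.filter fun x => x.1 ∈ A ∧ S.Vf x.2 ≤ S.Vf r), wT S.G (S.Tl x.1) * wT S.G (S.Tr x.2) := by
        rw [← Finset.sum_fiberwise_of_maps_to (g := Prod.fst) (t := A)
          (fun x hx => (Finset.mem_filter.1 hx).2.1)]
        refine Finset.sum_congr rfl fun q hq => ?_
        simp only [Y]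
        rw [Finset.mul_sum, Finset.filter_filter]
        refine Finset.sum_congr ?_ fun x hx => by rw [(Finset.mem_filter.1 hx).2.2]
        ext x
        simp only [Finset.mem_filter]
        exact ⟨fun ⟨a, b, c⟩ => ⟨a, ⟨b ▸ hq, c⟩, b⟩, fun ⟨a, ⟨_, c⟩, b⟩ => ⟨a, b, c⟩⟩
      rw [e]
      refine Finset.sum_le_sum_of_subset_of_nonneg (fun x hx => ?_)
        fun x _ _ => mul_nonneg (wT_nonneg hG1 _) (wT_nonneg hG1 _)
      obtain ⟨h1, h2, h3⟩ := Finset.mem_filter.1 hx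
      refine Finset.mem_filter.2 ⟨h1, ?_, h3⟩
      exact (hA x.1 h2).2.1
    refine le_of_mul_le_mul_right ?_ (mul_pos hΓ hVr)
    calc X * gs κ Fc S * (Γ * S.Vf r) = X * (Γ * S.Vf r) * gs κ Fc S := by ring
      _ ≤ gs κ Fc S * boxW S N (S.Vf r) * gs κ Fc S :=
          mul_le_mul_of_nonneg_right (h1.trans (mul_le_mul_of_nonneg_left h2 hg0)) hg0
      _ = boxW S N (S.Vf r) * gs κ Fc S ^ 2 := by ring
      _ ≤ Γ ^ 2 * N * S.Vf r := hpair N _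
      _ = _ := by ring
  · intro r q A hqr hT hA
    show (∑ r' ∈ A, wT S.G (S.Tr r')) * gs κ Fc S ≤ Γ * S.Vf r
    refine le_trans (mul_le_mul_of_nonneg_right ?_ hg0) hT
    rw [← Finset.sum_image (f := fun x : ℕ × ℕ => wT S.G (S.Tr x.2)) (g := fun r' => (q, r'))
      (fun a _ b _ e => (Prod.mk.injEq _ _ _ _ ▸ e).2)]
    refine Finset.sum_le_sum_of_subset_of_nonneg (fun x hx => ?_) fun x _ _ => wT_nonneg hG1 _
    obtain ⟨r', hr', rfl⟩ := Finset.mem_image.1 hx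
    exact Finset.mem_filter.2 ⟨(hA r' hr').1, rfl, (hA r' hr').2⟩

/-- The graph inequality from a bound for weighted pairs. -/
theorem graph_pair (κ : ℕ) (hκ : 100 ≤ κ) : ∃ (P0 : ℕ) (C L : ℝ), 0 < C ∧ 1 ≤ L ∧
    ∀ (μ ψ : ℕ → ℝ) (E : Finset (ℕ × ℕ)) (Fc V0 W0 : Finset ℕ) (t Γ : ℝ),
      (∀ x, 0 ≤ μ x) → (∀ x, 0 ≤ ψ x) → (∀ x, μ x ≤ ψ x * lam x) → 0 ≤ t → 0 < Γ →
      (∀ x ∈ V0 ∪ W0, 0 < x) →
      (∀ x ∈ E, (cv x.1 x.2 : ℝ) * ψ x.1 ≤ t ∧ (cu x.1 x.2 : ℝ) * ψ x.2 ≤ t) →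
      (∀ p ∈ Fc, p.Prime) → (∀ p, p.Prime → p < P0 → p ∈ Fc) →
      (∀ (S : Conf E) (N Vm : ℕ), boxW S N Vm * gs κ Fc S ^ 2 ≤ Γ ^ 2 * N * Vm) →
      EE μ E V0 W0 ^ ee κ ≤ C * L ^ Fc.card * (Γ * t ^ 2) * (mass μ V0 * mass μ W0) ^ (ee κ - 1) := by
  obtain ⟨P0, L, hL, hmain⟩ := exists_max_conf hκ
  have hsg := sg_pos κ
  refine ⟨P0, 2 ^ ee κ * (2 / sg κ ^ 2), L, by positivity, hL,
    fun μ ψ E Fc V0 W0 t Γ hμ hψ hμψ ht hΓ hpos hedge hFc hsmall hpair => ?_⟩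
  have hcoef : 0 ≤ (2:ℝ) ^ ee κ * L ^ Fc.card := by
    have : 0 < L := by linarith
    positivity
  have hMM : 0 ≤ (mass μ V0 * mass μ W0) ^ (ee κ - 1) :=
    Real.rpow_nonneg (mul_nonneg (mass_nonneg hμ V0) (mass_nonneg hμ W0)) _
  rw [show 2 ^ ee κ * (2 / sg κ ^ 2) * L ^ Fc.card * (Γ * t ^ 2)
    = 2 ^ ee κ * L ^ Fc.card * (2 / sg κ ^ 2 * (Γ * t ^ 2)) by ring]
  rcases eq_or_lt_of_le (EE_nonneg hμ E V0 W0) with h0 | h0
  · rw [← h0, Real.zero_rpow (ee_pos κ).ne']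
    exact mul_nonneg (mul_nonneg hcoef (by positivity)) hMM
  obtain ⟨S, V, W, hE, h⟩ := hmain μ E Fc V0 W0 hμ hpos hFc hsmall h0
  refine h.trans (mul_le_mul_of_nonneg_right (mul_le_mul_of_nonneg_left ?_ hcoef) hMM)
  obtain ⟨V2, W2, -, -, hE3, hq2, hdV, hdW⟩ := prune (κ := κ) hμ hE
  have hprod := nbr_pair (κ := κ) S hμ hψ hμψ ht hedge hE3 hdV hdW hΓ (hpair S)
  obtain ⟨hM2V, hM2W⟩ := mass_pos_of_EE_pos hμ hE3
  set X := EE μ S.E2 V2 W2
  set M := mass μ V2 * mass μ W2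
  have hM : 0 < M := mul_pos hM2V hM2W
  have hqual2 : qual κ μ S.E2 V2 W2 ≤ X ^ 2 / M := by
    show X ^ ee κ / M ^ (ee κ - 1) ≤ X ^ 2 / M
    rw [show ee κ = 2 + (ee κ - 2) by ring, Real.rpow_add hE3,
      show 2 + (ee κ - 2) - 1 = 1 + (ee κ - 2) by ring,
      Real.rpow_add hM, Real.rpow_one, Real.rpow_two, ← div_mul_div_comm]
    refine mul_le_of_le_one_right (by positivity) ?_
    rw [div_le_one (by positivity)]
    exact Real.rpow_le_rpow hE3.le (EE_le_mass hμ _ _ _) (by linarith [two_le_ee κ])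
  calc cgain κ Fc (S.c * S.e) * qual κ μ S.E2 V W ≤ cgain κ Fc (S.c * S.e) * (X ^ 2 / M) :=
        mul_le_mul_of_nonneg_left (hq2.trans hqual2) (cgain_pos κ Fc _).le
    _ ≤ 2 / sg κ ^ 2 * (Γ * t ^ 2) := by
        rw [← mul_div_assoc, div_mul_eq_mul_div, div_le_div_iff₀ hM (by positivity)]
        linarith

/-- The two reduced sides of a pair. -/
def sides {E : Finset (ℕ × ℕ)} (S : Conf E) (x : ℕ × ℕ) : (ℕ × Finset ℕ) × ℕ × Finset ℕ :=
  ((S.Vf x.2, S.Tl x.1), (S.Uf x.1, S.Tr x.2))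

/-- Weighted pairs inside a set of reduced sides. -/
lemma boxW_le {E : Finset (ℕ × ℕ)} (S : Conf E) (N Vm : ℕ)
    (Z : Finset ((ℕ × Finset ℕ) × ℕ × Finset ℕ)) (hZ : ∀ x ∈ boxE S N Vm, sides S x ∈ Z) :
    boxW S N Vm ≤ ∑ z ∈ Z, wT S.G z.1.2 * wT S.G z.2.2 := by
  have hG1 : ∀ p ∈ S.G, 1 ≤ p := fun p hp => (S.primeG p hp).one_le
  unfold boxW
  calc ∑ x ∈ boxE S N Vm, wT S.G (S.Tl x.1) * wT S.G (S.Tr x.2)
      = ∑ z ∈ (boxE S N Vm).image (sides S), wT S.G z.1.2 * wT S.G z.2.2 := by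
        rw [Finset.sum_image fun x hx y hy e => ?_]
        · rfl
        simp only [sides, Prod.mk.injEq] at e
        have hx' := (Finset.mem_filter.1 hx).1
        have hy' := (Finset.mem_filter.1 hy).1
        exact Prod.ext (S.injL x hx' y hy' e.2.1 e.1.2) (S.injR x hx' y hy' e.1.1 e.2.2)
    _ ≤ _ := Finset.sum_le_sum_of_subset_of_nonneg (fun z hz => by
        obtain ⟨x, hx, rfl⟩ := Finset.mem_image.1 hz
        exact hZ x hx) fun z _ _ => mul_nonneg (wT_nonneg hG1 _) (wT_nonneg hG1 _)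

/-- All reduced sides below a size. -/
def allS (G : Finset ℕ) (N : ℕ) : Finset (ℕ × Finset ℕ) := Finset.Icc 1 N ×ˢ G.powerset

lemma sum_allS (G : Finset ℕ) (N : ℕ) : ∑ z ∈ allS G N, wT G z.2 = (N:ℝ) := by
  unfold allS; rw [Finset.sum_product]; simp [sum_wT]

lemma sides_mem {E : Finset (ℕ × ℕ)} (S : Conf E) {N Vm : ℕ} {x : ℕ × ℕ} (hx : x ∈ boxE S N Vm) :
    (S.Vf x.2, S.Tl x.1) ∈ allS S.G Vm ∧ (S.Uf x.1, S.Tr x.2) ∈ allS S.G N := by
  obtain ⟨hx, h1, h2⟩ := Finset.mem_filter.1 hx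
  obtain ⟨a1, a2⟩ := S.left x hx
  obtain ⟨b1, b2⟩ := S.right x hx
  exact ⟨Finset.mem_product.2 ⟨Finset.mem_Icc.2 ⟨b1, h2⟩, Finset.mem_powerset.2 a2⟩,
    Finset.mem_product.2 ⟨Finset.mem_Icc.2 ⟨a1, h1⟩, Finset.mem_powerset.2 b2⟩⟩

lemma boxW_triv {E : Finset (ℕ × ℕ)} (S : Conf E) (N Vm : ℕ) : boxW S N Vm ≤ (N:ℝ) * Vm := by
  refine (boxW_le S N Vm (allS S.G Vm ×ˢ allS S.G N) fun x hx =>
    Finset.mem_product.2 (sides_mem S hx)).trans (le_of_eq ?_)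
  rw [Finset.sum_product]
  simp only [← Finset.mul_sum, sum_allS, ← Finset.sum_mul]
  ring

lemma boxW_nonneg {E : Finset (ℕ × ℕ)} (S : Conf E) (N Vm : ℕ) : 0 ≤ boxW S N Vm :=
  Finset.sum_nonneg fun _ _ => mul_nonneg (wT_nonneg (fun p hp => (S.primeG p hp).one_le) _)
    (wT_nonneg (fun p hp => (S.primeG p hp).one_le) _)

/-- The degenerate term against the gain. -/
lemma tau_term (k : ℕ) (hk : 100 ≤ k) : ∃ C : ℝ, 0 < C ∧
    ∀ (B n : ℕ) (t cg : ℝ), 1 ≤ B → 1 ≤ n → 0 < t → t ≤ 1 → 0 ≤ cg → cg ≤ (n:ℝ) ^ (-(g0 k)) →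
      ((B:ℝ) ≤ t ^ (-(bet k)) → cg ≤ (Nat.gcd B n : ℝ) ^ (-(19/20 : ℝ))) →
      cg ^ 2 * (Nat.gcd B n : ℝ) * (B.divisors.card : ℝ) * min (1 / (B:ℝ)) (4 * t) ≤ C * t ^ (2 * zk k) := by
  obtain ⟨hz0, hz1, -⟩ := zk_facts hk
  obtain ⟨hg0, -, hbg, hb2⟩ := g0_pos hk
  have hk0 : (0:ℝ) < k := by exact_mod_cast (by omega : 0 < k)
  have hk100 : (100:ℝ) ≤ k := by exact_mod_cast hk
  set δ := 1 / (30 * (k:ℝ)) with hδdef
  have hδ0 : 0 < δ := by positivity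
  obtain ⟨Cd, hCd, hτ⟩ := Wide.card_divisors_le hδ0
  refine ⟨4 * Cd, by positivity, fun B n t cg hB hn ht ht1 hcg0 hcg hf => ?_⟩
  set gc := (Nat.gcd B n : ℝ)
  have hgc : 1 ≤ gc := by simp only [gc]; exact_mod_cast Nat.gcd_pos_of_pos_left _ hB
  have hB0 : (0:ℝ) < B := by exact_mod_cast hB
  have hB1 : (1:ℝ) ≤ B := by exact_mod_cast hB
  have hτB := hτ B hB
  set τ := (B.divisors.card : ℝ)
  have hτ0 : 0 ≤ τ := Nat.cast_nonneg _
  have hexp : ∀ a : ℝ, 1/20 ≤ a → t ^ a ≤ t ^ (2 * zk k) := fun a ha =>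
    Real.rpow_le_rpow_of_exponent_ge ht ht1 (by linarith)
  rcases le_or_gt (B:ℝ) (t ^ (-(bet k))) with hs | hl
  · have h1 : cg ^ 2 * gc ≤ 1 := by
      refine (mul_le_mul_of_nonneg_right (pow_le_pow_left₀ hcg0 (hf hs) 2) (by linarith)).trans ?_
      rw [← Real.rpow_natCast, ← Real.rpow_mul (by linarith), ← Real.rpow_add_one (by linarith)]
      exact Real.rpow_le_one_of_one_le_of_nonpos hgc (by norm_num)
    have h2 : τ ≤ Cd * t ^ (-(bet k) * δ) := by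
      refine hτB.trans (mul_le_mul_of_nonneg_left ?_ hCd.le)
      rw [Real.rpow_mul ht.le]
      exact Real.rpow_le_rpow hB0.le hs hδ0.le
    calc cg ^ 2 * gc * τ * min (1 / (B:ℝ)) (4 * t) ≤ 1 * (Cd * t ^ (-(bet k) * δ)) * (4 * t) :=
          mul_le_mul (mul_le_mul h1 h2 hτ0 zero_le_one) (min_le_right _ _) (by positivity) (by positivity)
      _ = 4 * Cd * t ^ (-(bet k) * δ + 1) := by rw [Real.rpow_add_one ht.ne']; ring
      _ ≤ _ := by
          refine mul_le_mul_of_nonneg_left (hexp _ ?_) (by positivity)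
          have : bet k * δ = 11/300 := by rw [hδdef, bet]; field_simp; norm_num
          linarith
  refine le_trans ?_ (mul_le_mul_of_nonneg_right (le_mul_of_one_le_left hCd.le (by norm_num)) (by positivity))
  refine (mul_le_mul_of_nonneg_left (min_le_left _ _) (by positivity)).trans ?_
  refine (mul_le_mul_of_nonneg_right (mul_le_mul_of_nonneg_left hτB (by positivity)) (by positivity)).trans ?_
  rw [show cg ^ 2 * gc * (Cd * (B:ℝ) ^ δ) * (1 / (B:ℝ)) = Cd * (cg ^ 2 * (gc / B) * (B:ℝ) ^ δ) by ring]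
  refine mul_le_mul_of_nonneg_left ?_ hCd.le
  have hBpow : ∀ a : ℝ, a ≤ 0 → (B:ℝ) ^ a ≤ t ^ (-(bet k) * a) := fun a ha => by
    rw [Real.rpow_mul ht.le]
    exact Real.rpow_le_rpow_of_nonpos (by positivity) hl.le ha
  have hbd : bet k * δ = 11/300 := by rw [hδdef, bet]; field_simp; norm_num
  rcases le_or_gt gc (Real.sqrt B) with hgs | hgl
  · have hc1 : cg ^ 2 ≤ 1 := pow_le_one₀ hcg0 (hcg.trans
      (Real.rpow_le_one_of_one_le_of_nonpos (by exact_mod_cast hn) (by linarith)))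
    have hδ1 : δ ≤ 1/2 := by rw [hδdef, div_le_iff₀ (by positivity)]; linarith
    calc cg ^ 2 * (gc / (B:ℝ)) * (B:ℝ) ^ δ ≤ 1 * (Real.sqrt B / B) * (B:ℝ) ^ δ := by gcongr
      _ = (B:ℝ) ^ (1/2 - 1 + δ) := by
          rw [one_mul, Real.sqrt_eq_rpow, ← Real.rpow_sub_one hB0.ne', ← Real.rpow_add hB0]
      _ ≤ _ := (hBpow _ (by linarith)).trans (hexp _ (by linarith))
  · have hgcB : gc / (B:ℝ) ≤ 1 := by
      rw [div_le_one hB0]; simp only [gc]; exact_mod_cast Nat.le_of_dvd hB (Nat.gcd_dvd_left _ _)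
    have hgn : gc ≤ (n:ℝ) := by
      simp only [gc]; exact_mod_cast Nat.le_of_dvd hn (Nat.gcd_dvd_right _ _)
    have h1 : cg ^ 2 ≤ (B:ℝ) ^ (-(g0 k)) := by
      refine (pow_le_pow_left₀ hcg0 (hcg.trans (Real.rpow_le_rpow_of_nonpos (Real.sqrt_pos.2 hB0)
        (hgl.le.trans hgn) (by linarith))) 2).trans (le_of_eq ?_)
      rw [← Real.rpow_natCast, ← Real.rpow_mul (Real.sqrt_nonneg _), Real.sqrt_eq_rpow,
        ← Real.rpow_mul hB0.le]
      congr 1; push_cast; ring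
    have hδg : δ ≤ g0 k := by
      rw [hδdef, g0, div_le_div_iff₀ (by positivity) (by positivity)]; linarith
    calc cg ^ 2 * (gc / (B:ℝ)) * (B:ℝ) ^ δ ≤ (B:ℝ) ^ (-(g0 k)) * 1 * (B:ℝ) ^ δ := by gcongr
      _ = (B:ℝ) ^ (-(g0 k) + δ) := by rw [mul_one, ← Real.rpow_add hB0]
      _ ≤ _ := (hBpow _ (by linarith)).trans (hexp _ (by linarith))

variable {γ l t : ℝ} {ψ : ℕ → ℝ}

/-- Weighted pairs with a hit, at the scales near one. -/
theorem hit_pairs (k : ℕ) (hk : 100 ≤ k) : ∃ l0 K : ℝ, 0 < K ∧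
    ∀ (γ l t : ℝ) (ψ : ℕ → ℝ) (E : Finset (ℕ × ℕ)) (Fc : Finset ℕ), l0 ≤ l → l ^ (-(15:ℝ)) < t → t ≤ 1 →
      (∀ x ∈ E, EdgeOK k γ l t ψ x ∧ t ^ (1 + zk k) * Real.exp l ≤ (cv x.1 x.2 : ℝ)) →
      (((sel γ l).1:ℝ) ≤ t ^ (-(bet k)) → (sel γ l).1.primeFactors ⊆ Fc) →
      ∀ (S : Conf E) (N Vm : ℕ),
        boxW S N Vm * gs k Fc S ^ 2 ≤ (K * Lg l ^ 9 * t ^ zk k) ^ 2 * N * Vm := by
  obtain ⟨l0, K1, hK1, hside⟩ := one_side k hk
  obtain ⟨C2, hC2, htau⟩ := tau_term k hk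
  obtain ⟨hz0, hz1, hzg⟩ := zk_facts hk
  obtain ⟨hg0, -, -, -⟩ := g0_pos hk
  refine ⟨max l0 1, 1 + K1 * (1 + C2), by positivity,
    fun γ l t ψ E Fc hl htlo ht1 hE hFB S N Vm => ?_⟩
  have hl1 : 1 ≤ l := (le_max_right _ _).trans hl
  have hl0 : 0 < l := by linarith
  have ht : 0 < t := lt_trans (Real.rpow_pos_of_pos hl0 _) htlo
  have hLg := two_le_Lg (l := l) hl0.le
  have hg := gs_nonneg k Fc S
  obtain ⟨hgn, hg1⟩ := gs_le (show 2 ≤ k by omega) Fc S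
  set g := gs k Fc S
  set R := t ^ (2 * zk k) with hRdef
  have hR : 0 ≤ R := by positivity
  have htz : (t ^ zk k) ^ 2 = R := by rw [hRdef, ← Real.rpow_natCast, ← Real.rpow_mul ht.le]; ring_nf
  have hbox := boxW_nonneg S N Vm
  set K := 1 + K1 * (1 + C2)
  have hKpos : 1 ≤ K := by
    simp only [K]
    have : 0 ≤ K1 * (1 + C2) := by positivity
    linarith
  have hKbig : ∀ a : ℝ, a ≤ K * Lg l ^ 17 → a * R * N * Vm ≤ (K * Lg l ^ 9 * t ^ zk k) ^ 2 * N * Vm := fun a ha => by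
    rw [mul_pow, htz]
    refine mul_le_mul_of_nonneg_right (mul_le_mul_of_nonneg_right (mul_le_mul_of_nonneg_right
      (ha.trans ?_) hR) (Nat.cast_nonneg _)) (Nat.cast_nonneg _)
    rw [mul_pow, ← pow_mul]
    exact mul_le_mul (le_self_pow₀ hKpos two_ne_zero) (pow_le_pow_right₀ (by linarith) (by norm_num))
      (by positivity) (by positivity)
  rcases le_or_gt g (t ^ zk k) with hsmall | hbig
  · refine le_trans ?_ (hKbig 1 (one_le_mul_of_one_le_of_one_le hKpos (one_le_pow₀ (by linarith))))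
    calc boxW S N Vm * g ^ 2 ≤ (N:ℝ) * Vm * (t ^ zk k) ^ 2 :=
          mul_le_mul (boxW_triv S N Vm) (pow_le_pow_left₀ hg hsmall 2) (sq_nonneg g) (by positivity)
      _ = _ := by rw [htz]; ring
  have hn0 : 0 < S.c * S.e := Nat.mul_pos S.hc S.he
  have hn1 : (1:ℝ) ≤ ((S.c * S.e : ℕ):ℝ) := by exact_mod_cast hn0
  have hcl : (S.c:ℝ) ≤ l ^ 40 := by
    have hXp : (0:ℝ) < ((S.c * S.e : ℕ):ℝ) := by linarith
    have h : ((S.c * S.e : ℕ):ℝ) ^ g0 k ≤ t ^ (-zk k) := by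
      have h := hbig.le.trans hgn
      rw [show gk k = g0 k from rfl, Real.rpow_neg hXp.le, le_inv_comm₀ (by positivity) (by positivity)] at h
      rwa [Real.rpow_neg ht.le]
    have h2 := Real.rpow_le_rpow (by positivity) h (by positivity : 0 ≤ 1 / g0 k)
    rw [← Real.rpow_mul hXp.le, mul_one_div_cancel hg0.ne', Real.rpow_one, ← Real.rpow_mul ht.le,
      neg_mul, mul_one_div, hzg] at h2
    refine le_trans ?_ (h2.trans ?_)
    · rw [Nat.cast_mul]; exact le_mul_of_one_le_right (Nat.cast_nonneg _) (by exact_mod_cast S.he)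
    refine (Real.rpow_le_rpow_of_nonpos (by positivity) htlo.le (by norm_num)).trans ?_
    rw [← Real.rpow_mul hl0.le, ← Real.rpow_natCast]
    exact Real.rpow_le_rpow_of_exponent_le hl1 (by norm_num)
  set B := (sel γ l).1
  have hB : 0 < B := (sel_spec γ l).1
  set mm := min (1 / (B:ℝ)) (4 * t)
  have hmm : 0 ≤ mm := by positivity
  set D := (Nat.gcd B S.c : ℝ) * (B.divisors.card : ℝ) * mm
  have hD : 0 ≤ D := by positivity
  have hG1 : ∀ p ∈ S.G, 1 ≤ p := fun p hp => (S.primeG p hp).one_le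
  set w := fun z : ℕ × Finset ℕ => S.e * z.1 * ∏ p ∈ z.2, p
  set good := fun (a : ℕ × Finset ℕ) (b : ℕ × Finset ℕ) =>
      t ^ (1 + zk k) * Real.exp l ≤ ((S.c * a.1 * ∏ p ∈ a.2, p : ℕ):ℝ) ∧
        ((S.c * a.1 * ∏ p ∈ a.2, p : ℕ):ℝ) ≤ Ub k l t ∧ w b < S.c * a.1 * ∏ p ∈ a.2, p ∧
        HitN γ t (sel γ l) (((S.c * a.1 * ∏ p ∈ a.2, p : ℕ):ℤ) - (w b:ℤ))
  have h1 := boxW_le S N Vm ((allS S.G Vm ×ˢ allS S.G N).filter fun z => good z.1 z.2) fun x hx => by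
    have hx2 := (Finset.mem_filter.1 hx).1
    obtain ⟨hok, hth⟩ := hE x (S.sub hx2)
    have e1 := S.cofV x hx2
    have e2 := S.cofU x hx2
    refine Finset.mem_filter.2 ⟨Finset.mem_product.2 (sides_mem S hx), ?_⟩
    show good (S.Vf x.2, S.Tl x.1) (S.Uf x.1, S.Tr x.2)
    simp only [good, w]
    rw [← e1, ← e2]
    exact ⟨hth, hok.cv_le, hok.pf.huv, hok.hitN⟩
  have h2 : boxW S N Vm ≤ (N:ℝ) * (K1 * Lg l ^ 17 * (R + D) * Vm) := by
    refine h1.trans ?_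
    rw [Finset.sum_filter, Finset.sum_product_right, ← sum_allS S.G N, Finset.sum_mul]
    refine Finset.sum_le_sum fun b _ => ?_
    rw [← Finset.sum_filter]
    show ∑ a ∈ (allS S.G Vm).filter (fun a => good a b), wT S.G a.2 * wT S.G b.2 ≤ _
    rw [← Finset.sum_mul, mul_comm]
    exact mul_le_mul_of_nonneg_left
      (hside γ l t S.G S.primeG ((le_max_left _ _).trans hl) htlo ht1 S.c Vm (w b) S.hc hcl) (wT_nonneg hG1 _)
  have h3 : g ^ 2 * D ≤ C2 * R := by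
    have hgc : (Nat.gcd B S.c : ℝ) ≤ (Nat.gcd B (S.c * S.e) : ℝ) :=
      Nat.cast_le.2 (Nat.le_of_dvd (Nat.gcd_pos_of_pos_left _ hB)
        (Nat.gcd_dvd_gcd_of_dvd_right B (dvd_mul_right _ _)))
    refine le_trans ?_ (htau B (S.c * S.e) t g hB hn0 ht ht1 hg hgn fun h => gs_le_gcd k Fc S hB (hFB h))
    rw [show g ^ 2 * (Nat.gcd B (S.c * S.e) : ℝ) * (B.divisors.card : ℝ) * mm
      = g ^ 2 * ((Nat.gcd B (S.c * S.e) : ℝ) * (B.divisors.card : ℝ) * mm) by ring]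
    simp only [D]
    gcongr
  refine le_trans ?_ (hKbig (K1 * (1 + C2) * Lg l ^ 17)
    (mul_le_mul_of_nonneg_right (le_add_of_nonneg_left zero_le_one) (by positivity)))
  calc boxW S N Vm * g ^ 2 ≤ (N:ℝ) * (K1 * Lg l ^ 17 * (R + D) * Vm) * g ^ 2 :=
        mul_le_mul_of_nonneg_right h2 (sq_nonneg g)
    _ = (N:ℝ) * (K1 * Lg l ^ 17 * (g ^ 2 * R + g ^ 2 * D) * Vm) := by ring
    _ ≤ (N:ℝ) * (K1 * Lg l ^ 17 * (1 * R + C2 * R) * Vm) := by
        gcongr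
        exact pow_le_one₀ hg hg1
    _ = _ := by ring

/-- Weighted pairs whose cofactors carry abnormal weight. -/
lemma tail_pairs (hk : 100 ≤ k) {E : Finset (ℕ × ℕ)} (hE : ∀ x ∈ E, EdgeOK k γ l t ψ x)
    {W : ℝ} (hW : 1 ≤ W) (hx1 : ∀ x ∈ E, 1 < Wide.x1 W x.1 x.2) (Fc : Finset ℕ) (S : Conf E) (N Vm : ℕ) :
    boxW S N Vm * gs k Fc S ^ 2
      ≤ (2 * Real.exp 2 * Real.exp (-(g0 k * W / 12))) ^ 2 * N * Vm := by
  obtain ⟨hg0, hg5, -, -⟩ := g0_pos hk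
  have hg := gs_nonneg k Fc S
  obtain ⟨hgn, hg1⟩ := gs_le (show 2 ≤ k by omega) Fc S
  set g := gs k Fc S
  set n := S.c * S.e
  have hn0 : 0 < n := Nat.mul_pos S.hc S.he
  have hn : (1:ℝ) ≤ (n:ℝ) := by exact_mod_cast hn0
  have hW0 : 0 < W := by linarith
  have hsq : (2 * Real.exp 2 * Real.exp (-(g0 k * W / 12))) ^ 2 = 4 * Real.exp 4 * Real.exp (-(g0 k * W / 6)) := by
    rw [mul_pow, mul_pow, ← Real.exp_nat_mul, ← Real.exp_nat_mul]; ring_nf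
  rw [hsq]
  set Φ := Real.exp 4 * Real.exp (-(g0 k * W / 6))
  have hΦ0 : 0 ≤ Φ := by positivity
  rw [show 4 * Real.exp 4 * Real.exp (-(g0 k * W / 6)) = 4 * Φ by simp only [Φ]; ring]
  have hNV : (0:ℝ) ≤ (N:ℝ) * Vm := by positivity
  rcases le_or_gt (1/3) (xw W n.primeFactors) with hce | hce
  · have hexp : g ≤ Real.exp (-(g0 k * W / 6)) := by
      refine hgn.trans ?_
      rw [show gk k = g0 k from rfl, Real.rpow_def_of_pos (by linarith)]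
      refine Real.exp_le_exp.2 ?_
      have h1 := (xw_le_card hW0 n.primeFactors)
      have h2 := card_primeFactors_le_log n hn0
      have h3 : W / 3 ≤ (n.primeFactors.card : ℝ) := by
        have := hce.trans h1
        rw [le_div_iff₀ hW0] at this; linarith
      have h4 := Real.log_two_gt_d9
      have h5 : W / 6 ≤ Real.log n := by
        have := mul_le_mul_of_nonneg_right h3 (by linarith : (0:ℝ) ≤ Real.log 2)
        have : W * (1/2) ≤ W * Real.log 2 := mul_le_mul_of_nonneg_left (by linarith) hW0.le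
        linarith
      have := mul_le_mul_of_nonneg_left h5 hg0.le
      linarith
    calc boxW S N Vm * g ^ 2 ≤ (N:ℝ) * Vm * (1 * g) := by
          refine mul_le_mul (boxW_triv S N Vm) ?_ (sq_nonneg g) hNV
          rw [sq]; exact mul_le_mul_of_nonneg_right hg1 hg
      _ ≤ (N:ℝ) * Vm * (4 * Φ) := by
          refine mul_le_mul_of_nonneg_left ?_ hNV
          rw [one_mul]
          simp only [Φ]
          have h4 : (1:ℝ) ≤ Real.exp 4 := Real.one_le_exp (by norm_num)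
          have := Real.exp_pos (-(g0 k * W / 6))
          have := mul_le_mul_of_nonneg_right h4 this.le
          linarith
      _ = _ := by ring
  refine le_trans (mul_le_of_le_one_right (boxW_nonneg S N Vm) (pow_le_one₀ hg hg1)) ?_
  set a := fun z : ℕ × Finset ℕ => (1/6 ≤ xw W z.1.primeFactors)
  set b := fun z : ℕ × Finset ℕ => (1/6 ≤ xw W z.2)
  have hG1 : ∀ p ∈ S.G, 1 ≤ p := fun p hp => (S.primeG p hp).one_le
  have h1 := boxW_le S N Vm ((allS S.G Vm ×ˢ allS S.G N).filter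
      fun z => (a z.1 ∨ b z.1) ∨ (a z.2 ∨ b z.2)) fun x hx => by
    have hx2 := (Finset.mem_filter.1 hx).1
    have hOK := hE x (S.sub hx2)
    refine Finset.mem_filter.2 ⟨Finset.mem_product.2 (sides_mem S hx), ?_⟩
    by_contra hno
    simp only [a, b, sides, not_or, not_le] at hno
    obtain ⟨⟨n1, n2⟩, n3, n4⟩ := hno
    have hx' := hx1 x (S.sub hx2)
    unfold Wide.x1 at hx'
    rw [S.cofU x hx2, S.cofV x hx2] at hx'
    obtain ⟨p1, q1⟩ := S.left x hx2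
    obtain ⟨p2, q2⟩ := S.right x hx2
    set P1 := ∏ p ∈ S.Tl x.1, p
    set P2 := ∏ p ∈ S.Tr x.2, p
    have e1 : P1.primeFactors = S.Tl x.1 := Nat.primeFactors_prod fun p hp => S.primeG p (q1 hp)
    have e2 : P2.primeFactors = S.Tr x.2 := Nat.primeFactors_prod fun p hp => S.primeG p (q2 hp)
    have r1 : 0 < P1 := prod_pos_of_prime S.primeG q1
    have r2 : 0 < P2 := prod_pos_of_prime S.primeG q2
    have hsplit : xw W (S.e * S.Uf x.1 * P2 * (S.c * S.Vf x.2 * P1)).primeFactors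
        ≤ xw W n.primeFactors + ((xw W (S.Uf x.1).primeFactors + xw W (S.Tr x.2))
          + (xw W (S.Vf x.2).primeFactors + xw W (S.Tl x.1))) := by
      rw [show S.e * S.Uf x.1 * P2 * (S.c * S.Vf x.2 * P1) = n * ((S.Uf x.1 * P2) * (S.Vf x.2 * P1)) by
          simp only [n]; ring,
        Nat.primeFactors_mul hn0.ne' (Nat.mul_pos (Nat.mul_pos p1 r2) (Nat.mul_pos p2 r1)).ne',
        Nat.primeFactors_mul (Nat.mul_pos p1 r2).ne' (Nat.mul_pos p2 r1).ne',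
        Nat.primeFactors_mul (by omega : S.Uf x.1 ≠ 0) r2.ne', Nat.primeFactors_mul (by omega : S.Vf x.2 ≠ 0) r1.ne',
        e1, e2]
      exact (xw_union_le W _ _).trans (add_le_add le_rfl
        ((xw_union_le W _ _).trans (add_le_add (xw_union_le W _ _) (xw_union_le W _ _))))
    linarith
  have htail : ∀ M : ℕ, ∑ z ∈ allS S.G M, (if a z ∨ b z then wT S.G z.2 else 0) ≤ 2 * Φ * M := by
    intro M
    have hexp : Real.exp 4 * Real.exp (-(W * (1/6))) ≤ Φ := by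
      simp only [Φ]
      gcongr
      have : g0 k * W ≤ 1 * W := mul_le_mul_of_nonneg_right (by linarith) hW0.le
      linarith
    calc ∑ z ∈ allS S.G M, (if a z ∨ b z then wT S.G z.2 else 0)
        ≤ ∑ z ∈ allS S.G M, ((if a z then wT S.G z.2 else 0) + (if b z then wT S.G z.2 else 0)) := by
          refine Finset.sum_le_sum fun z _ => ?_
          have := wT_nonneg hG1 z.2
          by_cases h1 : a z <;> by_cases h2 : b z <;> simp [h1, h2, this]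
      _ ≤ Φ * M + Φ * M := by
          rw [Finset.sum_add_distrib]
          refine add_le_add ?_ ?_
          · unfold allS; rw [Finset.sum_product]
            simp only [a, Finset.sum_ite_irrel, Finset.sum_const_zero, sum_wT, ← Finset.sum_filter,
              Finset.sum_const, nsmul_eq_mul, mul_one]
            refine (card_xw_tail hW (1/6) M).trans ?_
            rw [mul_comm]
            exact mul_le_mul_of_nonneg_right hexp (Nat.cast_nonneg _)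
          · unfold allS; rw [Finset.sum_product]
            simp only [b, ← Finset.sum_filter, Finset.sum_const, Nat.card_Icc, Nat.add_sub_cancel, nsmul_eq_mul]
            rw [mul_comm]
            exact mul_le_mul_of_nonneg_right ((wT_xw_tail hG1 hW (1/6)).trans hexp) (Nat.cast_nonneg _)
      _ = _ := by ring
  refine h1.trans ?_
  rw [Finset.sum_filter]
  refine (Finset.sum_le_sum (g := fun z => (if a z.1 ∨ b z.1 then wT S.G z.1.2 else 0) * wT S.G z.2.2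
      + wT S.G z.1.2 * (if a z.2 ∨ b z.2 then wT S.G z.2.2 else 0)) fun z _ => ?_).trans ?_
  · have u1 := wT_nonneg hG1 z.1.2
    have u2 := wT_nonneg hG1 z.2.2
    have := mul_nonneg u1 u2
    by_cases c1 : a z.1 ∨ b z.1 <;> by_cases c2 : a z.2 ∨ b z.2 <;> simp [c1, c2, this]
  rw [Finset.sum_add_distrib, Finset.sum_product, Finset.sum_product]
  simp only [← Finset.mul_sum, ← Finset.sum_mul, sum_allS]
  have t1 := mul_le_mul_of_nonneg_right (htail Vm) (Nat.cast_nonneg (α := ℝ) N)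
  have t2 := mul_le_mul_of_nonneg_left (htail N) (Nat.cast_nonneg (α := ℝ) Vm)
  linarith

end Vale.Agent.P028.Div
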