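import Vale.Agent.P028.Div.Ranges
import Vale.Agent.P028.Div.Pair

/-!
# The scales near one under a heavy block (P028)
-/

namespace Vale.Agent.P028.Div

open Finset
open scoped Classical
open Vale.Agent.P028.Wide (EE mass Conf pinv xw)

variable {k : ℕ} {γ l t : ℝ} {ψ : ℕ → ℝ} {F : Finset ℕ} {E : Finset (ℕ × ℕ)}

lemma PL_Xl_le (hl : 1 ≤ l) (ht : 0 ≤ t) (htl : t ≤ l) : PL (Xl l t) ≤ D0 l := by
  refine PL_le_Lg (Xl_nonneg (by linarith) ht) ?_ hl
  have := Real.log_le_sub_one_of_pos (by linarith : (0:ℝ) < 2 + t)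
  unfold Xl; linarith

/-- A graph bound with the exponent of the heavy block. -/
lemma mass_root (hk : 100 ≤ k) {X Y L M : ℝ} (hX : 0 ≤ X) (hY : 0 ≤ Y) (hL : 1 ≤ L) (hM : L ^ 50 ≤ M)
    (h : X ^ ee k ≤ Y * (M * M) ^ (ee k - 1)) : X * L ^ 49 ≤ Y ^ (1 / ee k) * M ^ 2 := by
  have he := ee_pos k
  have hM1 : 1 ≤ M := (one_le_pow₀ hL).trans hM
  have hM0 : 0 < M := by linarith
  have h2 := root_le hX hY (mul_self_nonneg M) h
  refine (mul_le_mul_of_nonneg_right h2 (by positivity)).trans ?_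
  rw [mul_assoc]
  refine mul_le_mul_of_nonneg_left ?_ (Real.rpow_nonneg hY _)
  have heu : ee k ≤ 202/100 := by
    have hkR : (100:ℝ) ≤ k := by exact_mod_cast hk
    have : 2 / (k:ℝ) ≤ 2/100 := div_le_div_of_nonneg_left (by norm_num) (by norm_num) hkR
    rw [ee]; linarith
  have h49 : L ^ 49 ≤ M ^ (2 / ee k) := by
    refine le_trans ?_ (Real.rpow_le_rpow (by positivity) hM (by positivity))
    rw [← Real.rpow_natCast L 50, ← Real.rpow_mul (by linarith), ← Real.rpow_natCast]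
    refine Real.rpow_le_rpow_of_exponent_le hL ?_
    push_cast
    rw [← mul_div_assoc, le_div_iff₀ he]
    linarith
  refine (mul_le_mul_of_nonneg_left h49 (Real.rpow_nonneg (mul_self_nonneg M) _)).trans (le_of_eq ?_)
  rw [Real.mul_rpow hM0.le hM0.le, ← Real.rpow_add hM0, ← Real.rpow_add hM0, ← Real.rpow_natCast M 2]
  congr 1
  field_simp
  ring

lemma Fib.mono (H : Fib k γ l t ψ F E) {E' : Finset (ℕ × ℕ)} (h : E' ⊆ E) : Fib k γ l t ψ F E' :=
  ⟨H.hl, H.hγ, H.ht, H.nn, H.blk, fun x hx => H.sub x (h hx), fun x hx => H.ok x (h hx),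
    fun x hx => H.low x (h hx)⟩

/-- The exponent left after the forced primes. -/
lemma exp_gain (hk : 100 ≤ k) :
    1 + kap k ≤ (2 + zk k - 11 / (10000 * (k:ℝ))) / ee k ∧ 1 + kap k ≤ (2 + 2 * zk k) / ee k := by
  have hkR : (100:ℝ) ≤ k := by exact_mod_cast hk
  have he := ee_pos k
  have heu : ee k ≤ 202/100 := by
    have : 2 / (k:ℝ) ≤ 2/100 := div_le_div_of_nonneg_left (by norm_num) (by norm_num) hkR
    rw [ee]; linarith
  have e1 : zk k - 2 / (k:ℝ) - 11 / (10000 * (k:ℝ)) = 89 / (10000 * (k:ℝ)) := by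
    unfold zk; field_simp; norm_num
  have e2 : kap k * ee k ≤ 1 / (1000 * (k:ℝ)) * (202/100) := by
    rw [kap]; exact mul_le_mul_of_nonneg_left heu (by positivity)
  have e3 : 1 / (1000 * (k:ℝ)) * (202/100) ≤ 89 / (10000 * (k:ℝ)) := by
    rw [div_mul_eq_mul_div, div_le_div_iff₀ (by positivity) (by positivity)]; linarith
  have e4 : ee k = 2 + 2 / (k:ℝ) := rfl
  have e5 := (zk_facts hk).1
  have e6 : 0 ≤ 11 / (10000 * (k:ℝ)) := by positivity
  constructor <;> rw [le_div_iff₀ he] <;> linarith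

/-- The edge mass at the scales below one. -/
theorem low_edges (k : ℕ) (hk : 100 ≤ k) : ∃ l0 C : ℝ, 0 < C ∧
    ∀ (γ l t : ℝ) (ψ : ℕ → ℝ) (F : Finset ℕ) (E : Finset (ℕ × ℕ)), Fib k γ l t ψ F E → l0 ≤ l →
      l ^ (-(15:ℝ)) < t → t ≤ 1 → Lg l ^ 50 ≤ Mass F ψ →
      Emass E ψ * Lg l ^ 49 ≤ C * (Lg l ^ 9 * (t * t ^ kap k)) * Mass F ψ ^ 2 := by
  obtain ⟨CG, hCG, hsq⟩ := graph_sq k hk
  obtain ⟨P0, C, L, hC, hL, hgraph⟩ := graph_pair k hk
  obtain ⟨D, hD, hforced⟩ := forced_primes hL (show 0 < k by omega) P0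
  obtain ⟨l0, K, hK, hpairs⟩ := hit_pairs k hk
  obtain ⟨hz0, hz1, -⟩ := zk_facts hk
  refine ⟨l0, CG ^ (1 / ee k) + (C * D * K) ^ (1 / ee k), by positivity,
    fun γ l t ψ F E H hl htlo ht1 hM => ?_⟩
  have ht := H.ht
  have hl1 := H.hl
  have hLg := two_le_Lg (l := l) (by linarith)
  have hee := ee_pos k
  have hee1 : 1 / ee k ≤ 1 := by rw [div_le_one hee]; linarith [two_le_ee k]
  set M := Mass F ψ
  set μ := fun q => lam q * ψ q
  have hμ : ∀ q, 0 ≤ μ q := fun q => mul_nonneg (lam_nonneg q) (H.nn q)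
  have hμψ : ∀ q, μ q ≤ ψ q * lam q := fun q => le_of_eq (mul_comm _ _)
  set ϑ := t ^ (1 + zk k) * Real.exp l
  set E1 := E.filter (fun x => ¬ ϑ ≤ (cv x.1 x.2 : ℝ))
  set E2 := E.filter (fun x => ϑ ≤ (cv x.1 x.2 : ℝ))
  have H1 := H.mono (E' := E1) (Finset.filter_subset _ _)
  have H2 := H.mono (E' := E2) (Finset.filter_subset _ _)
  have hsplit : Emass E ψ = Emass E2 ψ + Emass E1 ψ := (Finset.sum_filter_add_sum_filter_not E _ _).symm
  set t' := t ^ (1 + zk k)
  have ht' : 0 < t' := Real.rpow_pos_of_pos ht _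
  have hpos : ∀ x ∈ F ∪ F, 0 < x := fun q hq => (H.blk q (by simpa using hq)).1
  have hexp := exp_gain hk
  have hkey : t * t ^ kap k = t ^ (1 + kap k) := by rw [Real.rpow_add ht, Real.rpow_one]
  have hLg9 : (1:ℝ) ≤ Lg l ^ 9 := one_le_pow₀ (by linarith)
  have h1 : Emass E1 ψ * Lg l ^ 49 ≤ CG ^ (1 / ee k) * (Lg l ^ 9 * (t * t ^ kap k)) * M ^ 2 := by
    have h := hsq μ ψ E1 F F t' hμ H.nn hμψ ht'.le hpos fun x hx => by
      obtain ⟨hxE, hlt⟩ := Finset.mem_filter.1 hx
      have hok := H.ok x hxE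
      have huv : (cu x.1 x.2 : ℝ) ≤ cv x.1 x.2 := Nat.cast_le.2 hok.pf.huv.le
      have hb : ∀ a q : ℕ, (a:ℝ) ≤ ϑ → InBlk k l ψ q → (a:ℝ) * ψ q ≤ t' := fun a q ha hq => by
        refine (mul_le_mul ha hq.2.2 hq.nonneg (by positivity)).trans (le_of_eq ?_)
        simp only [ϑ, t']
        rw [mul_assoc, ← Real.exp_add, add_neg_cancel, Real.exp_zero, mul_one]
      exact ⟨hb _ _ (not_le.1 hlt).le hok.b1, hb _ _ (huv.trans (not_le.1 hlt).le) hok.b2⟩
    rw [EE_eq_Emass H1] at h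
    refine (mass_root hk (Emass_nonneg H.nn) (by positivity) (by linarith) hM h).trans
      (mul_le_mul_of_nonneg_right ?_ (sq_nonneg M))
    rw [Real.mul_rpow hCG.le (by positivity), hkey]
    refine mul_le_mul_of_nonneg_left (le_trans ?_ (le_mul_of_one_le_left (by positivity) hLg9)) (by positivity)
    simp only [t']
    rw [← Real.rpow_natCast (t ^ (1 + zk k)), ← Real.rpow_mul ht.le, ← Real.rpow_mul ht.le]
    refine Real.rpow_le_rpow_of_exponent_ge ht ht1 (hexp.2.trans (le_of_eq ?_))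
    push_cast; ring
  have h2 : Emass E2 ψ * Lg l ^ 49 ≤ (C * D * K) ^ (1 / ee k) * (Lg l ^ 9 * (t * t ^ kap k)) * M ^ 2 := by
    obtain ⟨Fc, hFp, hFs, hFB, hFcard⟩ := hforced (sel γ l).1 t (sel_spec γ l).1 ht ht1
    have h := hgraph μ ψ E2 Fc F F t (K * Lg l ^ 9 * t ^ zk k) hμ H.nn hμψ ht.le (by positivity) hpos
      (fun x hx => (H2.ok x hx).cof) hFp hFs
      (hpairs γ l t ψ E2 Fc hl htlo ht1 (fun x hx => ⟨H2.ok x hx, (Finset.mem_filter.1 hx).2⟩) hFB)
    rw [EE_eq_Emass H2, show mass μ F = M from rfl] at h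
    have h' := h.trans (mul_le_mul_of_nonneg_right (mul_le_mul_of_nonneg_right
      (mul_le_mul_of_nonneg_left hFcard hC.le) (by positivity))
      (Real.rpow_nonneg (mul_self_nonneg M) _))
    refine (mass_root hk (Emass_nonneg H.nn) (by positivity) (by linarith) hM h').trans
      (mul_le_mul_of_nonneg_right ?_ (sq_nonneg M))
    rw [show C * (D * t ^ (-(11 / (10000 * (k:ℝ))))) * (K * Lg l ^ 9 * t ^ zk k * t ^ 2)
        = C * D * K * (Lg l ^ 9 * (t ^ (-(11 / (10000 * (k:ℝ)))) * t ^ zk k * t ^ (2:ℕ))) by ring,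
      Real.mul_rpow (x := C * D * K) (by positivity) (by positivity),
      Real.mul_rpow (x := Lg l ^ 9) (by positivity) (by positivity), hkey,
      ← Real.rpow_natCast t 2, ← Real.rpow_add ht, ← Real.rpow_add ht, ← Real.rpow_mul ht.le]
    refine mul_le_mul_of_nonneg_left (mul_le_mul (Real.rpow_le_self_of_one_le hLg9 hee1) ?_ (by positivity)
      (by positivity)) (by positivity)
    refine Real.rpow_le_rpow_of_exponent_ge ht ht1 (hexp.1.trans (le_of_eq ?_))
    push_cast; ring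
  rw [hsplit, add_mul]
  exact (add_le_add h2 h1).trans (le_of_eq (by ring))

/-- The scales near one. -/
theorem near_ov (k : ℕ) (hk : 100 ≤ k) : ∃ l0 C : ℝ, 0 < C ∧
    ∀ (γ l t : ℝ) (ψ : ℕ → ℝ) (F : Finset ℕ) (E : Finset (ℕ × ℕ)), Fib k γ l t ψ F E → l0 ≤ l →
      l ^ (-(15:ℝ)) < t → t ≤ Lg l ^ 32 → t ≤ l → Lg l ^ 50 ≤ Mass F ψ →
      ∑ x ∈ E, ov (sel γ l) γ ψ x.1 x.2 ≤ C * min (t ^ kap k) (t ^ (-kap k)) * Mass F ψ ^ 2 := by
  obtain ⟨l0, CE, hCE, hlow⟩ := low_edges k hk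
  obtain ⟨CG, hCG, hsq⟩ := graph_sq k hk
  have hkap : 0 ≤ kap k ∧ kap k ≤ 1/100 := by
    have : (100:ℝ) ≤ k := by exact_mod_cast hk
    unfold kap
    exact ⟨by positivity, one_div_le_one_div_of_le (by norm_num) (by linarith)⟩
  have hCP := one_le_CP
  refine ⟨l0, 32 * CP ^ 2 * (CE + CG ^ (1 / ee k)), by positivity,
    fun γ l t ψ F E H hl htlo htLg htl hM => ?_⟩
  have ht := H.ht
  have hl1 := H.hl
  have hLg := two_le_Lg (l := l) (by linarith)
  have hL1 : 1 ≤ Lg l := by linarith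
  have hD1 := one_le_D0 (l := l) (by linarith)
  set M := Mass F ψ
  have hPL := PL_Xl_le hl1 ht.le htl
  have hPL0 : 0 ≤ PL (Xl l t) := zero_le_one.trans (one_le_PL (Xl_nonneg (by linarith) ht.le))
  have hE0 : 0 ≤ Emass E ψ := Emass_nonneg H.nn
  refine (Finset.sum_le_sum fun x hx => H.ov_loss hk hx).trans ?_
  rw [← Finset.mul_sum]
  refine (mul_le_mul_of_nonneg_right (mul_le_mul_of_nonneg_left (pow_le_pow_left₀ hPL0 hPL 2)
    (by positivity)) hE0).trans ?_
  have hpos49 : (0:ℝ) < Lg l ^ 49 := by positivity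
  refine le_of_mul_le_mul_right ?_ hpos49
  have hw0 : 0 ≤ min (t ^ kap k) (t ^ (-kap k)) := le_min (by positivity) (by positivity)
  rcases le_or_gt t 1 with ht1 | ht1
  · have h := hlow γ l t ψ F E H hl htlo ht1 hM
    have hwt : min (t ^ kap k) (t ^ (-kap k)) = t ^ kap k := min_eq_left ((Real.rpow_le_one ht.le ht1 hkap.1).trans
      (Real.one_le_rpow_of_pos_of_le_one_of_nonpos ht ht1 (by linarith)))
    rw [hwt]
    calc 16 * ((1 + t) / t) * D0 l ^ 2 * Emass E ψ * Lg l ^ 49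
        ≤ 16 * (2 / t) * D0 l ^ 2 * (Emass E ψ * Lg l ^ 49) := by
          rw [mul_assoc (16 * ((1 + t) / t) * D0 l ^ 2)]
          gcongr
          linarith
      _ ≤ 16 * (2 / t) * D0 l ^ 2 * (CE * (Lg l ^ 9 * (t * t ^ kap k)) * M ^ 2) := by gcongr
      _ = 32 * CP ^ 2 * CE * t ^ kap k * M ^ 2 * Lg l ^ 25 := by simp only [D0]; field_simp; ring
      _ ≤ 32 * CP ^ 2 * (CE + CG ^ (1 / ee k)) * t ^ kap k * M ^ 2 * Lg l ^ 49 := by
          gcongr
          · exact le_add_of_nonneg_right (by positivity)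
          · norm_num
  · have h := hsq (fun q => lam q * ψ q) ψ E F F t (fun q => mul_nonneg (lam_nonneg q) (H.nn q)) H.nn
      (fun q => le_of_eq (mul_comm _ _)) ht.le (fun q hq => (H.blk q (by simpa using hq)).1)
      (fun x hx => (H.ok x hx).cof)
    rw [EE_eq_Emass H] at h
    have h2 := mass_root hk hE0 (by positivity) hL1 hM h
    rw [Real.mul_rpow hCG.le (by positivity), ← Real.rpow_natCast t 2, ← Real.rpow_mul ht.le] at h2
    have ht2 : t ^ (((2:ℕ):ℝ) * (1 / ee k)) ≤ t := by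
      refine Real.rpow_le_self_of_one_le ht1.le ?_
      rw [mul_one_div, div_le_one (ee_pos k)]; push_cast; linarith [two_le_ee k]
    have hwt : min (t ^ kap k) (t ^ (-kap k)) = t ^ (-kap k) := min_eq_right
      ((Real.rpow_le_one_of_one_le_of_nonpos ht1.le (by linarith)).trans (Real.one_le_rpow ht1.le hkap.1))
    rw [hwt]
    have h33 : t * Lg l ^ 16 ≤ t ^ (-kap k) * Lg l ^ 49 := by
      have e : t ^ (1 + kap k) ≤ Lg l ^ 33 := by
        refine (Real.rpow_le_rpow ht.le htLg (by linarith)).trans ?_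
        rw [← Real.rpow_natCast (Lg l) 32, ← Real.rpow_mul (by linarith), ← Real.rpow_natCast]
        refine Real.rpow_le_rpow_of_exponent_le hL1 ?_
        push_cast; linarith
      have := mul_le_mul_of_nonneg_left e (by positivity : 0 ≤ t ^ (-kap k) * Lg l ^ 16)
      calc t * Lg l ^ 16 = t ^ (-kap k) * Lg l ^ 16 * t ^ (1 + kap k) := by
            rw [mul_comm (t ^ (-kap k)), mul_assoc, ← Real.rpow_add ht, mul_comm, neg_add_cancel_comm_assoc,
              Real.rpow_one]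
        _ ≤ _ := this
        _ = _ := by ring
    calc 16 * ((1 + t) / t) * D0 l ^ 2 * Emass E ψ * Lg l ^ 49
        ≤ 16 * 2 * D0 l ^ 2 * (Emass E ψ * Lg l ^ 49) := by
          rw [mul_assoc (16 * ((1 + t) / t) * D0 l ^ 2)]
          gcongr
          rw [div_le_iff₀ ht]; linarith
      _ ≤ 16 * 2 * D0 l ^ 2 * (CG ^ (1 / ee k) * t * M ^ 2) := by
          refine mul_le_mul_of_nonneg_left (h2.trans ?_) (by positivity)
          gcongr
      _ = 32 * CP ^ 2 * CG ^ (1 / ee k) * M ^ 2 * (t * Lg l ^ 16) := by simp only [D0]; ring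
      _ ≤ 32 * CP ^ 2 * (CE + CG ^ (1 / ee k)) * M ^ 2 * (t ^ (-kap k) * Lg l ^ 49) := by
          gcongr
          exact le_add_of_nonneg_left hCE.le
      _ = _ := by ring

/-- The large scales below a power of `l`. -/
theorem big_ov (k : ℕ) (hk : 100 ≤ k) : ∃ C : ℝ, 0 < C ∧
    ∀ (γ l t : ℝ) (ψ : ℕ → ℝ) (F : Finset ℕ) (E : Finset (ℕ × ℕ)), Fib k γ l t ψ F E →
      Lg l ^ 32 < t → t ≤ l → 1 ≤ Mass F ψ →
      ∑ x ∈ E, ov (sel γ l) γ ψ x.1 x.2 ≤ C * (Emass E ψ + t ^ (-kap k) * Mass F ψ ^ 2) := by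
  obtain ⟨P0, CG, LG, hCG, hLG, hgraph⟩ := graph_pair k hk
  have hk' : (100:ℝ) ≤ k := by exact_mod_cast hk
  have hk0 : (0:ℝ) < k := by linarith
  have hCP := one_le_CP
  obtain ⟨K, hKdef⟩ : ∃ K : ℝ, K = 2 * KW k + CP := ⟨_, rfl⟩
  have hKW : 1 ≤ KW k := by unfold KW; nlinarith
  have hK1 : 1 ≤ K := by linarith
  obtain ⟨CO, hCO, hov⟩ := ov_bound_large hK1
  set Cc := Real.exp 10 * (2 * (1:ℝ)) ^ 8 with hCc
  have hCc0 : 0 ≤ Cc := by positivity
  set Fc := (Finset.range P0).filter Nat.Prime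
  set CL := Real.exp 10 * (8:ℝ) ^ 8 with hCL
  set DG := (CG * LG ^ Fc.card * (2 * Real.exp 2)) ^ (1 / ee k) with hDG
  refine ⟨CO * Cc * (Real.exp 2 + CL * DG), by positivity, fun γ l t ψ F E H htlo htl hM => ?_⟩
  have ht := H.ht
  have hl1 := H.hl
  have hl0 : 0 < l := by linarith
  have hLg := two_le_Lg (l := l) hl0.le
  have ht32 : 32 ≤ t := by
    refine le_trans ?_ htlo.le
    calc (32:ℝ) ≤ 2 ^ 32 := by norm_num
      _ ≤ _ := pow_le_pow_left₀ (by norm_num) hLg 32
  have ht1 : 1 ≤ t := by linarith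
  have ht4 : Lg l ^ 8 ≤ t ^ (1/4 : ℝ) := by
    refine le_trans (le_of_eq ?_) (Real.rpow_le_rpow (by positivity) htlo.le (by norm_num))
    rw [← Real.rpow_natCast (Lg l) 32, ← Real.rpow_mul (by linarith), ← Real.rpow_natCast]
    norm_num
  have hlogt : 3 ≤ Real.log t := by
    rw [Real.le_log_iff_exp_le ht]
    have h : Real.exp 3 = Real.exp 1 ^ 3 := by rw [← Real.exp_nat_mul]; norm_num
    have := pow_le_pow_left₀ (Real.exp_pos 1).le (le_of_lt Real.exp_one_lt_d9) 3
    norm_num at this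
    linarith
  have hX0 : 0 ≤ Xl l t := Xl_nonneg hl0.le ht.le
  have hX : 2 + Xl l t ≤ 30 * l := by
    have := Real.log_le_sub_one_of_pos (by linarith : (0:ℝ) < 2 + t)
    unfold Xl; linarith
  set W := W1 k t
  have hW2 : 2 ≤ W := two_le_W1 hk ht1
  set V := 2 + Xl l t with hVdef
  have hV : 2 ≤ V := by linarith
  -- the pointwise bound
  have hpoint : ∀ x ∈ E, ∀ L1 : ℝ, Wide.x1 W x.1 x.2 ≤ L1 → ov (sel γ l) γ ψ x.1 x.2
      ≤ CO * Cc * Real.exp (2 * L1) * ((lam x.1 * ψ x.1) * (lam x.2 * ψ x.2)) := by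
    intro x hx L1 hL1
    have hok := H.ok x hx
    set T := tt ψ x.1 x.2
    have hT : t / 2 ≤ T := H.low x hx
    have hlT : Real.log t - 1 ≤ Real.log T := by
      have h := Real.log_le_log (by positivity) hT
      rw [Real.log_div ht.ne' two_ne_zero] at h
      have := Real.log_two_lt_d9
      linarith
    have hWK : W ≤ K * (Real.log T + 1) := by
      have hk2 : (0:ℝ) ≤ KW k := by linarith
      calc W = KW k * (Real.log t + 1) := rfl
        _ ≤ KW k * (2 * (Real.log T + 1)) := mul_le_mul_of_nonneg_left (by linarith) hk2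
        _ = 2 * KW k * (Real.log T + 1) := by ring
        _ ≤ _ := mul_le_mul_of_nonneg_right (by linarith) (by linarith)
    refine (hov hok.pf hok.b1.nonneg hok.b2.nonneg (by linarith) (by linarith) hWK (by linarith : (1:ℝ) ≤ V)
      (fun S hS => ?_) hL1 hCc0 fun j hj => ?_).trans (le_of_eq (by ring))
    · have hS' : (S.card : ℝ) ≤ V := by
        refine le_trans ?_ (Nat.floor_le (by linarith : 0 ≤ V))
        exact Nat.cast_le.2 ((Finset.card_le_card (t := Finset.Icc 1 ⌊V⌋₊) fun p hp =>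
          Finset.mem_Icc.2 ⟨(hS p hp).1.one_le, Nat.le_floor (hS p hp).2⟩).trans (by simp))
      refine ((pinv_le_PL S (fun p hp => (hS p hp).1) hS').trans (PL_le_Lg (by linarith) hX hl1)).trans ?_
      calc 3 * Real.exp 10 * 8 ^ 8 * Lg l ^ 8 = CP * Lg l ^ 8 := rfl
        _ ≤ CP * t ^ (1/4 : ℝ) := by gcongr
        _ ≤ CP * (2 * T ^ (1/4 : ℝ)) := by
            refine mul_le_mul_of_nonneg_left ?_ (by linarith)
            refine (Real.rpow_le_rpow ht.le (by linarith : t ≤ 2 * T) (by norm_num)).trans ?_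
            rw [Real.mul_rpow two_pos.le (by linarith)]
            exact mul_le_mul_of_nonneg_right (Real.rpow_le_self_of_one_le one_le_two (by norm_num))
              (Real.rpow_nonneg (by linarith) _)
        _ ≤ K * (2 * T ^ (1/4 : ℝ)) :=
            mul_le_mul_of_nonneg_right (by linarith) (mul_nonneg two_pos.le (Real.rpow_nonneg (by linarith) _))
        _ = _ := by ring
    refine pinv_prime_big _ (fun p hp => Nat.prime_of_mem_primeFactors (Finset.mem_filter.1 hp).1) le_rfl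
      hV le_rfl ?_
    rw [one_mul]
    rcases Nat.eq_zero_or_pos (coinSet (sel γ l) x.1 x.2 j).card with h | h
    · rw [h, Nat.cast_zero, Real.log_zero]; exact Real.log_nonneg (by linarith)
    · exact Real.log_le_log (by exact_mod_cast h) ((H.card_coin hk hx hj).trans (by linarith))
  -- the exceptional pairs
  set E1 := E.filter (fun x => 1 < Wide.x1 W x.1 x.2)
  have hE1 : E1 ⊆ E := Finset.filter_subset _ _
  have hpow : ∀ x ∈ E1, Real.exp (2 * Wide.x1 W x.1 x.2) ≤ CL * Lg l ^ 8 := by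
    intro x hx
    have hx' := hE1 hx
    have hlW : 1/2 ≤ Real.log W := by
      have := Real.log_le_log two_pos hW2
      have := Real.log_two_gt_d9
      linarith
    have hn : Real.log ((cu x.1 x.2 * cv x.1 x.2).primeFactors.card : ℕ) ≤ 2 * Lg l := by
      rcases Nat.eq_zero_or_pos (cu x.1 x.2 * cv x.1 x.2).primeFactors.card with h | h
      · rw [h, Nat.cast_zero, Real.log_zero]; linarith
      · refine (Real.log_le_log (by exact_mod_cast h) ((H.card_uv hk hx').trans (by linarith : Xl l t ≤ 30 * (2 + l)))).trans ?_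
        rw [Real.log_mul (by norm_num) (by linarith)]
        have h30 : Real.log 30 ≤ 35/10 := by
          refine (Real.log_le_log (by norm_num) (by norm_num : (30:ℝ) ≤ 2 ^ 5)).trans ?_
          rw [Real.log_pow]; push_cast; linarith [Real.log_two_lt_d9]
        have := Real.log_nonneg (by linarith : (1:ℝ) ≤ 2 + l)
        unfold Lg; linarith
    have h := xw_prime_le (W := W) (R := 4 * Lg l) (cu x.1 x.2 * cv x.1 x.2).primeFactors
      (fun p hp => Nat.prime_of_mem_primeFactors hp) le_rfl hW2 (by linarith) (hn.trans (by nlinarith))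
    refine (Real.exp_le_exp.2 (mul_le_mul_of_nonneg_left h zero_le_two)).trans (le_of_eq ?_)
    rw [show 2 * (5 + 4 * Real.log (2 * (4 * Lg l)))
        = 10 + ((8:ℕ):ℝ) * Real.log (2 * (4 * Lg l)) by push_cast; ring,
      Real.exp_add, Real.exp_nat_mul, Real.exp_log (by positivity), hCL]
    ring
  have hEE : Emass E1 ψ ≤ DG * (t ^ (-(20:ℝ)) * Mass F ψ ^ 2) := by
    set M := Mass F ψ
    have H1 := H.mono hE1
    set Γ := 2 * Real.exp 2 * Real.exp (-(g0 k * W / 12))
    have h := hgraph (fun q => lam q * ψ q) ψ E1 Fc F F t Γ (fun q => mul_nonneg (lam_nonneg q) (H.nn q))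
      H.nn (fun q => le_of_eq (mul_comm _ _)) ht.le (by positivity)
      (fun q hq => (H.blk q (by simpa using hq)).1) (fun x hx => (H1.ok x hx).cof)
      (fun p hp => (Finset.mem_filter.1 hp).2)
      (fun p h1 h2 => Finset.mem_filter.2 ⟨Finset.mem_range.2 h2, h1⟩)
      (fun S N Vm => tail_pairs hk H1.ok (by linarith) (fun x hx => (Finset.mem_filter.1 hx).2) Fc S N Vm)
    rw [EE_eq_Emass H1] at h
    have hΓ : Γ * t ^ 2 ≤ (2 * Real.exp 2) * t ^ (-(60:ℝ)) := by
      simp only [Γ]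
      rw [mul_assoc]
      refine mul_le_mul_of_nonneg_left ?_ (by positivity)
      calc Real.exp (-(g0 k * W / 12)) * t ^ 2 ≤ t ^ (-(800 * (k:ℝ))) * t ^ (2:ℝ) := by
            rw [Real.rpow_two]
            refine mul_le_mul_of_nonneg_right ?_ (sq_nonneg t)
            rw [Real.rpow_def_of_pos ht]
            refine Real.exp_le_exp.2 ?_
            have e : g0 k * W / 12 = (98 * 10000 / 1200) * (k:ℝ) * (Real.log t + 1) := by
              simp only [W, W1, KW, g0]; field_simp; ring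
            rw [e]
            nlinarith
        _ ≤ _ := by
            rw [← Real.rpow_add ht]
            exact Real.rpow_le_rpow_of_exponent_le ht1 (by linarith)
    have hY := h.trans (mul_le_mul_of_nonneg_right (mul_le_mul_of_nonneg_left hΓ (by positivity))
      (Real.rpow_nonneg (mul_self_nonneg M) _))
    refine (root_le (Emass_nonneg H.nn) (by positivity) (mul_self_nonneg M) hY).trans ?_
    rw [show CG * LG ^ Fc.card * (2 * Real.exp 2 * t ^ (-(60:ℝ)))
        = (CG * LG ^ Fc.card * (2 * Real.exp 2)) * t ^ (-(60:ℝ)) by ring,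
      Real.mul_rpow (by positivity) (by positivity), ← hDG, mul_assoc DG]
    refine mul_le_mul_of_nonneg_left (mul_le_mul ?_ ?_ (by positivity) (by positivity)) (by positivity)
    · rw [← Real.rpow_mul ht.le]
      refine Real.rpow_le_rpow_of_exponent_le ht1 ?_
      have he : 0 < ee k ∧ ee k ≤ 3 := ⟨by unfold ee; positivity, by
        have : 2 / (k:ℝ) ≤ 1 := by rw [div_le_one hk0]; linarith
        unfold ee; linarith⟩
      rw [neg_mul, neg_le_neg_iff, mul_one_div, le_div_iff₀ he.1]; linarith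
    · rw [← sq]
      refine Real.rpow_le_self_of_one_le (one_le_pow₀ hM) ?_
      have he : 0 < ee k := by unfold ee; positivity
      rw [div_le_one he]; linarith
  -- summation
  have hEm : 0 ≤ Emass E ψ := Emass_nonneg H.nn
  calc ∑ x ∈ E, ov (sel γ l) γ ψ x.1 x.2
      ≤ ∑ x ∈ E, CO * Cc * ((Real.exp 2 + if 1 < Wide.x1 W x.1 x.2 then CL * Lg l ^ 8 else 0)
          * ((lam x.1 * ψ x.1) * (lam x.2 * ψ x.2))) := by
        refine Finset.sum_le_sum fun x hx => ?_
        have hμ : 0 ≤ (lam x.1 * ψ x.1) * (lam x.2 * ψ x.2) :=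
          mul_nonneg (mul_nonneg (lam_nonneg _) (H.nn _)) (mul_nonneg (lam_nonneg _) (H.nn _))
        refine (hpoint x hx _ le_rfl).trans ?_
        rw [mul_assoc (CO * Cc)]
        refine mul_le_mul_of_nonneg_left (mul_le_mul_of_nonneg_right ?_ hμ) (by positivity)
        split_ifs with h
        · linarith [hpow x (Finset.mem_filter.2 ⟨hx, h⟩), Real.exp_pos 2]
        · rw [add_zero]; exact Real.exp_le_exp.2 (by linarith [not_lt.1 h])
    _ = CO * Cc * (Real.exp 2 * Emass E ψ + CL * Lg l ^ 8 * Emass E1 ψ) := by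
        simp only [add_mul, mul_add, Finset.sum_add_distrib, ite_mul, zero_mul, Emass, E1, Finset.mul_sum,
          Finset.sum_filter, mul_ite, mul_zero]
    _ ≤ CO * Cc * (Real.exp 2 * Emass E ψ + CL * t ^ (1/4 : ℝ) * (DG * (t ^ (-(20:ℝ)) * Mass F ψ ^ 2))) := by
        gcongr
        exact Emass_nonneg H.nn
    _ ≤ CO * Cc * ((Real.exp 2 + CL * DG) * (Emass E ψ + t ^ (-kap k) * Mass F ψ ^ 2)) := by
        refine mul_le_mul_of_nonneg_left ?_ (by positivity)
        have h8 : t ^ (1/4 : ℝ) * t ^ (-(20:ℝ)) ≤ t ^ (-kap k) := by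
          rw [← Real.rpow_add ht]
          refine Real.rpow_le_rpow_of_exponent_le ht1 ?_
          have : kap k ≤ 1 := by unfold kap; rw [div_le_one (by positivity)]; linarith
          linarith
        have a1 : 0 ≤ t ^ (-kap k) * Mass F ψ ^ 2 := by positivity
        have a2 := mul_le_mul_of_nonneg_right h8 (sq_nonneg (Mass F ψ))
        have a3 := mul_le_mul_of_nonneg_left a2 (by positivity : 0 ≤ CL * DG)
        have a4 : 0 ≤ CL * DG * Emass E ψ := by positivity
        have a5 : 0 ≤ Real.exp 2 * (t ^ (-kap k) * Mass F ψ ^ 2) := by positivity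
        linarith
    _ = _ := by ring

end Vale.Agent.P028.Div
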