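import Vale.Agent.P028.Div.Fib
import Vale.Agent.P028.Div.Graph

namespace Vale.Agent.P028.Div

open Finset
open scoped Classical
open Vale.Agent.P028.Wide (EE mass pinv pinv_nonneg two_le_pf xw)

variable {k : ℕ} {γ l t : ℝ} {ψ : ℕ → ℝ} {F : Finset ℕ} {E : Finset (ℕ × ℕ)} {x : ℕ × ℕ}

lemma del_le (hk : 100 ≤ k) : del k ≤ 1/100 := by
  have : (100:ℝ) ≤ k := by exact_mod_cast hk
  unfold del; rw [div_le_iff₀ (by positivity)]; linarith

lemma Fib.log_Ub (hk : 100 ≤ k) (H : Fib k γ l t ψ F E) :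
    Real.log (Ub k l t) ≤ Real.log (2 + t) + (101/100) * l := by
  have hl := H.hl
  have ht := H.ht
  rw [Ub, Real.log_mul ht.ne' (Real.exp_pos _).ne', Real.log_exp]
  have := Real.log_le_log ht (by linarith : t ≤ 2 + t)
  have := mul_le_mul_of_nonneg_right (del_le hk) (by linarith : (0:ℝ) ≤ l)
  linarith

/-- The prime factors of the cofactors are few. -/
lemma Fib.card_uv (hk : 100 ≤ k) (H : Fib k γ l t ψ F E) (hx : x ∈ E) :
    ((cu x.1 x.2 * cv x.1 x.2).primeFactors.card : ℝ) ≤ Xl l t := by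
  have P := (H.ok x hx).pf
  have hu : (0:ℝ) < cu x.1 x.2 := by exact_mod_cast P.hu0
  have hv : (0:ℝ) < cv x.1 x.2 := by exact_mod_cast lt_trans P.hu0 P.huv
  have hlv := (Real.log_le_log hv (H.ok x hx).cv_le).trans (H.log_Ub hk)
  have hlu : Real.log (cu x.1 x.2) ≤ Real.log (cv x.1 x.2) :=
    Real.log_le_log hu (Nat.cast_le.2 P.huv.le)
  have h := card_primeFactors_le_log (cu x.1 x.2 * cv x.1 x.2)
    (Nat.mul_pos P.hu0 (lt_trans P.hu0 P.huv))
  rw [Nat.cast_mul, Real.log_mul hu.ne' hv.ne'] at h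
  have := Real.log_two_gt_d9
  have hc : (0:ℝ) ≤ (cu x.1 x.2 * cv x.1 x.2).primeFactors.card := Nat.cast_nonneg _
  have := mul_le_mul_of_nonneg_left (by linarith : (69/100:ℝ) ≤ Real.log 2) hc
  have := H.hl
  have := Real.log_nonneg (by linarith [H.ht] : (1:ℝ) ≤ 2 + t)
  unfold Xl; linarith

/-- The coinciding primes are few. -/
lemma Fib.card_coin (hk : 100 ≤ k) (H : Fib k γ l t ψ F E) (hx : x ∈ E) {j : ℤ}
    (hj : j ∈ Hits (sel γ l) γ ψ x.1 x.2) :
    ((coinSet (sel γ l) x.1 x.2 j).card : ℝ) ≤ Xl l t := by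
  set xs := sel γ l
  obtain ⟨hB1, hco⟩ := sel_spec γ l
  have hok := H.ok x hx
  have hl := H.hl
  have ht := H.ht
  have h := coin_card (γ := γ) (ψ := ψ) hco hB1 hok.pf hj
  have hB : (xs.1:ℝ) ≤ Real.exp (l / 2) ∧ |(xs.1:ℝ) * γ - xs.2| ≤ Real.exp l := by
    simp only [xs]
    unfold sel
    split_ifs with hex
    · obtain ⟨-, -, a, b⟩ := hex.choose_spec
      refine ⟨a.trans (by have := Real.exp_pos (l / 2); linarith), b.trans ?_⟩
      have : Real.exp (-(l / 2)) ≤ Real.exp l := Real.exp_le_exp.2 (by linarith)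
      have := Real.exp_pos (-(l / 2))
      linarith
    · simp only [Nat.cast_one, one_mul, Int.cast_zero, sub_zero]
      exact ⟨Real.one_le_exp (by linarith), H.hγ⟩
  have hB0 : (1:ℝ) ≤ (xs.1:ℝ) := by exact_mod_cast hB1
  have htt : 0 < tt ψ x.1 x.2 := lt_of_lt_of_le (by linarith) (H.low x hx)
  have hJ : (xs.1:ℝ) * tt ψ x.1 x.2 + (cv x.1 x.2 : ℝ) * |(xs.1:ℝ) * γ - xs.2|
      ≤ (2 + t) * Real.exp (3 * l) := by
    have hU := hok.cv_le
    unfold Ub at hU
    have e1 : Real.exp ((1 + del k) * l) * Real.exp l ≤ Real.exp (3 * l) / 2 := by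
      rw [← Real.exp_add, le_div_iff₀ two_pos, ← Real.exp_log (two_pos : (0:ℝ) < 2), ← Real.exp_add]
      refine Real.exp_le_exp.2 ?_
      have := mul_le_mul_of_nonneg_right (del_le hk) (by linarith : (0:ℝ) ≤ l)
      have := Real.log_two_lt_d9
      linarith
    have e2 : Real.exp (l / 2) ≤ Real.exp (3 * l) / 2 := by
      rw [le_div_iff₀ two_pos]
      calc Real.exp (l / 2) * 2 ≤ Real.exp (l / 2) * Real.exp 1 := by
            gcongr; linarith [Real.add_one_le_exp (1:ℝ)]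
        _ ≤ _ := by rw [← Real.exp_add]; exact Real.exp_le_exp.2 (by linarith)
    calc _ ≤ Real.exp (l / 2) * t + t * Real.exp ((1 + del k) * l) * Real.exp l := by
          gcongr
          · exact hB.1
          · exact hok.scale
          · exact hB.2
      _ ≤ Real.exp (3 * l) / 2 * t + t * (Real.exp (3 * l) / 2) := by
          rw [mul_assoc t]; gcongr
      _ ≤ _ := by have := Real.exp_pos (3 * l); linarith
  have hJ0 : 0 < (xs.1:ℝ) * tt ψ x.1 x.2 + (cv x.1 x.2 : ℝ) * |(xs.1:ℝ) * γ - xs.2| :=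
    add_pos_of_pos_of_nonneg (by positivity) (by positivity)
  have h1 := Real.log_le_log hJ0 hJ
  rw [Real.log_mul (by linarith) (Real.exp_pos _).ne', Real.log_exp] at h1
  have h2 : Real.log (xs.1:ℝ) ≤ l / 2 := by
    have := Real.log_le_log (by linarith) hB.1
    rwa [Real.log_exp] at this
  have := Real.log_two_gt_d9
  have := mul_le_mul_of_nonneg_left (by linarith : (69/100:ℝ) ≤ Real.log 2)
    (Nat.cast_nonneg (α := ℝ) (coinSet xs x.1 x.2 j).card)
  have := Real.log_nonneg (by linarith : (1:ℝ) ≤ 2 + t)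
  unfold Xl; linarith

/-- An overlap with polylogarithmic loss. -/
lemma Fib.ov_loss (hk : 100 ≤ k) (H : Fib k γ l t ψ F E) (hx : x ∈ E) :
    ov (sel γ l) γ ψ x.1 x.2
      ≤ 16 * ((1 + t) / t) * PL (Xl l t) ^ 2 * ((lam x.1 * ψ x.1) * (lam x.2 * ψ x.2)) := by
  have hok := H.ok x hx
  have ht := H.ht
  set T := tt ψ x.1 x.2
  have hT : 0 < T := lt_of_lt_of_le (by linarith) (H.low x hx)
  have hPL : 0 ≤ PL (Xl l t) := le_trans zero_le_one (one_le_PL (Xl_nonneg (by linarith [H.hl]) ht.le))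
  have hp1 := pinv_le_PL _ (fun p hp => Nat.prime_of_mem_primeFactors hp) (H.card_uv hk hx)
  have hp2 : ∀ j ∈ Hits (sel γ l) γ ψ x.1 x.2, pinv (coinSet (sel γ l) x.1 x.2 j) ≤ PL (Xl l t) :=
    fun j hj => pinv_le_PL _ (fun p hp => Nat.prime_of_mem_primeFactors (Finset.mem_filter.1 hp).1)
      (H.card_coin hk hx hj)
  have hS : ∑ j ∈ Hits (sel γ l) γ ψ x.1 x.2, pinv (coinSet (sel γ l) x.1 x.2 j)
      ≤ (2 * T + 1) * PL (Xl l t) := by
    refine (Finset.sum_le_card_nsmul _ _ _ hp2).trans ?_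
    rw [nsmul_eq_mul]
    exact mul_le_mul_of_nonneg_right (hits_card_le hok.pf hok.b1.nonneg hok.b2.nonneg) hPL
  have hμ : 0 ≤ (lam x.1 * ψ x.1) * (lam x.2 * ψ x.2) :=
    mul_nonneg (mul_nonneg (lam_nonneg _) hok.b1.nonneg) (mul_nonneg (lam_nonneg _) hok.b2.nonneg)
  set μμ := (lam x.1 * ψ x.1) * (lam x.2 * ψ x.2)
  refine (ov_master hok.pf hok.b1.nonneg hok.b2.nonneg hT).trans ?_
  calc 4 * μμ / T * (pinv (cu x.1 x.2 * cv x.1 x.2).primeFactors
        * ∑ j ∈ Hits (sel γ l) γ ψ x.1 x.2, pinv (coinSet (sel γ l) x.1 x.2 j))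
      ≤ 4 * μμ / (t / 2) * (PL (Xl l t) * (2 * (1 + t) * PL (Xl l t))) := by
        refine mul_le_mul (div_le_div_of_nonneg_left (by positivity) (by linarith) (H.low x hx))
          (mul_le_mul hp1 (hS.trans (mul_le_mul_of_nonneg_right (by linarith [hok.scale]) hPL))
            (Finset.sum_nonneg fun j _ => pinv_nonneg fun p hp => two_le_pf (Finset.mem_filter.1 hp).1) hPL)
          (mul_nonneg (pinv_nonneg fun p hp => two_le_pf hp) (Finset.sum_nonneg fun j _ =>
            pinv_nonneg fun p hp => two_le_pf (Finset.mem_filter.1 hp).1)) (by positivity)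
    _ = _ := by field_simp; ring

/-- Polylogarithms lose to every power. -/
lemma PL_sq_le {ε : ℝ} (hε : 0 < ε) : ∃ C : ℝ, 0 < C ∧ ∀ l t : ℝ, 1 ≤ l → 0 ≤ t → t ≤ l →
    PL (Xl l t) ^ 2 ≤ C * l ^ ε := by
  refine ⟨(3 * Real.exp 10 * 2 ^ 8) ^ 2 * (1 + 2 * (26 : ℝ) ^ (ε/16) / (ε/16)) ^ 16, by positivity,
    fun l t hl ht htl => ?_⟩
  have hX0 : 0 ≤ Xl l t := Xl_nonneg (by linarith) ht
  have hlog : Real.log (2 + t) ≤ 2 * l := by
    have := Real.log_le_sub_one_of_pos (by linarith : (0:ℝ) < 2 + t); linarith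
  have h2 : 2 + Xl l t ≤ 26 * l := by unfold Xl; linarith
  have ha : 0 < ε / 16 := by linarith
  have h3 : Real.log (2 + Xl l t) ≤ (26:ℝ) ^ (ε/16) / (ε/16) * l ^ (ε/16) := by
    refine (Real.log_le_rpow_div (by linarith) ha).trans ?_
    rw [div_mul_eq_mul_div, ← Real.mul_rpow (by norm_num) (by linarith)]
    exact div_le_div_of_nonneg_right (Real.rpow_le_rpow (by linarith) h2 ha.le) ha.le
  have hl1 : 1 ≤ l ^ (ε/16) := Real.one_le_rpow hl ha.le
  have h4 : 1 + 2 * Real.log (2 + Xl l t) ≤ (1 + 2 * (26:ℝ) ^ (ε/16) / (ε/16)) * l ^ (ε/16) := by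
    rw [add_mul, one_mul, mul_div_assoc, mul_assoc 2]; linarith
  have hnn : 0 ≤ 1 + 2 * Real.log (2 + Xl l t) := by
    have := Real.log_nonneg (by linarith : (1:ℝ) ≤ 2 + Xl l t); linarith
  calc PL (Xl l t) ^ 2 = (3 * Real.exp 10 * 2 ^ 8) ^ 2 * (1 + 2 * Real.log (2 + Xl l t)) ^ 16 := by
        unfold PL; ring
    _ ≤ (3 * Real.exp 10 * 2 ^ 8) ^ 2 * ((1 + 2 * (26:ℝ) ^ (ε/16) / (ε/16)) * l ^ (ε/16)) ^ 16 := by
        gcongr
    _ = _ := by
        have e : (l ^ (ε/16)) ^ 16 = l ^ ε := by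
          rw [← Real.rpow_natCast, ← Real.rpow_mul (by linarith)]; congr 1; push_cast; ring
        rw [← e]; ring

lemma EE_eq_Emass (H : Fib k γ l t ψ F E) :
    EE (fun q => lam q * ψ q) E F F = Emass E ψ := by
  unfold Wide.EE Emass
  rw [Finset.filter_true_of_mem fun x hx => H.sub x hx]

lemma root_le {X Y M s : ℝ} {k : ℕ} (hX : 0 ≤ X) (hY : 0 ≤ Y) (hM : 0 ≤ M)
    (h : X ^ ee k ≤ Y * M ^ s) : X ≤ Y ^ (1 / ee k) * M ^ (s / ee k) := by
  have he : 0 < ee k := by unfold ee; positivity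
  have h2 := Real.rpow_le_rpow (by positivity) h (by positivity : 0 ≤ 1 / ee k)
  rw [← Real.rpow_mul hX, mul_one_div_cancel he.ne', Real.rpow_one, Real.mul_rpow hY (by positivity),
    ← Real.rpow_mul hM, mul_one_div] at h2
  exact h2

/-- The constant in the first threshold. -/
noncomputable def KW (k : ℕ) : ℝ := 10000 * (k:ℝ) ^ 2

/-- The first threshold at a large scale. -/
noncomputable def W1 (k : ℕ) (t : ℝ) : ℝ := KW k * (Real.log t + 1)

lemma two_le_W1 (hk : 100 ≤ k) (ht : 1 ≤ t) : 2 ≤ W1 k t := by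
  have hk' : (100:ℝ) ≤ k := by exact_mod_cast hk
  have : 2 ≤ KW k := by unfold KW; nlinarith
  exact this.trans (le_mul_of_one_le_right (by linarith) (by have := Real.log_nonneg ht; linarith))

/-- The large scales. -/
theorem large_ov (k : ℕ) (hk : 100 ≤ k) : ∃ l0 C : ℝ, 0 < C ∧
    ∀ (γ l t : ℝ) (ψ : ℕ → ℝ) (F : Finset ℕ) (E : Finset (ℕ × ℕ)), Fib k γ l t ψ F E → l0 ≤ l →
      l ^ (1 / (k:ℝ)) < t → 1 ≤ Mass F ψ →
      ∑ x ∈ E, ov (sel γ l) γ ψ x.1 x.2 ≤ C * (Emass E ψ + t ^ (-kap k) * Mass F ψ ^ 2) := by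
  obtain ⟨P0, CG, LG, hCG, hLG, hgraph⟩ := edge_graph k hk
  have hk' : (100:ℝ) ≤ k := by exact_mod_cast hk
  have hk0 : (0:ℝ) < k := by linarith
  have hK1 : 1 ≤ 2 * KW k := by unfold KW; nlinarith
  obtain ⟨CO, hCO, hov⟩ := ov_bound_large hK1
  set R := 8 * ((k:ℝ) + 3) with hR
  set Cc := Real.exp 10 * (2 * R) ^ 8 with hCc
  have hR1 : 1 ≤ R := by simp only [hR]; linarith
  have hCc0 : 0 ≤ Cc := by positivity
  set Fc := (Finset.range P0).filter Nat.Prime
  set DG := (CG * LG ^ Fc.card * (1000 * Real.exp 3)) ^ (1 / ee k) with hDG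
  set CL := Real.exp 10 * (2 * (R * 8)) ^ 8 with hCL
  refine ⟨(32:ℝ) ^ (k:ℕ), CO * Cc * (Real.exp 2 + CL * DG), by positivity,
    fun γ l t ψ F E H hl htlo hM => ?_⟩
  have ht := H.ht
  have hl1 := H.hl
  have hkne : k ≠ 0 := by omega
  have ht32 : 32 ≤ t := by
    refine le_trans ?_ htlo.le
    calc (32:ℝ) = (((32:ℝ) ^ k) ^ (1 / (k:ℝ))) := by
          rw [one_div, Real.pow_rpow_inv_natCast (by norm_num) hkne]
      _ ≤ _ := Real.rpow_le_rpow (by positivity) hl (by positivity)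
  have ht1 : 1 ≤ t := by linarith
  have hlt : l ≤ t ^ k := by
    have := pow_le_pow_left₀ (by positivity) htlo.le k
    rwa [one_div, Real.rpow_inv_natCast_pow (by linarith) hkne] at this
  have hlogt : 3 ≤ Real.log t := by
    rw [Real.le_log_iff_exp_le ht]
    have h : Real.exp 3 = Real.exp 1 ^ 3 := by rw [← Real.exp_nat_mul]; norm_num
    have := pow_le_pow_left₀ (Real.exp_pos 1).le (le_of_lt Real.exp_one_lt_d9) 3
    norm_num at this
    linarith
  have hX : Xl l t + 1 ≤ t ^ (k + 3) := by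
    have h1 : Real.log (2 + t) ≤ 2 + t := Real.log_le_self (by linarith)
    have h2 : t ≤ t ^ k := le_self_pow₀ ht1 hkne
    have h3 : (32:ℝ) * t ^ k ≤ t ^ (k + 3) := by
      rw [pow_add, mul_comm]
      refine mul_le_mul_of_nonneg_left (ht32.trans (le_self_pow₀ ht1 (by norm_num))) (by positivity)
    unfold Xl; linarith
  have hn : ∀ {S : Finset ℕ}, (S.card:ℝ) ≤ Xl l t → Real.log (S.card : ℕ) ≤ ((k:ℝ) + 3) * Real.log t := by
    intro S hS
    rcases Nat.eq_zero_or_pos S.card with h | h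
    · rw [h, Nat.cast_zero, Real.log_zero]; positivity
    · have h1 := Real.log_le_log (by exact_mod_cast h) (hS.trans ((le_add_of_nonneg_right zero_le_one).trans hX))
      rw [Real.log_pow] at h1; push_cast at h1; exact h1
  set W := W1 k t
  have hW2 : 2 ≤ W := two_le_W1 hk ht1
  -- the pointwise bound
  have hpoint : ∀ x ∈ E, ∀ L1 : ℝ, Wide.x1 W x.1 x.2 ≤ L1 → ov (sel γ l) γ ψ x.1 x.2
      ≤ CO * Cc * Real.exp (2 * L1) * ((lam x.1 * ψ x.1) * (lam x.2 * ψ x.2)) := by
    intro x hx L1 hL1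
    have hok := H.ok x hx
    set T := tt ψ x.1 x.2
    have hT : t / 2 ≤ T := H.low x hx
    have hlT : Real.log t - 1 ≤ Real.log T := by
      have h := Real.log_le_log (by positivity) hT
      rw [Real.log_div ht.ne' two_ne_zero] at h
      have := Real.log_two_lt_d9
      linarith
    have hWK : W ≤ 2 * KW k * (Real.log T + 1) := by
      have hk2 : (0:ℝ) ≤ KW k := by linarith
      calc W = KW k * (Real.log t + 1) := rfl
        _ ≤ KW k * (2 * (Real.log T + 1)) := mul_le_mul_of_nonneg_left (by linarith) hk2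
        _ = _ := by ring
    have hT2 : 2 ≤ T ^ (1/4 : ℝ) := by
      refine le_trans (le_of_eq ?_) (Real.rpow_le_rpow (by norm_num) (le_trans (by linarith) hT : (16:ℝ) ≤ T)
        (by norm_num))
      rw [show (16:ℝ) = 2 ^ (4:ℝ) by norm_num, ← Real.rpow_mul two_pos.le]; norm_num
    refine (hov hok.pf hok.b1.nonneg hok.b2.nonneg (by linarith) (by linarith) hWK (by linarith)
      (fun S hS => (Wide.pinv_small_le (by positivity) S (fun p hp => (hS p hp).1.two_le) fun p hp => (hS p hp).2).trans ?_)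
      hL1 hCc0 fun j hj => ?_).trans (le_of_eq (by ring))
    · refine le_trans (by linarith : T ^ (1/4 : ℝ) + 1 ≤ 2 * 1 * T ^ (1/4 : ℝ)) ?_
      gcongr
    refine pinv_prime_big _ (fun p hp => Nat.prime_of_mem_primeFactors (Finset.mem_filter.1 hp).1) le_rfl
      hT2 hR1 ?_
    rw [Real.log_rpow (by linarith)]
    refine (hn (H.card_coin hk hx hj)).trans ?_
    calc ((k:ℝ) + 3) * Real.log t ≤ ((k:ℝ) + 3) * (2 * Real.log T) :=
          mul_le_mul_of_nonneg_left (by linarith) (by linarith)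
      _ = _ := by rw [hR]; ring
  -- the exceptional pairs
  set E1 := E.filter (fun x => 1 < Wide.x1 W x.1 x.2)
  have hE1 : E1 ⊆ E := Finset.filter_subset _ _
  have hpow : ∀ x ∈ E1, Real.exp (2 * Wide.x1 W x.1 x.2) ≤ CL * Real.log t ^ 8 := by
    intro x hx
    have hx' := hE1 hx
    have hlW : 1/2 ≤ Real.log W := by
      have := Real.log_le_log two_pos hW2
      have := Real.log_two_gt_d9
      linarith
    have h := xw_prime_le (W := W) (R := R * Real.log t) (cu x.1 x.2 * cv x.1 x.2).primeFactors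
      (fun p hp => Nat.prime_of_mem_primeFactors hp) le_rfl hW2
      (one_le_mul_of_one_le_of_one_le hR1 (by linarith)) ((hn (H.card_uv hk hx')).trans ?_)
    · refine (Real.exp_le_exp.2 (mul_le_mul_of_nonneg_left h zero_le_two)).trans ?_
      rw [show 2 * (5 + 4 * Real.log (2 * (R * Real.log t)))
          = 10 + ((8:ℕ):ℝ) * Real.log (2 * (R * Real.log t)) by push_cast; ring,
        Real.exp_add, Real.exp_nat_mul, Real.exp_log (by positivity), hCL]
      have e : (2 * (R * 8)) ^ 8 * Real.log t ^ 8 = (2 * (R * Real.log t)) ^ 8 * 8 ^ 8 := by ring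
      rw [mul_assoc (Real.exp 10), e]
      refine mul_le_mul_of_nonneg_left (le_mul_of_one_le_right (by positivity) (by norm_num)) (Real.exp_pos _).le
    · calc ((k:ℝ) + 3) * Real.log t ≤ (R * Real.log t) * (1/2) := by rw [hR]; nlinarith
        _ ≤ _ := mul_le_mul_of_nonneg_left hlW (by positivity)
  have hEE : Emass E1 ψ ≤ DG * (t ^ (-(20:ℝ)) * Mass F ψ ^ 2) := by
    set M := Mass F ψ
    have hM0 : 0 < M := by linarith
    set N := max 1 ⌊Ub k l t⌋₊
    have hN : 1 ≤ N := le_max_left _ _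
    have H1 : Fib k γ l t ψ F E1 := ⟨H.hl, H.hγ, H.ht, H.nn, H.blk, fun x hx => H.sub x (hE1 hx),
      fun x hx => H.ok x (hE1 hx), fun x hx => H.low x (hE1 hx)⟩
    have hlN : 1 + Real.log N ≤ 5 * t ^ k := by
      have hNU : (N:ℝ) ≤ (2 + t) * Real.exp (2 * l) := by
        have e1 : 1 ≤ Real.exp (2 * l) := Real.one_le_exp (by linarith)
        simp only [N]; push_cast
        refine max_le (one_le_mul_of_one_le_of_one_le (by linarith) e1) ((Nat.floor_le (by unfold Ub; positivity)).trans ?_)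
        unfold Ub
        refine mul_le_mul (by linarith) (Real.exp_le_exp.2 ?_) (Real.exp_pos _).le (by linarith)
        have := mul_le_mul_of_nonneg_right (del_le hk) (by linarith : (0:ℝ) ≤ l)
        linarith
      have h1 := Real.log_le_log (by exact_mod_cast hN) hNU
      rw [Real.log_mul (by linarith) (Real.exp_pos _).ne', Real.log_exp] at h1
      have h2 := Real.log_le_sub_one_of_pos (by linarith : (0:ℝ) < 2 + t)
      have h3 : t ≤ t ^ k := le_self_pow₀ ht1 hkne
      linarith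
    set Γ := 1000 * Real.exp 3 * t ^ 2 * Real.exp (-(g0 k * W / 6)) * (5 * t ^ k) ^ 5
    have h := hgraph (fun q => lam q * ψ q) E1 Fc F F Γ (fun q => mul_nonneg (lam_nonneg q) (H.nn q))
      (by positivity) (fun q hq => (H.blk q (by simpa using hq)).1) (fun p hp => (Finset.mem_filter.1 hp).2)
      (fun p h1 h2 => Finset.mem_filter.2 ⟨Finset.mem_range.2 h2, h1⟩) fun S => ?_
    swap
    · have hn0 : 0 < S.c * S.e := Nat.mul_pos S.hc S.he
      refine (large_state hk ht H1.ok hN (fun x hx => le_max_of_le_right (Nat.le_floor ((H1.ok x hx).cv_le)))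
        (by linarith) (fun x hx => (Finset.mem_filter.1 hx).2) S
        (Finset.prod_nonneg fun p _ => Real.rpow_nonneg (by positivity) _) (cgain_div_le (by omega) Fc hn0)).trans ?_
      simp only [Γ]
      gcongr
    rw [EE_eq_Emass H1] at h
    have hΓ : Γ ≤ (1000 * Real.exp 3) * t ^ (-(60:ℝ)) := by
      simp only [Γ]
      have e1 : Real.exp (-(g0 k * W / 6)) ≤ t ^ (-(1600 * (k:ℝ))) := by
        rw [Real.rpow_def_of_pos ht]
        refine Real.exp_le_exp.2 ?_
        have e : g0 k * W / 6 = (98 * 10000 / 600) * (k:ℝ) * (Real.log t + 1) := by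
          simp only [W, W1, KW, g0]; field_simp; ring
        rw [e]
        nlinarith
      have e2 : (5 * t ^ k) ^ 5 ≤ t ^ (5 * (k:ℝ) + 5) := by
        rw [mul_pow, ← pow_mul, Real.rpow_add ht, mul_comm, show t ^ (5 * (k:ℝ)) = t ^ (k * 5) by
          rw [← Real.rpow_natCast t (k * 5)]; push_cast; ring_nf]
        refine mul_le_mul_of_nonneg_left ?_ (by positivity)
        rw [show t ^ (5:ℝ) = t ^ (5:ℕ) by norm_cast]
        exact pow_le_pow_left₀ (by norm_num) (by linarith) 5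
      calc 1000 * Real.exp 3 * t ^ 2 * Real.exp (-(g0 k * W / 6)) * (5 * t ^ k) ^ 5
          ≤ 1000 * Real.exp 3 * t ^ (2:ℝ) * t ^ (-(1600 * (k:ℝ))) * t ^ (5 * (k:ℝ) + 5) := by
            rw [Real.rpow_two]; gcongr
        _ = 1000 * Real.exp 3 * t ^ (2 + -(1600 * (k:ℝ)) + (5 * (k:ℝ) + 5)) := by
            rw [Real.rpow_add ht (2 + -(1600 * (k:ℝ))), Real.rpow_add ht 2]; ring
        _ ≤ _ := by gcongr; linarith
    have hY := h.trans (mul_le_mul_of_nonneg_right (mul_le_mul_of_nonneg_left hΓ (by positivity))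
      (Real.rpow_nonneg (mul_self_nonneg M) _))
    refine (root_le (Emass_nonneg H.nn) (by positivity) (mul_self_nonneg M) hY).trans ?_
    rw [show CG * LG ^ Fc.card * (1000 * Real.exp 3 * t ^ (-(60:ℝ)))
        = (CG * LG ^ Fc.card * (1000 * Real.exp 3)) * t ^ (-(60:ℝ)) by ring,
      Real.mul_rpow (by positivity) (by positivity), ← hDG, mul_assoc DG]
    refine mul_le_mul_of_nonneg_left (mul_le_mul ?_ ?_ (by positivity) (by positivity)) (by positivity)
    · rw [← Real.rpow_mul ht.le]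
      refine Real.rpow_le_rpow_of_exponent_le ht1 ?_
      have he : 0 < ee k ∧ ee k ≤ 3 := ⟨by unfold ee; positivity, by
        have : 2 / (k:ℝ) ≤ 1 := by rw [div_le_one hk0]; linarith
        unfold ee; linarith⟩
      rw [neg_mul, neg_le_neg_iff, mul_one_div, le_div_iff₀ he.1]; linarith
    · rw [← sq]
      refine Real.rpow_le_self_of_one_le (one_le_pow₀ hM) ?_
      have he : 0 < ee k := by unfold ee; positivity
      rw [div_le_one he]; linarith
  -- summation
  have hEm : 0 ≤ Emass E ψ := Emass_nonneg H.nn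
  calc ∑ x ∈ E, ov (sel γ l) γ ψ x.1 x.2
      ≤ ∑ x ∈ E, CO * Cc * ((Real.exp 2 + if 1 < Wide.x1 W x.1 x.2 then CL * Real.log t ^ 8 else 0)
          * ((lam x.1 * ψ x.1) * (lam x.2 * ψ x.2))) := by
        refine Finset.sum_le_sum fun x hx => ?_
        have hμ : 0 ≤ (lam x.1 * ψ x.1) * (lam x.2 * ψ x.2) :=
          mul_nonneg (mul_nonneg (lam_nonneg _) (H.nn _)) (mul_nonneg (lam_nonneg _) (H.nn _))
        refine (hpoint x hx _ le_rfl).trans ?_
        rw [mul_assoc (CO * Cc)]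
        refine mul_le_mul_of_nonneg_left (mul_le_mul_of_nonneg_right ?_ hμ) (by positivity)
        split_ifs with h
        · linarith [hpow x (Finset.mem_filter.2 ⟨hx, h⟩), Real.exp_pos 2]
        · rw [add_zero]; exact Real.exp_le_exp.2 (by linarith [not_lt.1 h])
    _ = CO * Cc * (Real.exp 2 * Emass E ψ + CL * Real.log t ^ 8 * Emass E1 ψ) := by
        simp only [add_mul, mul_add, Finset.sum_add_distrib, ite_mul, zero_mul, Emass, E1, Finset.mul_sum,
          Finset.sum_filter, mul_ite, mul_zero]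
    _ ≤ CO * Cc * (Real.exp 2 * Emass E ψ + CL * t ^ (8:ℝ) * (DG * (t ^ (-(20:ℝ)) * Mass F ψ ^ 2))) := by
        gcongr
        · exact Emass_nonneg H.nn
        · rw [show t ^ (8:ℝ) = t ^ (8:ℕ) by norm_cast]
          exact pow_le_pow_left₀ (by linarith) (Real.log_le_self ht.le) 8
    _ ≤ CO * Cc * ((Real.exp 2 + CL * DG) * (Emass E ψ + t ^ (-kap k) * Mass F ψ ^ 2)) := by
        refine mul_le_mul_of_nonneg_left ?_ (by positivity)
        have h8 : t ^ (8:ℝ) * t ^ (-(20:ℝ)) ≤ t ^ (-kap k) := by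
          rw [← Real.rpow_add ht]
          refine Real.rpow_le_rpow_of_exponent_le ht1 ?_
          have : kap k ≤ 1 := by unfold kap; rw [div_le_one (by positivity)]; linarith
          linarith
        have a1 : 0 ≤ t ^ (-kap k) * Mass F ψ ^ 2 := by positivity
        have a2 := mul_le_mul_of_nonneg_right h8 (sq_nonneg (Mass F ψ))
        have a3 := mul_le_mul_of_nonneg_left a2 (by positivity : 0 ≤ CL * DG)
        have a4 : 0 ≤ CL * DG * Emass E ψ := by positivity
        have a5 : 0 ≤ Real.exp 2 * (t ^ (-kap k) * Mass F ψ ^ 2) := by positivity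
        linarith
    _ = _ := by ring

end Vale.Agent.P028.Div
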