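import Vale.Agent.P028.Div.PrimeSum
import Vale.Agent.P031.BrunPure

/-!
# A truncated sieve in a progression (P028)
-/

namespace Vale.Agent.P028.Div

open Finset
open scoped Classical
open Vale.Agent.P028.Wide (xw pinv pinv_nonneg two_le_pf dens_pos)
open Vale.Agent.P031.Brun (sifted card_sifted_le)

/-- The iterated logarithm that measures the losses. -/
noncomputable def Lg (l : ℝ) : ℝ := 2 + Real.log (2 + l)

lemma two_le_Lg {l : ℝ} (hl : 0 ≤ l) : 2 ≤ Lg l := by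
  have := Real.log_nonneg (by linarith : (1:ℝ) ≤ 2 + l)
  unfold Lg; linarith

/-- The primes up to `z`. -/
noncomputable def Pz (z : ℝ) : Finset ℕ := (Finset.Icc 1 ⌊z⌋₊).filter Nat.Prime

lemma prime_Pz {z : ℝ} {p : ℕ} (h : p ∈ Pz z) : p.Prime := (Finset.mem_filter.1 h).2

/-- Euler's lower bound for the product over the primes up to `z`. -/
lemma euler_le {z : ℝ} (hz : 2 ≤ z) : ∏ p ∈ Pz z, (1 - 1 / (p:ℝ)) ≤ 1 / Real.log z := by
  set w := ⌊z⌋₊
  have hw : 2 ≤ w := Nat.le_floor (by exact_mod_cast hz)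
  have hset : Pz z = (w + 1).primesBelow := by
    ext p
    simp only [Pz, Finset.mem_filter, Finset.mem_Icc, Nat.mem_primesBelow]
    exact ⟨fun h => ⟨by omega, h.2⟩, fun h => ⟨⟨h.2.one_le, by omega⟩, h.2⟩⟩
  let f : ℕ →* ℝ :=
    { toFun := fun n => ((n : ℝ))⁻¹
      map_one' := by simp
      map_mul' := fun a b => by push_cast; rw [mul_inv] }
  have hf : ∀ {p : ℕ}, p.Prime → ‖f p‖ < 1 := by
    intro p hp
    have h2 : (2:ℝ) ≤ p := by exact_mod_cast hp.two_le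
    show ‖((p:ℝ))⁻¹‖ < 1
    rw [norm_inv, Real.norm_natCast]
    exact inv_lt_one_of_one_lt₀ (by linarith)
  obtain ⟨-, hsum⟩ :=
    EulerProduct.summable_and_hasSum_smoothNumbers_prod_primesBelow_geometric hf (w + 1)
  have hind := hasSum_subtype_iff_indicator.mp hsum
  have hle := sum_le_hasSum (Finset.Icc 1 w)
    (fun m _ => Set.indicator_nonneg (fun n _ => show (0:ℝ) ≤ f n from inv_nonneg.mpr (Nat.cast_nonneg n)) m) hind
  rw [Finset.sum_congr rfl fun n hn => Set.indicator_of_mem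
    (Nat.mem_smoothNumbers_of_lt (by have := Finset.mem_Icc.1 hn; omega)
      (by have := Finset.mem_Icc.1 hn; omega) : n ∈ Nat.smoothNumbers (w + 1)) _] at hle
  have hh : Real.log z ≤ ∑ d ∈ Finset.Icc 1 w, f d := by
    refine (Real.log_le_log (by linarith) (Nat.lt_floor_add_one z).le).trans ?_
    have := log_add_one_le_harmonic w
    rw [harmonic_eq_sum_Icc] at this
    push_cast at this
    exact this
  have hpos : 0 < Real.log z := Real.log_pos (by linarith)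
  have hprod : (∏ p ∈ (w + 1).primesBelow, (1 - f p)⁻¹) = (∏ p ∈ Pz z, (1 - 1 / (p:ℝ)))⁻¹ := by
    rw [hset, ← Finset.prod_inv_distrib]
    refine Finset.prod_congr rfl fun p _ => ?_
    show (1 - ((p:ℝ))⁻¹)⁻¹ = _
    rw [one_div]
  rw [hprod] at hle
  rw [one_div, le_inv_comm₀ (dens_pos _ fun p hp => (prime_Pz hp).two_le) hpos]
  exact hh.trans hle

lemma pz_sum {z l : ℝ} (hl : 0 ≤ l) (hz : 1 ≤ z) (hzl : Real.log z ≤ l) :
    ∑ p ∈ Pz z, 1 / (p:ℝ) ≤ 8 * Lg l := by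
  set S := Pz z
  have hS : ∀ p ∈ S, p.Prime := fun p hp => prime_Pz hp
  have hc : S.card ≤ ⌊z⌋₊ := (Finset.card_filter_le _ _).trans (by simp)
  have hn : (1:ℝ) ≤ ⌊z⌋₊ := by exact_mod_cast Nat.le_floor (by exact_mod_cast hz : ((1:ℕ):ℝ) ≤ z)
  have hR : Real.log (⌊z⌋₊:ℕ) ≤ 2 * (1 + l) * Real.log 2 := by
    have h1 : Real.log (⌊z⌋₊:ℕ) ≤ l := (Real.log_le_log (by linarith) (Nat.floor_le (by linarith))).trans hzl
    have := Real.log_two_gt_d9
    nlinarith
  have h := xw_prime_le (W := 2) (R := 2 * (1 + l)) S hS hc le_rfl (by linarith) hR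
  have h2 : ∑ p ∈ S, 1 / (p:ℝ) ≤ 1 / 2 + xw 2 S := by
    unfold xw
    rw [← Finset.sum_filter_add_sum_filter_not S (fun p : ℕ => (2:ℝ) < p), add_comm]
    refine add_le_add ?_ le_rfl
    refine (Finset.sum_le_sum_of_subset_of_nonneg (t := ({2} : Finset ℕ)) (fun p hp => ?_)
      fun p _ _ => by positivity).trans (by simp)
    obtain ⟨h1, h2⟩ := Finset.mem_filter.1 hp
    have : p ≤ 2 := by exact_mod_cast not_lt.1 h2
    have := (hS p h1).two_le
    simp; omega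
  have h3 : Real.log (2 * (2 * (1 + l))) ≤ 2 * Real.log 2 + Real.log (2 + l) := by
    rw [show 2 * (2 * (1 + l)) = 2 * 2 * (1 + l) by ring, Real.log_mul (by norm_num) (by linarith),
      Real.log_mul two_ne_zero two_ne_zero]
    have := Real.log_le_log (by linarith : 0 < 1 + l) (by linarith : 1 + l ≤ 2 + l)
    linarith
  have := Real.log_two_lt_d9
  have := Real.log_nonneg (by linarith : (1:ℝ) ≤ 2 + l)
  unfold Lg; linarith

/-- The truncation error of the sieve. -/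
lemma sieve_tail {S : ℝ} {n : ℕ} (hS : 0 ≤ S) (hn : 8 * S ≤ n) :
    S ^ n / (n.factorial : ℝ) ≤ Real.exp (-(n:ℝ)) := by
  have h := Real.pow_div_factorial_le_exp (n:ℝ) (Nat.cast_nonneg n) n
  have h2 : S ^ n ≤ ((n:ℝ) * Real.exp (-2)) ^ n := by
    refine pow_le_pow_left₀ hS ?_ n
    have : (1:ℝ) / 8 ≤ Real.exp (-2) := by
      rw [Real.exp_neg, one_div]
      refine inv_anti₀ (Real.exp_pos _) ?_
      rw [show (2:ℝ) = 1 + 1 by norm_num, Real.exp_add]
      have := Real.exp_one_lt_d9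
      have := Real.exp_pos 1
      nlinarith
    have := mul_le_mul_of_nonneg_left this (Nat.cast_nonneg (α := ℝ) n)
    linarith
  calc S ^ n / (n.factorial : ℝ) ≤ ((n:ℝ) * Real.exp (-2)) ^ n / (n.factorial : ℝ) :=
        div_le_div_of_nonneg_right h2 (Nat.cast_nonneg _)
    _ = (n:ℝ) ^ n / (n.factorial : ℝ) * Real.exp (-2) ^ n := by rw [mul_pow]; ring
    _ ≤ Real.exp n * Real.exp (-2) ^ n := mul_le_mul_of_nonneg_right h (by positivity)
    _ = _ := by rw [← Real.exp_nat_mul, ← Real.exp_add]; ring_nf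

/-- The sieve applied to a set inside a progression. -/
lemma sift_ap (H : Finset ℕ) (hH : ∀ p ∈ H, p.Prime) (s : Finset ℕ) (d : ℕ) (hd : 0 < d) (L : ℝ)
    (hL : 0 ≤ L) (r : ℕ) (hs : ∀ a ∈ s, ∀ p ∈ H, ¬ p ∣ a)
    (hap : ∀ a ∈ s, ∀ b ∈ s, (d:ℤ) ∣ (a:ℤ) - b ∧ (a:ℝ) - b ≤ L) :
    (s.card : ℝ) ≤ (L / d + 1) * (pinv d.primeFactors * ∏ p ∈ H, (1 - 1 / (p:ℝ))
        + (∑ p ∈ H, 1 / (p:ℝ)) ^ (2 * r + 1) / ((2 * r + 1).factorial : ℝ))
      + (1 + (H.card : ℝ)) ^ (2 * r) := by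
  have hd2 : ∀ p ∈ d.primeFactors, 2 ≤ p := fun p hp => two_le_pf hp
  have hHd : 0 ≤ ∏ p ∈ H, (1 - 1 / (p:ℝ)) := (dens_pos _ fun p hp => (hH p hp).two_le).le
  have hT : 0 ≤ (∑ p ∈ H, 1 / (p:ℝ)) ^ (2 * r + 1) / ((2 * r + 1).factorial : ℝ) :=
    div_nonneg (pow_nonneg (Finset.sum_nonneg fun p _ => by positivity) _) (Nat.cast_nonneg _)
  have hΔ : 0 ≤ pinv d.primeFactors * ∏ p ∈ H, (1 - 1 / (p:ℝ))
      + (∑ p ∈ H, 1 / (p:ℝ)) ^ (2 * r + 1) / ((2 * r + 1).factorial : ℝ) :=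
    add_nonneg (mul_nonneg (pinv_nonneg hd2) hHd) hT
  rcases s.eq_empty_or_nonempty with h0 | h0
  · rw [h0, Finset.card_empty, Nat.cast_zero]; positivity
  set a0 := s.min' h0
  set P := H.filter (fun p => ¬ p ∣ d)
  have hP : ∀ p ∈ P, p.Prime := fun p hp => hH p (Finset.mem_filter.1 hp).1
  have hcl : ∀ p : ℕ, ∃ i : ℕ, p ∈ P → i < p ∧ (p:ℤ) ∣ (a0:ℤ) + (d:ℤ) * ((i:ℤ) - 1) := by
    intro p
    by_cases hp : p ∈ P
    swap
    · exact ⟨0, fun h => absurd h hp⟩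
    have hpr := hP p hp
    have hco : IsCoprime (p:ℤ) (d:ℤ) := Int.isCoprime_iff_nat_coprime.2
      (by simpa using (hpr.coprime_iff_not_dvd.2 (Finset.mem_filter.1 hp).2))
    obtain ⟨u, v, huv⟩ := hco
    have hp0 : (0:ℤ) < p := by exact_mod_cast hpr.pos
    refine ⟨((1 - v * a0) % (p:ℤ)).toNat, fun _ => ⟨?_, ?_⟩⟩
    · have := Int.emod_lt_of_pos (1 - v * a0) hp0
      have := Int.emod_nonneg (1 - v * a0) hp0.ne'
      omega
    · rw [Int.toNat_of_nonneg (Int.emod_nonneg _ hp0.ne'), Int.emod_def]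
      exact ⟨u * a0 - d * ((1 - v * a0) / p), by linear_combination (-(a0:ℤ)) * huv⟩
  choose cl hcl using hcl
  set Ω : ℕ → Finset ℕ := fun p => {cl p}
  set N := ⌊L / d⌋₊ + 1
  have hd0 : (0:ℝ) < d := by exact_mod_cast hd
  have hidx : ∀ a ∈ s, a0 ≤ a ∧ a = a0 + d * ((a - a0) / d) ∧ (a - a0) / d ≤ ⌊L / d⌋₊ := by
    intro a ha
    have hle : a0 ≤ a := s.min'_le a ha
    obtain ⟨h1, h2⟩ := hap a ha a0 (s.min'_mem h0)
    rw [← Nat.cast_sub hle] at h1
    obtain ⟨i, hi⟩ := Int.natCast_dvd_natCast.1 h1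
    have e : (a - a0) / d = i := by rw [hi]; exact Nat.mul_div_cancel_left _ hd
    refine ⟨hle, by rw [e, ← hi]; omega, ?_⟩
    rw [e]
    refine Nat.le_floor ?_
    rw [le_div_iff₀ hd0]
    have : ((a - a0 : ℕ):ℝ) = (d:ℝ) * i := by exact_mod_cast hi
    rw [Nat.cast_sub hle] at this
    linarith
  have hcard : s.card ≤ (sifted P Ω N).card := by
    refine Finset.card_le_card_of_injOn (fun a => (a - a0) / d + 1) (fun a ha => ?_) fun a ha b hb e => ?_
    · obtain ⟨hle, he, hi⟩ := hidx a ha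
      refine Finset.mem_filter.2 ⟨Finset.mem_Ioc.2 ⟨Nat.succ_pos _, by simp only [N]; omega⟩,
        fun p hp hmem => hs a ha p (Finset.mem_filter.1 hp).1 ?_⟩
      simp only [Ω, Finset.mem_singleton] at hmem
      obtain ⟨hlt, hdv⟩ := hcl p hp
      generalize (a - a0) / d = i at he hmem
      rw [← Int.natCast_dvd_natCast, he]
      have h3 : (p:ℤ) ∣ ((i + 1 : ℕ):ℤ) - (cl p : ℤ) := by
        rw [← Nat.modEq_iff_dvd]
        exact (Nat.mod_eq_of_lt hlt).trans hmem.symm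
      have h4 := dvd_add hdv (h3.mul_left (d:ℤ))
      push_cast at h4 ⊢
      rwa [show (a0:ℤ) + d * ((cl p:ℤ) - 1) + d * ((i:ℤ) + 1 - (cl p:ℤ)) = (a0:ℤ) + d * i by ring] at h4
    · have h1 := (hidx a ha).2.1
      have h2 := (hidx b hb).2.1
      have e' : (a - a0) / d = (b - a0) / d := by simpa using e
      rw [e'] at h1
      omega
  refine (Nat.cast_le.2 hcard).trans ((card_sifted_le hP Ω (fun p hp a ha => by
    simp only [Ω, Finset.mem_singleton] at ha; rw [ha]; exact (hcl p hp).1) N (2 * r) ⟨r, by ring⟩).trans ?_)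
  simp only [Ω, Finset.card_singleton, Nat.cast_one, Finset.sum_const, nsmul_eq_mul, mul_one]
  have hPH : P ⊆ H := Finset.filter_subset _ _
  refine add_le_add (mul_le_mul ?_ (add_le_add ?_ ?_) ?_ (by positivity)) ?_
  · simp only [N]; push_cast
    have := Nat.floor_le (div_nonneg hL hd0.le)
    linarith
  · set D := H.filter (fun p => p ∣ d)
    have e : (∏ p ∈ D, (1 - 1 / (p:ℝ))) * ∏ p ∈ P, (1 - 1 / (p:ℝ)) = ∏ p ∈ H, (1 - 1 / (p:ℝ)) :=
      Finset.prod_filter_mul_prod_filter_not H _ _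
    have hDsub : D ⊆ d.primeFactors := fun p hp => by
      obtain ⟨h1, h2⟩ := Finset.mem_filter.1 hp
      exact Nat.mem_primeFactors.2 ⟨hH p h1, h2, hd.ne'⟩
    have hDpos : 0 < ∏ p ∈ D, (1 - 1 / (p:ℝ)) := dens_pos _ fun p hp => hd2 p (hDsub hp)
    refine le_trans ?_ (mul_le_mul_of_nonneg_right (Wide.pinv_mono hDsub hd2) hHd)
    rw [← e, pinv, inv_mul_cancel_left₀ hDpos.ne']
  · refine div_le_div_of_nonneg_right (pow_le_pow_left₀ (Finset.sum_nonneg fun p _ => by positivity)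
      (Finset.sum_le_sum_of_subset_of_nonneg hPH fun p _ _ => by positivity) _) (Nat.cast_nonneg _)
  · exact add_nonneg (dens_pos _ fun p hp => (hP p hp).two_le).le
      (div_nonneg (pow_nonneg (Finset.sum_nonneg fun p _ => by positivity) _) (Nat.cast_nonneg _))
  · exact pow_le_pow_left₀ (by positivity)
      (add_le_add le_rfl (Nat.cast_le.2 (Finset.card_le_card hPH))) _

end Vale.Agent.P028.Div
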