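import Vale.Agent.P028.Div.Count
import Vale.Agent.P028.Div.Sieve

/-!
# Sifted hits in one row (P028)
-/

namespace Vale.Agent.P028.Div

open Finset
open scoped Classical
open Vale.Agent.P028.Wide (pinv)

/-- The sifted part of a row: either the expected count, or the step is close to a wrong fraction. -/
theorem row_sieve (γ t l : ℝ) (M N : ℕ) (w : ℤ) (H : Finset ℕ) (hH : ∀ p ∈ H, p.Prime) (r : ℕ)
    (R Δ : ℝ) (ht : 0 < t) (ht1 : t ≤ 1) (hR0 : 0 < R) (htR : t ≤ R) (hR4 : R < 4 * t → 1 ≤ 8 * R)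
    (hM : 1 ≤ M) (hN : 1 ≤ N)
    (hΔ : ∀ d : ℕ, 1 ≤ d → (d:ℝ) ≤ Real.sqrt N → pinv d.primeFactors * ∏ p ∈ H, (1 - 1 / (p:ℝ))
      + (∑ p ∈ H, 1 / (p:ℝ)) ^ (2 * r + 1) / ((2 * r + 1).factorial : ℝ) ≤ Δ)
    (hΔ0 : 0 ≤ Δ)
    (s : Finset ℕ) (hs : ∀ a ∈ s, 1 ≤ a ∧ a ≤ N ∧ |(((M:ℤ) * a - w : ℤ):ℝ)| ≤ (M:ℝ) * N ∧
      HitN γ t (sel γ l) ((M:ℤ) * a - w) ∧ ∀ p ∈ H, ¬ p ∣ a) :
    ((s.card : ℝ) ≤ (12 * R + (Nat.gcd (sel γ l).1 M : ℝ) * min (1 / ((sel γ l).1:ℝ)) (4 * t)) * N * Δ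
        + 8 * Real.sqrt N * (Δ + (1 + (H.card : ℝ)) ^ (2 * r))) ∨
      ∃ d : ℕ, 1 ≤ d ∧ (d:ℝ) ≤ 1 / R ∧ HitN γ (3 * t / (R * N)) (sel γ l) ((d * M : ℕ):ℤ) := by
  set xs := sel γ l
  obtain ⟨hB, hcoB⟩ := sel_spec γ l
  set E0 := (1 + (H.card : ℝ)) ^ (2 * r)
  have hE0 : 0 ≤ E0 := by positivity
  have hN0 : (0:ℝ) < N := by exact_mod_cast hN
  set rN := Real.sqrt N with hrN
  have hrN1 : 1 ≤ rN := Real.one_le_sqrt.2 (by exact_mod_cast hN)
  have hrN2 : rN * rN = N := Real.mul_self_sqrt hN0.le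
  have hB0 : (0:ℝ) < xs.1 := by exact_mod_cast hB
  have hgm : 0 ≤ (Nat.gcd xs.1 M : ℝ) * min (1 / (xs.1:ℝ)) (4 * t) := by positivity
  have hD1 := hΔ 1 le_rfl (by exact_mod_cast hrN1)
  by_cases hRt : R < 4 * t
  · refine Or.inl ?_
    have h := sift_ap H hH s 1 one_pos N hN0.le r (fun a ha => (hs a ha).2.2.2.2) fun a ha b hb => ⟨by simp, ?_⟩
    · refine h.trans ?_
      rw [Nat.cast_one, div_one]
      have h8 := hR4 hRt
      have e1 := mul_le_mul_of_nonneg_left hD1 (by linarith : (0:ℝ) ≤ (N:ℝ) + 1)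
      have e2 : (N:ℝ) * Δ ≤ (12 * R + (Nat.gcd xs.1 M : ℝ) * min (1 / (xs.1:ℝ)) (4 * t)) * N * Δ :=
        mul_le_mul_of_nonneg_right (le_mul_of_one_le_left hN0.le (by linarith)) hΔ0
      have e3 : 1 * (Δ + E0) ≤ 8 * rN * (Δ + E0) := mul_le_mul_of_nonneg_right (by linarith) (by linarith)
      linarith
    · have a1 : (a:ℝ) ≤ N := by exact_mod_cast (hs a ha).2.1
      have : (0:ℝ) ≤ b := Nat.cast_nonneg b
      linarith
  push Not at hRt
  set Q := ⌊rN⌋₊
  have hQ : 0 < Q := Nat.floor_pos.2 hrN1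
  obtain ⟨q, hq1, hq2⟩ := Real.exists_rat_abs_sub_le_and_den_le (γ * M) hQ
  set d := q.den with hd
  set a := q.num with ha
  have hd1 : 1 ≤ d := q.den_pos
  have hd0 : (0:ℝ) < d := by exact_mod_cast hd1
  have hdr : (d:ℝ) ≤ rN := le_trans (Nat.cast_le.2 hq2) (Nat.floor_le (by linarith))
  have hco : IsCoprime (d:ℤ) a := by
    rw [Int.isCoprime_iff_nat_coprime]; simpa [hd, ha] using q.reduced.symm
  set ε := (d:ℝ) * (γ * M) - a with hεdef
  have happ : |ε| ≤ 1 / rN := by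
    rw [Rat.cast_def, ← hd, ← ha] at hq1
    have h := mul_le_mul_of_nonneg_left hq1 hd0.le
    rw [← abs_of_pos hd0, ← abs_mul, abs_of_pos hd0, mul_sub, mul_div_cancel₀ _ hd0.ne'] at h
    refine h.trans ?_
    have e : (d:ℝ) * (1 / (((Q:ℝ) + 1) * d)) = 1 / ((Q:ℝ) + 1) := by field_simp
    rw [e]
    exact one_div_le_one_div_of_le (by linarith) (Nat.lt_floor_add_one _).le
  have hs' : ∀ V : ℕ, ∃ z : ℤ, V ∈ s → |(z:ℝ) + γ * (((M:ℤ) * V - w : ℤ):ℝ)| < t ∧
      z * (xs.1:ℤ) + xs.2 * ((M:ℤ) * V - w) ≠ 0 := fun V => by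
    by_cases h : V ∈ s
    · obtain ⟨z, hz⟩ := (hs V h).2.2.2.1; exact ⟨z, fun _ => hz⟩
    · exact ⟨0, fun h' => absurd h' h⟩
  choose z hz using hs'
  have hrange : ∀ V ∈ s, (V:ℝ) ≤ N ∧ (0:ℝ) ≤ V := fun V hV =>
    ⟨by exact_mod_cast (hs V hV).2.1, Nat.cast_nonneg V⟩
  by_cases hmaj : (d:ℝ) < 1 / R ∧ |ε| ≤ 2 * t / (R * N)
  swap
  · -- the minor arcs and the moderate errors
    refine Or.inl ?_
    set φ := γ * w
    set j := fun V : ℕ => z V * (d:ℤ) + a * (V:ℤ)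
    have hnear : ∀ V ∈ s, |((j V : ℤ):ℝ) + ε * V - (d:ℝ) * φ| < (d:ℝ) * t := by
      intro V hV
      have e : ((j V : ℤ):ℝ) + ε * V - (d:ℝ) * φ
          = (d:ℝ) * ((z V : ℝ) + γ * (((M:ℤ) * V - w : ℤ):ℝ)) := by
        simp only [j, φ, hεdef]; push_cast; ring
      rw [e, abs_mul, abs_of_pos hd0]
      exact mul_lt_mul_of_pos_left (hz V hV).1 hd0
    set L := if ε = 0 then (N:ℝ) else min (N:ℝ) (2 * (d:ℝ) * t / |ε|)
    have hL : 0 ≤ L := by
      simp only [L]; split_ifs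
      · exact hN0.le
      · exact le_min hN0.le (by positivity)
    have hrow : (((s.image j).card : ℕ):ℝ) ≤ 2 * ((d:ℝ) * t + (N:ℝ) * |ε|) + 1 := by
      refine card_int_near _ (-((d:ℝ) * φ)) _ (by positivity) fun i hi => ?_
      obtain ⟨V, hV, rfl⟩ := Finset.mem_image.1 hi
      have h1 := hnear V hV
      have h2 : |ε * (V:ℝ)| ≤ (N:ℝ) * |ε| := by
        rw [abs_mul, Nat.abs_cast, mul_comm]
        exact mul_le_mul_of_nonneg_right (hrange V hV).1 (abs_nonneg _)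
      have h3 := abs_sub (((j V : ℤ):ℝ) + ε * V - (d:ℝ) * φ) (ε * V)
      rw [show ((j V : ℤ):ℝ) + ε * V - (d:ℝ) * φ - ε * V = ((j V : ℤ):ℝ) + -((d:ℝ) * φ) by ring] at h3
      linarith
    have hfib : ∀ i : ℤ, (((s.filter (fun V => j V = i)).card : ℕ):ℝ) ≤ (L / d + 1) * Δ + E0 := by
      intro i
      refine (sift_ap H hH _ d hd1 L hL r (fun V hV => (hs V (Finset.mem_filter.1 hV).1).2.2.2.2)
        fun x hx y hy => ?_).trans (add_le_add (mul_le_mul_of_nonneg_left (hΔ d hd1 hdr) (by positivity)) le_rfl)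
      obtain ⟨hx, hxi⟩ := Finset.mem_filter.1 hx
      obtain ⟨hy, hyi⟩ := Finset.mem_filter.1 hy
      refine ⟨?_, ?_⟩
      · have h := hxi.trans hyi.symm
        simp only [j] at h
        exact hco.dvd_of_dvd_mul_left ⟨z y - z x, by linear_combination h⟩
      · have hxy : (x:ℝ) - y ≤ N := by linarith [(hrange x hx).1, (hrange y hy).2]
        simp only [L]; split_ifs with h0
        · exact hxy
        refine le_min hxy ?_
        rw [le_div_iff₀ (abs_pos.2 h0)]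
        have h1 := hnear x hx
        have h2 := hnear y hy
        rw [hxi] at h1
        rw [hyi] at h2
        have h := abs_sub ((i:ℝ) + ε * x - (d:ℝ) * φ) ((i:ℝ) + ε * y - (d:ℝ) * φ)
        rw [show (i:ℝ) + ε * x - (d:ℝ) * φ - ((i:ℝ) + ε * y - (d:ℝ) * φ) = ((x:ℝ) - y) * ε by ring,
          abs_mul] at h
        have := mul_le_mul_of_nonneg_right (le_abs_self ((x:ℝ) - y)) (abs_nonneg ε)
        linarith
    rw [Finset.card_eq_sum_card_fiberwise (t := s.image j) (f := j) fun V hV => Finset.mem_image_of_mem _ hV]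
    push_cast
    refine (Finset.sum_le_sum fun i _ => hfib i).trans ?_
    rw [Finset.sum_const, nsmul_eq_mul]
    refine (mul_le_mul_of_nonneg_right hrow (by positivity)).trans ?_
    set K := 2 * ((d:ℝ) * t + (N:ℝ) * |ε|) + 1
    have hK : K ≤ 5 * rN := by
      have h1 : (d:ℝ) * t ≤ rN := (mul_le_of_le_one_right hd0.le ht1).trans hdr
      have h2 : (N:ℝ) * |ε| ≤ rN := by
        refine (mul_le_mul_of_nonneg_left happ hN0.le).trans (le_of_eq ?_)
        rw [← hrN2]; field_simp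
      simp only [K]; linarith
    have hLd : K * (L / d) ≤ 7 * R * N := by
      have t1 : (d:ℝ) * t * (L / d) ≤ t * N := by
        have : L ≤ N := by
          simp only [L]; split_ifs
          · exact le_rfl
          · exact min_le_left _ _
        calc (d:ℝ) * t * (L / d) = t * L := by field_simp
          _ ≤ _ := mul_le_mul_of_nonneg_left this ht.le
      have t2 : (N:ℝ) * |ε| * (L / d) ≤ 2 * (t * N) := by
        by_cases h0 : ε = 0
        · rw [h0]; simp; positivity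
        calc (N:ℝ) * |ε| * (L / d) ≤ (N:ℝ) * |ε| * ((2 * (d:ℝ) * t / |ε|) / d) := by
              gcongr; simp only [L]; rw [if_neg h0]; exact min_le_right _ _
          _ = _ := by have := abs_ne_zero.2 h0; field_simp
      have t3 : L / d ≤ R * N := by
        rw [not_and_or, not_lt, not_le] at hmaj
        rw [div_le_iff₀ hd0]
        rcases hmaj with h | h
        · have hL' : L ≤ N := by
            simp only [L]; split_ifs
            · exact le_rfl
            · exact min_le_left _ _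
          rw [div_le_iff₀ hR0] at h
          have := mul_le_mul_of_nonneg_left h hN0.le
          linarith
        · have h0 : ε ≠ 0 := fun h0 => by
            rw [h0, abs_zero] at h
            exact absurd h (not_lt.2 (by positivity))
          simp only [L]; rw [if_neg h0]
          refine (min_le_right _ _).trans ?_
          rw [div_le_iff₀ (abs_pos.2 h0)]
          rw [div_lt_iff₀ (by positivity)] at h
          have := mul_le_mul_of_nonneg_left h.le hd0.le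
          linarith
      have htN : t * N ≤ R * N := mul_le_mul_of_nonneg_right htR hN0.le
      have : K * (L / d) = 2 * ((d:ℝ) * t * (L / d)) + 2 * ((N:ℝ) * |ε| * (L / d)) + L / d := by
        simp only [K]; ring
      linarith
    calc K * ((L / d + 1) * Δ + E0) = K * (L / d) * Δ + K * (Δ + E0) := by ring
      _ ≤ 7 * R * N * Δ + 5 * rN * (Δ + E0) :=
          add_le_add (mul_le_mul_of_nonneg_right hLd hΔ0) (mul_le_mul_of_nonneg_right hK (by linarith))
      _ ≤ _ := by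
          have h1 : 7 * R * N * Δ ≤ (12 * R + (Nat.gcd xs.1 M : ℝ) * min (1 / (xs.1:ℝ)) (4 * t)) * N * Δ := by
            refine mul_le_mul_of_nonneg_right (mul_le_mul_of_nonneg_right ?_ hN0.le) hΔ0
            linarith
          have h2 : 5 * rN * (Δ + E0) ≤ 8 * rN * (Δ + E0) := mul_le_mul_of_nonneg_right (by linarith) (by linarith)
          linarith
  -- the major arc
  obtain ⟨hdR, hεs⟩ := hmaj
  have hdM : 0 < d * M := Nat.mul_pos hd1 hM
  by_cases hne : -a * (xs.1:ℤ) + xs.2 * ((d * M : ℕ):ℤ) ≠ 0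
  · refine Or.inr ⟨d, hd1, hdR.le, -a, ?_, hne⟩
    push_cast
    rw [show -(a:ℝ) + γ * ((d:ℝ) * M) = ε by rw [hεdef]; ring]
    refine lt_of_le_of_lt hεs ?_
    rw [div_lt_div_iff_of_pos_right (by positivity)]; linarith
  push Not at hne
  refine Or.inl ?_
  push_cast at hne
  set B := xs.1
  set A := xs.2
  have hBdM : (B:ℤ) ∣ (d:ℤ) * M := hcoB.dvd_of_dvd_mul_left ⟨a, by linear_combination hne⟩
  set gc := Nat.gcd B M with hgcdef
  have hgc : 0 < gc := Nat.gcd_pos_of_pos_left _ hB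
  obtain ⟨B', hB'⟩ : gc ∣ B := Nat.gcd_dvd_left _ _
  obtain ⟨M', hM'⟩ : gc ∣ M := Nat.gcd_dvd_right _ _
  have hB'0 : 0 < B' := Nat.pos_of_ne_zero fun h => by simp [h] at hB'; omega
  have hcop : IsCoprime (B':ℤ) (M':ℤ) := by
    rw [Int.isCoprime_iff_nat_coprime]
    have := Nat.coprime_div_gcd_div_gcd (m := B) (n := M) hgc
    rwa [← hgcdef, show B / gc = B' by rw [hB']; exact Nat.mul_div_cancel_left _ hgc,
      show M / gc = M' by rw [hM']; exact Nat.mul_div_cancel_left _ hgc] at this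
  have hB'd : B' ∣ d := by
    rw [← Int.natCast_dvd_natCast]
    refine hcop.dvd_of_dvd_mul_right ?_
    rw [hB', hM'] at hBdM
    push_cast at hBdM
    rw [show (d:ℤ) * ((gc:ℤ) * M') = (gc:ℤ) * ((d:ℤ) * M') by ring] at hBdM
    exact Int.dvd_of_mul_dvd_mul_left (by exact_mod_cast hgc.ne') hBdM
  have hB'r : (B':ℝ) ≤ d := by exact_mod_cast Nat.le_of_dvd hd1 hB'd
  have hBr : (B:ℝ) = (gc:ℝ) * B' := by exact_mod_cast hB'
  set ε' := (B:ℝ) * γ - A with hε'def
  have hε' : ε' * ((d:ℝ) * M) = (B:ℝ) * ε := by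
    have hn : -(a:ℝ) * B + (A:ℝ) * ((d:ℝ) * M) = 0 := by exact_mod_cast hne
    rw [hε'def, hεdef]; linear_combination -hn
  set J := fun V : ℕ => z V * (B:ℤ) + A * ((M:ℤ) * V - w)
  have hnear : ∀ V ∈ s, |((J V : ℤ):ℝ) + (((M:ℤ) * V - w : ℤ):ℝ) * ε'| < (B:ℝ) * t := by
    intro V hV
    have e : ((J V : ℤ):ℝ) + (((M:ℤ) * V - w : ℤ):ℝ) * ε'
        = (B:ℝ) * ((z V : ℝ) + γ * (((M:ℤ) * V - w : ℤ):ℝ)) := by
      simp only [J, hε'def]; push_cast; ring
    rw [e, abs_mul, abs_of_pos hB0]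
    exact mul_lt_mul_of_pos_left (hz V hV).1 hB0
  have hdiff : ∀ x ∈ s, ∀ y ∈ s, |((J x : ℤ):ℝ) - J y + (M:ℝ) * ((x:ℝ) - y) * ε'| < 2 * ((B:ℝ) * t) := by
    intro x hx y hy
    have h1 := hnear x hx
    have h2 := hnear y hy
    have h := abs_sub (((J x : ℤ):ℝ) + (((M:ℤ) * x - w : ℤ):ℝ) * ε') (((J y : ℤ):ℝ) + (((M:ℤ) * y - w : ℤ):ℝ) * ε')
    rw [show ((J x : ℤ):ℝ) + (((M:ℤ) * x - w : ℤ):ℝ) * ε' - (((J y : ℤ):ℝ) + (((M:ℤ) * y - w : ℤ):ℝ) * ε')
      = ((J x : ℤ):ℝ) - J y + (M:ℝ) * ((x:ℝ) - y) * ε' by push_cast; ring] at h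
    linarith
  have hMNε : (M:ℝ) * N * |ε'| ≤ (gc:ℝ) * B' * (2 * t / (R * d)) := by
    have h1 : |ε'| * ((d:ℝ) * M) = (B:ℝ) * |ε| := by
      have := congrArg abs hε'
      rwa [abs_mul, abs_mul, abs_mul, abs_of_pos hd0, Nat.abs_cast, abs_of_pos hB0] at this
    calc (M:ℝ) * N * |ε'| = (N:ℝ) / d * ((B:ℝ) * |ε|) := by rw [← h1]; field_simp
      _ ≤ (N:ℝ) / d * ((B:ℝ) * (2 * t / (R * N))) := by gcongr
      _ = _ := by rw [hBr]; field_simp
  have hJeq : ∀ x ∈ s, ∀ y ∈ s, J x = J y := by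
    intro x hx y hy
    by_contra hne'
    have hgd : (gc:ℤ) ∣ J x - J y := by
      have e : J x - J y = (B:ℤ) * (z x - z y) + (M:ℤ) * (A * ((x:ℤ) - y)) := by simp only [J]; ring
      rw [e]
      exact dvd_add ((Int.natCast_dvd_natCast.2 (Nat.gcd_dvd_left _ _)).mul_right _)
        ((Int.natCast_dvd_natCast.2 (Nat.gcd_dvd_right _ _)).mul_right _)
    have hge : (gc:ℝ) ≤ |((J x : ℤ):ℝ) - J y| := by
      have := Int.le_of_dvd (abs_pos.2 (sub_ne_zero.2 hne')) ((dvd_abs _ _).2 hgd)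
      calc (gc:ℝ) ≤ ((|J x - J y| : ℤ):ℝ) := by exact_mod_cast this
        _ = _ := by push_cast; ring
    have h1 : |(M:ℝ) * ((x:ℝ) - y) * ε'| ≤ (M:ℝ) * N * |ε'| := by
      rw [abs_mul, abs_mul, Nat.abs_cast]
      gcongr
      rw [abs_le]; constructor <;> linarith [(hrange x hx).1, (hrange x hx).2, (hrange y hy).1, (hrange y hy).2]
    have h2 := abs_sub (((J x : ℤ):ℝ) - J y + (M:ℝ) * ((x:ℝ) - y) * ε') ((M:ℝ) * ((x:ℝ) - y) * ε')
    rw [add_sub_cancel_right] at h2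
    have h3 := hdiff x hx y hy
    have h4 : 2 * ((B:ℝ) * t) + (gc:ℝ) * B' * (2 * t / (R * d)) ≤ (gc:ℝ) := by
      have a1 : (B':ℝ) * t ≤ t / R :=
        (mul_le_mul_of_nonneg_right (hB'r.trans hdR.le) ht.le).trans (le_of_eq (by ring))
      have a2 : (B':ℝ) * (2 * t / (R * d)) ≤ 2 * t / R := by
        refine (mul_le_mul_of_nonneg_right hB'r (by positivity)).trans (le_of_eq ?_)
        field_simp
      have a3 : t / R ≤ 1/4 := by rw [div_le_iff₀ hR0]; linarith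
      have a4 : 2 * t / R ≤ 1 / 2 := by rw [div_le_iff₀ hR0]; linarith
      have := mul_le_mul_of_nonneg_left (by linarith : 2 * ((B':ℝ) * t) + (B':ℝ) * (2 * t / (R * d)) ≤ 1)
        (Nat.cast_nonneg (α := ℝ) gc)
      rw [hBr]; linarith
    linarith
  set L := (N:ℝ) * min 1 (4 * (B:ℝ) * t)
  have hL : 0 ≤ L := by positivity
  refine (sift_ap H hH s B' hB'0 L hL r (fun a ha => (hs a ha).2.2.2.2) fun x hx y hy => ?_).trans ?_
  · refine ⟨?_, ?_⟩
    · have h := hJeq x hx y hy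
      simp only [J] at h
      have h1 : (B:ℤ) ∣ (M:ℤ) * ((x:ℤ) - y) :=
        hcoB.dvd_of_dvd_mul_left ⟨z y - z x, by linear_combination h⟩
      rw [hB', hM'] at h1
      push_cast at h1
      rw [mul_assoc] at h1
      exact hcop.dvd_of_dvd_mul_left (Int.dvd_of_mul_dvd_mul_left (by exact_mod_cast hgc.ne') h1)
    · have hxy : (x:ℝ) - y ≤ N := by linarith [(hrange x hx).1, (hrange y hy).2]
      simp only [L]
      rw [mul_min_of_nonneg _ _ hN0.le, mul_one]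
      refine le_min hxy ?_
      rcases le_or_gt (1/4) ((B:ℝ) * t) with hbt | hbt
      · refine hxy.trans (le_mul_of_one_le_right hN0.le ?_); linarith
      have h3 := hdiff x hx y hy
      rw [hJeq x hx y hy, sub_self, zero_add, abs_mul, abs_mul, Nat.abs_cast] at h3
      have h1 : (1:ℝ) ≤ |((J x : ℤ):ℝ)| := by
        rw [← Int.cast_abs]; exact_mod_cast Int.one_le_abs (hz x hx).2
      have h2 := abs_sub (((J x : ℤ):ℝ) + (((M:ℤ) * x - w : ℤ):ℝ) * ε') ((((M:ℤ) * x - w : ℤ):ℝ) * ε')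
      rw [add_sub_cancel_right, abs_mul] at h2
      have h5 := mul_le_mul_of_nonneg_right (hs x hx).2.2.1 (abs_nonneg ε')
      have h6 : 1 / 2 ≤ (M:ℝ) * N * |ε'| := by linarith [hnear x hx]
      have h7 := mul_le_mul_of_nonneg_left h6 (abs_nonneg ((x:ℝ) - y))
      have h8 : |(x:ℝ) - y| * ((M:ℝ) * N * |ε'|) ≤ (N:ℝ) * (2 * ((B:ℝ) * t)) := by
        rw [show |(x:ℝ) - y| * ((M:ℝ) * N * |ε'|) = (N:ℝ) * ((M:ℝ) * |(x:ℝ) - y| * |ε'|) by ring]
        exact mul_le_mul_of_nonneg_left h3.le hN0.le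
      linarith [le_abs_self ((x:ℝ) - y)]
  · have hdB : (B':ℝ) ≤ rN := hB'r.trans hdr
    have e : L / (B':ℝ) = (gc:ℝ) * min (1 / (B:ℝ)) (4 * t) * N := by
      simp only [L]
      rw [hBr, mul_comm (N:ℝ), mul_div_right_comm]
      congr 1
      have hg0 : (0:ℝ) < gc := by exact_mod_cast hgc
      have hb0 : (0:ℝ) < B' := by exact_mod_cast hB'0
      rw [mul_min_of_nonneg _ _ hg0.le, ← min_div_div_right hb0.le]
      congr 1 <;> field_simp
    refine (add_le_add (mul_le_mul_of_nonneg_left (hΔ B' hB'0 hdB) (by positivity)) le_rfl).trans ?_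
    rw [e]
    have e2 : 1 * (Δ + E0) ≤ 8 * rN * (Δ + E0) := mul_le_mul_of_nonneg_right (by linarith) (by linarith)
    have : 0 ≤ 12 * R * N * Δ := by positivity
    linarith

end Vale.Agent.P028.Div
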