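import Vale.Agent.P028.Wide.Sets
import Vale.Agent.P028.Overlap

namespace Vale.Agent.P028.Div

open Finset MeasureTheory
open scoped Classical
open Vale.Agent.P028.Wide (cls cls_spec frac_unique)

/-- A reduced fraction exceptionally close to `γ` at the scale `exp l`. -/
def Fr (γ l : ℝ) (x : ℕ × ℤ) : Prop :=
  1 ≤ x.1 ∧ IsCoprime (x.1:ℤ) x.2 ∧ (x.1:ℝ) ≤ Real.exp (l / 2) / 2 ∧
    |(x.1:ℝ) * γ - x.2| ≤ Real.exp (-(l / 2)) / 2

/-- The exceptional fraction at the scale `exp l`, or `0/1`. -/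
noncomputable def sel (γ l : ℝ) : ℕ × ℤ :=
  if h : ∃ x, Fr γ l x then h.choose else (1, 0)

lemma sel_spec (γ l : ℝ) : 1 ≤ (sel γ l).1 ∧ IsCoprime ((sel γ l).1:ℤ) (sel γ l).2 := by
  unfold sel
  split_ifs with h
  · exact ⟨h.choose_spec.1, h.choose_spec.2.1⟩
  · exact ⟨le_rfl, by simpa using (isCoprime_one_left : IsCoprime (1:ℤ) 0)⟩

lemma sel_eq {γ l : ℝ} {x : ℕ × ℤ} (hx : Fr γ l x) : sel γ l = x := by
  have hex : ∃ x, Fr γ l x := ⟨x, hx⟩
  have hy : Fr γ l (sel γ l) := by unfold sel; rw [dif_pos hex]; exact hex.choose_spec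
  refine frac_unique hy.1 hy.2.1 hx.2.1 hy.2.2.1 hx.2.2.1 hy.2.2.2 hx.2.2.2 ?_
  have e : Real.exp (l / 2) * Real.exp (-(l / 2)) = 1 := by rw [← Real.exp_add]; simp
  linarith [show 2 * (Real.exp (l / 2) / 2) * (Real.exp (-(l / 2)) / 2)
    = Real.exp (l / 2) * Real.exp (-(l / 2)) / 2 by ring]

lemma cls_kill {x : ℕ × ℤ} (hx : IsCoprime (x.1:ℤ) x.2) {p : ℕ} (hp : p.Prime) {b : ℤ}
    (h : (p:ℤ) ∣ x.2 + b * x.1) : (p:ℤ) ∣ b - cls x p := by
  have hpz : Prime (p:ℤ) := Nat.prime_iff_prime_int.1 hp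
  have hB : ¬ (p:ℤ) ∣ (x.1:ℤ) := fun hd => by
    have h2 : (p:ℤ) ∣ x.2 := (Int.dvd_add_left (hd.mul_left b)).1 h
    exact hpz.not_isUnit (hx.isUnit_of_dvd' hd h2)
  have h3 : (p:ℤ) ∣ (b - cls x p) * x.1 := by
    have := Int.dvd_sub h (cls_spec hp hB)
    have e : x.2 + b * x.1 - (x.2 + cls x p * x.1) = (b - cls x p) * x.1 := by ring
    rw [← e]; exact this
  exact (hpz.dvd_or_dvd h3).resolve_right hB

/-- The selected numerators in `[0, q)`. -/
noncomputable def Eset (x : ℕ × ℤ) (q : ℕ) : Finset ℤ :=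
  (Finset.Ico 0 (q:ℤ)).filter (Avoid q.primeFactors (cls x))

lemma mem_Eset {x : ℕ × ℤ} {q : ℕ} {a : ℤ} :
    a ∈ Eset x q ↔ (0 ≤ a ∧ a < q) ∧ Avoid q.primeFactors (cls x) a := by
  simp [Eset]

lemma card_Eset {q : ℕ} (x : ℕ × ℤ) (hq : 0 < q) : ((Eset x q).card : ℝ) = q * lam q := by
  have hP : ∀ p ∈ q.primeFactors, p.Prime := fun p hp => Nat.prime_of_mem_primeFactors hp
  have h := (interval_avoid 0 (q:ℤ) (Nat.cast_nonneg q) q.primeFactors hP (cls x)).2 (fun T hT => by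
    rw [sub_zero, Int.natCast_dvd_natCast, prod_dvd_iff_forall T (fun p hp => hP p (hT hp))]
    exact fun p hp => Nat.dvd_of_mem_primeFactors (hT hp))
  unfold Eset
  rw [h, lam_eq_prod hq]
  push_cast; ring

lemma window_eventually {L : ℝ} (hL : 0 < L) : ∃ Q : ℕ, ∀ (x : ℕ × ℤ) (q : ℕ), Q ≤ q → ∀ u v : ℤ,
    0 ≤ u → v ≤ q → L * q ≤ (v:ℝ) - u →
    ((v:ℝ) - u) * lam q / 2 ≤ (((Eset x q).filter (fun a => u ≤ a ∧ a < v)).card : ℝ) := by
  obtain ⟨M, hM⟩ := exists_nat_ge (((400 / L) ^ 2) ^ 2)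
  refine ⟨max M 2, fun x q hq u v hu hv hlen => ?_⟩
  have hq2 : 2 ≤ q := le_trans (le_max_right _ _) hq
  have hqr : (2:ℝ) ≤ q := by exact_mod_cast hq2
  have hMq : (M:ℝ) ≤ q := by exact_mod_cast le_trans (le_max_left _ _) hq
  set len := (v:ℝ) - u
  have hlen0 : 0 < len := lt_of_lt_of_le (by positivity) hlen
  have huv : u ≤ v := by
    have : (u:ℝ) ≤ v := by simp only [len] at hlen0; linarith
    exact_mod_cast this
  have hP : ∀ p ∈ q.primeFactors, p.Prime := fun p hp => Nat.prime_of_mem_primeFactors hp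
  have heq : (Eset x q).filter (fun a => u ≤ a ∧ a < v)
      = (Finset.Ico u v).filter (Avoid q.primeFactors (cls x)) := by
    ext a
    simp only [Finset.mem_filter, mem_Eset, Finset.mem_Ico]
    exact ⟨fun h => ⟨h.2, h.1.2⟩, fun h => ⟨⟨⟨by omega, by omega⟩, h.2⟩, h.1⟩⟩
  rw [heq]
  have h := (abs_le.1 (interval_avoid u v huv q.primeFactors hP (cls x)).1).1
  rw [← lam_eq_prod (by omega)] at h
  have h2 := two_pow_card_le (q := q) (by omega)
  suffices 4 * Real.sqrt q ≤ len * lam q / 2 by linarith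
  set r := Real.sqrt (Real.sqrt (q:ℝ))
  have hr2 : r ^ 2 = Real.sqrt q := Real.sq_sqrt (Real.sqrt_nonneg _)
  have hr4 : r ^ 4 = q := by
    rw [show r ^ 4 = (r ^ 2) ^ 2 by ring, hr2, Real.sq_sqrt (by linarith)]
  have hrM : 400 / L ≤ r := by
    apply Real.le_sqrt_of_sq_le
    apply Real.le_sqrt_of_sq_le
    linarith
  have hr1 : 1 ≤ r := by rw [Real.one_le_sqrt, Real.one_le_sqrt]; linarith
  have hω : (q.primeFactors.card : ℝ) + 1 ≤ 9 * r := by
    have h := card_primeFactors_le_log q (by omega)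
    have hl := Real.log_le_self (by linarith : 0 ≤ r)
    have e : Real.log (q:ℝ) = 4 * Real.log r := by rw [← hr4, Real.log_pow]; norm_num
    have := Real.log_two_gt_d9
    have : (0:ℝ) ≤ q.primeFactors.card := Nat.cast_nonneg _
    nlinarith
  have hlam : 1 / (9 * r) ≤ lam q :=
    le_trans (one_div_le_one_div_of_le (by positivity) hω) (lam_ge_card (by omega))
  rw [← hr2]
  have h5 : L * r ^ 4 * (1 / (9 * r)) ≤ len * lam q :=
    mul_le_mul (by rw [hr4]; exact hlen) hlam (by positivity) hlen0.le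
  have h6 : L * r ^ 4 * (1 / (9 * r)) = (L * r) * r ^ 2 / 9 := by field_simp
  have h7 : 400 ≤ L * r := by rw [div_le_iff₀ hL] at hrM; linarith
  have := mul_le_mul_of_nonneg_right h7 (sq_nonneg r)
  linarith [sq_nonneg r]

/-- The selected approximation set for the denominator `q`. -/
noncomputable def SSet (x : ℕ × ℤ) (γ : ℝ) (ψ : ℕ → ℝ) (q : ℕ) : Set ℝ := ⋃ a ∈ Eset x q, J γ ψ q a

lemma measurableSet_SSet (x : ℕ × ℤ) (γ : ℝ) (ψ : ℕ → ℝ) (q : ℕ) : MeasurableSet (SSet x γ ψ q) :=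
  Finset.measurableSet_biUnion _ fun _ _ => measurableSet_Ioo

lemma SSet_finite (x : ℕ × ℤ) (γ : ℝ) (ψ : ℕ → ℝ) (q : ℕ) : volume (SSet x γ ψ q) ≠ ⊤ :=
  ((measure_biUnion_finset_le _ _).trans_lt
    (ENNReal.sum_lt_top.2 fun a _ => (J_finite γ ψ q a).lt_top)).ne

lemma volume_real_SSet {x : ℕ × ℤ} {γ : ℝ} {ψ : ℕ → ℝ} {q : ℕ} (hq : 0 < q) (hψ0 : 0 ≤ ψ q) (hψ : 2 * ψ q ≤ 1) :
    volume.real (SSet x γ ψ q) = 2 * lam q * ψ q := by
  rw [SSet, measureReal_biUnion_finset (J_disjoint hq hψ _) (fun _ _ => measurableSet_Ioo)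
    (fun a _ => J_finite γ ψ q a), Finset.sum_congr rfl (fun a _ => volume_real_J hψ0 a),
    Finset.sum_const, nsmul_eq_mul, card_Eset x hq]
  have : (q:ℝ) ≠ 0 := by positivity
  field_simp

/-- In every subinterval of the unit interval the selected set has the expected size. -/
lemma cell_lower (γ : ℝ) {α β : ℝ} (hα : 0 ≤ α) (hαβ : α < β) (hβ : β ≤ 1) :
    ∃ Q : ℕ, ∀ (x : ℕ × ℤ) (ψ : ℕ → ℝ) (q : ℕ), Q ≤ q → 0 ≤ ψ q → 2 * ψ q ≤ 1 →
      lam q * ψ q * (β - α) / 2 ≤ volume.real (SSet x γ ψ q ∩ Set.Ico α β) := by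
  obtain ⟨Q, hQ⟩ := window_eventually (L := (β - α) / 2) (by linarith)
  obtain ⟨M, hM⟩ := exists_nat_ge ((4 * |γ| + 8) / (β - α))
  refine ⟨max (max Q M) 1, fun x ψ q hq hψ0 hψ => ?_⟩
  have hq1 : 1 ≤ q := le_trans (le_max_right _ _) hq
  have hqr : (1:ℝ) ≤ q := by exact_mod_cast hq1
  have hbig : 4 * |γ| + 8 ≤ (β - α) * q := by
    have h1 : (M:ℝ) ≤ q := by
      exact_mod_cast le_trans (le_trans (le_max_right _ _) (le_max_left _ _)) hq
    have := (div_le_iff₀ (by linarith : (0:ℝ) < β - α)).1 hM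
    nlinarith
  set u : ℤ := max 0 ⌈α * q - γ + 1⌉ with hu
  set v : ℤ := min (q:ℤ) ⌊β * q - γ - 1⌋ with hv
  have hlen : (β - α) / 2 * q ≤ (v:ℝ) - u := by
    have h1 : (u:ℝ) ≤ α * q + |γ| + 2 := by
      rw [hu]; push_cast
      have := Int.ceil_lt_add_one (α * q - γ + 1)
      have := neg_abs_le γ
      refine max_le ?_ ?_
      · have : 0 ≤ α * q := by positivity
        have := abs_nonneg γ
        linarith
      · linarith
    have h2 : β * q - |γ| - 2 ≤ (v:ℝ) := by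
      rw [hv]; push_cast
      have := Int.sub_one_lt_floor (β * q - γ - 1)
      have := le_abs_self γ
      refine le_min ?_ ?_
      · have : β * q ≤ q := mul_le_of_le_one_left (by linarith) hβ
        have := abs_nonneg γ
        linarith
      · linarith
    linarith
  have hcount := hQ x q (le_trans (le_trans (le_max_left _ _) (le_max_left _ _)) hq) u v
    (le_max_left _ _) (min_le_left _ _) hlen
  set G := (Eset x q).filter (fun a => u ≤ a ∧ a < v)
  have hsub : (⋃ a ∈ G, J γ ψ q a) ⊆ SSet x γ ψ q ∩ Set.Ico α β := by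
    refine Set.iUnion₂_subset fun a ha y hx => ⟨?_, ?_⟩
    · exact Set.mem_biUnion (Finset.mem_filter.1 ha).1 hx
    · obtain ⟨h1, h2⟩ := (Finset.mem_filter.1 ha).2
      rw [mem_J hq1, abs_lt] at hx
      have e1 : α * q - γ + 1 ≤ (a:ℝ) := Int.ceil_le.1 (le_trans (le_max_right _ _) h1)
      have e2 : (a:ℝ) ≤ β * q - γ - 1 := Int.le_floor.1 (le_trans h2.le (min_le_right _ _))
      constructor
      · by_contra hlt
        have := mul_lt_mul_of_pos_right (not_le.1 hlt) (by linarith : (0:ℝ) < q)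
        linarith
      · by_contra hlt
        have := mul_le_mul_of_nonneg_right (not_lt.1 hlt) (by linarith : (0:ℝ) ≤ q)
        linarith
  refine le_trans ?_ (measureReal_mono hsub
    (measure_ne_top_of_subset Set.inter_subset_left (SSet_finite x γ ψ q)))
  rw [measureReal_biUnion_finset (J_disjoint hq1 hψ _) (fun _ _ => measurableSet_Ioo)
    (fun a _ => J_finite γ ψ q a), Finset.sum_congr rfl (fun a _ => volume_real_J hψ0 a),
    Finset.sum_const, nsmul_eq_mul]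
  refine le_trans ?_ (mul_le_mul_of_nonneg_right hcount (by positivity))
  calc lam q * ψ q * (β - α) / 2 = lam q * ψ q / q * ((β - α) / 2 * q) := by
        field_simp
    _ ≤ lam q * ψ q / q * ((v:ℝ) - u) :=
        mul_le_mul_of_nonneg_left hlen (by have := lam_nonneg q; positivity)
    _ = _ := by ring

end Vale.Agent.P028.Div
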