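import Vale.Agent.P028.Div.Ov
import Vale.Agent.P028.Div.Count
import Vale.Agent.P028.Div.Box

namespace Vale.Agent.P028.Div

open Finset
open scoped Classical
open Vale.Agent.P028.Wide (Conf xw xw_union_le xw_le_card card_xw_tail)

/-- The exponent lost in the block. -/
noncomputable def del (k : ℕ) : ℝ := 1 / (100 * (k:ℝ))

lemma del_nonneg (k : ℕ) : 0 ≤ del k := by unfold del; positivity

/-- Membership of the block at scale `exp l`. -/
def InBlk (k : ℕ) (l : ℝ) (ψ : ℕ → ℝ) (q : ℕ) : Prop :=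
  0 < q ∧ Real.exp (-((1 + del k) * l)) ≤ ψ q ∧ ψ q ≤ Real.exp (-l)

/-- An ordered pair of the block with scale at most `t` that has a hit. -/
structure EdgeOK (k : ℕ) (γ l t : ℝ) (ψ : ℕ → ℝ) (x : ℕ × ℕ) : Prop where
  b1 : InBlk k l ψ x.1
  b2 : InBlk k l ψ x.2
  lt : x.1 < x.2
  scale : tt ψ x.1 x.2 ≤ t
  hit : (Hits (sel γ l) γ ψ x.1 x.2).Nonempty

/-- The size of the cofactors. -/
noncomputable def Ub (k : ℕ) (l t : ℝ) : ℝ := t * Real.exp ((1 + del k) * l)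

variable {k : ℕ} {γ l t : ℝ} {ψ : ℕ → ℝ} {x : ℕ × ℕ}

lemma InBlk.pos (h : InBlk k l ψ x.1) : 0 < ψ x.1 := lt_of_lt_of_le (Real.exp_pos _) h.2.1

lemma InBlk.nonneg {q : ℕ} (h : InBlk k l ψ q) : 0 ≤ ψ q := le_trans (Real.exp_pos _).le h.2.1

lemma EdgeOK.pf (h : EdgeOK k γ l t ψ x) : PairFacts x.1 x.2 := pairFacts h.b1.1 h.lt

lemma EdgeOK.cof (h : EdgeOK k γ l t ψ x) :
    (cv x.1 x.2 : ℝ) * ψ x.1 ≤ t ∧ (cu x.1 x.2 : ℝ) * ψ x.2 ≤ t := by
  have e := tt_eq h.pf ψ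
  have := h.scale
  have a := mul_nonneg (Nat.cast_nonneg (α := ℝ) (cu x.1 x.2)) h.b2.nonneg
  have b := mul_nonneg (Nat.cast_nonneg (α := ℝ) (cv x.1 x.2)) h.b1.nonneg
  constructor <;> linarith

lemma EdgeOK.cv_le (h : EdgeOK k γ l t ψ x) : (cv x.1 x.2 : ℝ) ≤ Ub k l t := by
  have h1 := (mul_le_mul_of_nonneg_left h.b1.2.1 (Nat.cast_nonneg _)).trans h.cof.1
  rw [Real.exp_neg, ← div_eq_mul_inv, div_le_iff₀ (Real.exp_pos _)] at h1
  exact h1

lemma EdgeOK.hitN (h : EdgeOK k γ l t ψ x) :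
    HitN γ t (sel γ l) ((cv x.1 x.2 : ℤ) - cu x.1 x.2) := by
  obtain ⟨j, hj⟩ := h.hit
  refine ⟨j, ?_, kill (sel_spec γ l).2 h.pf hj⟩
  have h1 := hits_near h.pf hj
  rw [Nat.cast_sub h.pf.huv.le] at h1
  push_cast
  exact lt_of_lt_of_le h1 h.scale

lemma EdgeOK.mu_le (h : EdgeOK k γ l t ψ x) :
    (lam x.1 * ψ x.1 ≤ t / cv x.1 x.2 ∧ lam x.1 * ψ x.1 ≤ Real.exp (-l)) ∧
    (lam x.2 * ψ x.2 ≤ t / cu x.1 x.2 ∧ lam x.2 * ψ x.2 ≤ Real.exp (-l)) := by
  have h1 : lam x.1 * ψ x.1 ≤ ψ x.1 := mul_le_of_le_one_left h.b1.nonneg (lam_le_one _)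
  have h2 : lam x.2 * ψ x.2 ≤ ψ x.2 := mul_le_of_le_one_left h.b2.nonneg (lam_le_one _)
  have hu : (0:ℝ) < cu x.1 x.2 := by exact_mod_cast h.pf.hu0
  have hv : (0:ℝ) < cv x.1 x.2 := by exact_mod_cast lt_trans h.pf.hu0 h.pf.huv
  refine ⟨⟨h1.trans ?_, h1.trans h.b1.2.2⟩, h2.trans ?_, h2.trans h.b2.2.2⟩
  · rw [le_div_iff₀ hv, mul_comm]; exact h.cof.1
  · rw [le_div_iff₀ hu, mul_comm]; exact h.cof.2

/-- The reduced cofactors of a pair. -/
def rk {E : Finset (ℕ × ℕ)} (S : Conf E) (x : ℕ × ℕ) : ℕ × ℕ :=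
  (S.Vf x.2 * ∏ p ∈ S.Tl x.1, p, S.Uf x.1 * ∏ p ∈ S.Tr x.2, p)

lemma rk_spec {E : Finset (ℕ × ℕ)} (S : Conf E) {x : ℕ × ℕ} (hx : x ∈ S.E2) :
    cv x.1 x.2 = S.c * (rk S x).1 ∧ cu x.1 x.2 = S.e * (rk S x).2 :=
  ⟨by rw [S.cofV x hx, mul_assoc]; rfl, by rw [S.cofU x hx, mul_assoc]; rfl⟩

/-- The damping factor. -/
noncomputable def damp (l t : ℝ) (c a : ℕ) : ℝ := min 1 ((c:ℝ) * a / (t * Real.exp l))

lemma damp_nonneg (ht : 0 < t) (c a : ℕ) : 0 ≤ damp l t c a := le_min zero_le_one (by positivity)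

lemma damp_le_one (c a : ℕ) : damp l t c a ≤ 1 := min_le_left _ _

lemma damp_mono (ht : 0 < t) (c : ℕ) : Monotone (damp l t c) := fun a b hab =>
  min_le_min le_rfl (div_le_div_of_nonneg_right
    (mul_le_mul_of_nonneg_left (Nat.cast_le.2 hab) (Nat.cast_nonneg _)) (by positivity))

lemma le_damp {c a : ℕ} {μ : ℝ} (ht : 0 < t) (hc : 0 < c) (ha : 0 < a) (h1 : μ ≤ t / ((c:ℝ) * a))
    (h2 : μ ≤ Real.exp (-l)) : μ ≤ t / c * (damp l t c a / a) := by
  have hc' : (0:ℝ) < c := by exact_mod_cast hc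
  have ha' : (0:ℝ) < a := by exact_mod_cast ha
  rw [show t / c * (damp l t c a / a) = t / ((c:ℝ) * a) * damp l t c a by field_simp, damp,
    mul_min_of_nonneg _ _ (by positivity)]
  refine le_min (by rwa [mul_one]) (h2.trans (le_of_eq ?_))
  rw [Real.exp_neg]; field_simp

/-- A state is controlled by a count of pairs in boxes. -/
lemma state_bound {E : Finset (ℕ × ℕ)} (ht : 0 < t) (hE : ∀ x ∈ E, EdgeOK k γ l t ψ x) (S : Conf E)
    {G Φ : ℝ} (hG : 0 ≤ G) (hΦ : 0 ≤ Φ) {N : ℕ} (hN : 1 ≤ N) (hNU : ∀ x ∈ E, cv x.1 x.2 ≤ N)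
    (h : ∀ A B : ℕ, 1 ≤ A → 1 ≤ B → A ≤ 2 * N → B ≤ 2 * N →
      (((S.E2.image (rk S)).filter (fun z => z.1 ≤ A ∧ z.2 ≤ B)).card : ℝ)
        * (damp l t S.c A * damp l t S.e B) ^ 2 ≤ Φ * ((A:ℝ) * B)) :
    (∑ x ∈ S.E2, (lam x.1 * ψ x.1) * (lam x.2 * ψ x.2)) * G
      ≤ t ^ 2 * (G / ((S.c:ℝ) * S.e)) * (1000 * Real.sqrt Φ * (1 + Real.log N) ^ 5) := by
  set F := fun z : ℕ × ℕ => damp l t S.c z.1 * damp l t S.e z.2 / ((z.1:ℝ) * z.2)
  have hc : (0:ℝ) < S.c := by exact_mod_cast S.hc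
  have he : (0:ℝ) < S.e := by exact_mod_cast S.he
  have hF : ∀ z, 0 ≤ F z := fun z => by
    have := damp_nonneg (l := l) ht S.c z.1; have := damp_nonneg (l := l) ht S.e z.2; positivity
  have hP : ∀ z ∈ S.E2.image (rk S), 1 ≤ z.1 ∧ z.1 ≤ N ∧ 1 ≤ z.2 ∧ z.2 ≤ N := by
    intro z hz
    obtain ⟨x, hx, rfl⟩ := Finset.mem_image.1 hz
    obtain ⟨e1, e2⟩ := rk_spec S hx
    have P := (hE x (S.sub hx)).pf
    have hv := hNU x (S.sub hx)
    have hu0 := P.hu0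
    have huv := P.huv
    rw [e1] at hv huv
    rw [e2] at hu0 huv
    have p1 : 0 < (rk S x).1 := by
      rcases Nat.eq_zero_or_pos (rk S x).1 with h0 | h0
      · simp [h0] at huv
      · exact h0
    have p2 : 0 < (rk S x).2 := Nat.pos_of_mul_pos_left hu0
    have q1 := Nat.le_mul_of_pos_left (rk S x).1 S.hc
    have q2 := Nat.le_mul_of_pos_left (rk S x).2 S.he
    omega
  have hstep : ∑ x ∈ S.E2, (lam x.1 * ψ x.1) * (lam x.2 * ψ x.2)
      ≤ t ^ 2 / ((S.c:ℝ) * S.e) * ∑ x ∈ S.E2, F (rk S x) := by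
    rw [Finset.mul_sum]
    refine Finset.sum_le_sum fun x hx => ?_
    obtain ⟨e1, e2⟩ := rk_spec S hx
    obtain ⟨⟨a1, a2⟩, b1, b2⟩ := (hE x (S.sub hx)).mu_le
    obtain ⟨p1, -, p2, -⟩ := hP _ (Finset.mem_image_of_mem _ hx)
    rw [e1] at a1
    rw [e2] at b1
    push_cast at a1 b1
    refine (mul_le_mul (le_damp ht S.hc p1 a1 a2) (le_damp ht S.he p2 b1 b2)
      (mul_nonneg (lam_nonneg _) (hE x (S.sub hx)).b2.nonneg) ?_).trans (le_of_eq ?_)
    · have := damp_nonneg (l := l) ht S.c (rk S x).1; positivity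
    · simp only [F]; field_simp
  refine (mul_le_mul_of_nonneg_right (hstep.trans (mul_le_mul_of_nonneg_left
    ((edge_to_pairs S F hF).trans (box_sum hN _ hP (damp l t S.c) (damp l t S.e)
      (damp_nonneg ht S.c) (damp_nonneg ht S.e) (damp_mono ht S.c) (damp_mono ht S.e) hΦ h))
    (by positivity))) hG).trans (le_of_eq ?_)
  field_simp

/-- The threshold exponent for forcing the primes of the fraction. -/
noncomputable def bet (k : ℕ) : ℝ := 11 * (k:ℝ) / 10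

/-- The saving exponent of the gain. -/
noncomputable def g0 (k : ℕ) : ℝ := 98 / (100 * (k:ℝ))

lemma g0_pos (hk : 100 ≤ k) : 0 < g0 k ∧ 5 * g0 k ≤ 1/20 ∧ 1 ≤ bet k * g0 k ∧ 2 ≤ bet k := by
  have hk' : (100:ℝ) ≤ k := by exact_mod_cast hk
  refine ⟨by unfold g0; positivity, ?_, ?_, ?_⟩
  · unfold g0; rw [← mul_div_assoc, div_le_iff₀ (by positivity)]; linarith
  · unfold g0 bet; field_simp; norm_num
  · unfold bet; linarith

/-- The degenerate term of a row. -/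
lemma gcd_term (hk : 100 ≤ k) (ht : 0 < t) (ht1 : t ≤ 1) {z cg H : ℝ} (hz0 : 0 ≤ z) (hz : 2 * z ≤ 1)
    (hH : t * H ≤ t ^ (2 * z)) (hH0 : 0 ≤ H) {Bx n : ℕ} (hBx : 1 ≤ Bx) (hn : 1 ≤ n) (hcg0 : 0 ≤ cg)
    (hcg : cg ≤ (n:ℝ) ^ (-(g0 k)))
    (hf : (Bx:ℝ) ≤ t ^ (-(bet k)) → cg ≤ (Nat.gcd Bx n : ℝ) ^ (-(19/20 : ℝ))) :
    cg ^ 2 * (Nat.gcd Bx n : ℝ) * min (1 / (Bx:ℝ)) (4 * t * H) ≤ 4 * t ^ (2 * z) := by
  obtain ⟨hg0, -, hbg, hb2⟩ := g0_pos hk
  set gc := (Nat.gcd Bx n : ℝ)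
  have hgc : 1 ≤ gc := by simp only [gc]; exact_mod_cast Nat.gcd_pos_of_pos_left _ hBx
  have hB : (0:ℝ) < Bx := by exact_mod_cast hBx
  have hm0 : 0 ≤ min (1 / (Bx:ℝ)) (4 * t * H) := le_min (by positivity) (by positivity)
  have h4 : t ^ (2 * z) ≤ 4 * t ^ (2 * z) := le_mul_of_one_le_left (by positivity) (by norm_num)
  rcases le_or_gt (Bx:ℝ) (t ^ (-(bet k))) with hs | hl
  · have h1 : cg ^ 2 * gc ≤ 1 := by
      refine (mul_le_mul_of_nonneg_right (pow_le_pow_left₀ hcg0 (hf hs) 2) (by linarith)).trans ?_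
      rw [← Real.rpow_natCast, ← Real.rpow_mul (by linarith), ← Real.rpow_add_one (by linarith)]
      exact Real.rpow_le_one_of_one_le_of_nonpos hgc (by norm_num)
    calc _ ≤ 1 * (4 * t * H) := mul_le_mul h1 (min_le_right _ _) hm0 zero_le_one
      _ ≤ _ := by linarith
  refine le_trans ?_ h4
  refine (mul_le_mul_of_nonneg_left (min_le_left _ _) (by positivity)).trans ?_
  rw [show cg ^ 2 * gc * (1 / (Bx:ℝ)) = gc / Bx * cg ^ 2 by ring]
  have hBinv : (Bx:ℝ)⁻¹ ≤ t ^ bet k := by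
    rw [Real.rpow_neg ht.le] at hl
    exact inv_le_of_inv_le₀ (by positivity) hl.le
  have hexp : ∀ a : ℝ, 1 ≤ a → t ^ a ≤ t ^ (2 * z) := fun a ha =>
    Real.rpow_le_rpow_of_exponent_ge ht ht1 (by linarith)
  rcases le_or_gt gc (Real.sqrt Bx) with hgs | hgl
  · refine le_trans ?_ (hexp (bet k / 2) (by linarith))
    have hc1 : cg ^ 2 ≤ 1 := pow_le_one₀ hcg0 (hcg.trans
      (Real.rpow_le_one_of_one_le_of_nonpos (by exact_mod_cast hn) (by linarith)))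
    calc gc / (Bx:ℝ) * cg ^ 2 ≤ Real.sqrt Bx / Bx * 1 :=
          mul_le_mul (div_le_div_of_nonneg_right hgs hB.le) hc1 (sq_nonneg _) (by positivity)
      _ = Real.sqrt ((Bx:ℝ)⁻¹) := by rw [mul_one, Real.sqrt_div_self', Real.sqrt_inv, one_div]
      _ ≤ Real.sqrt (t ^ bet k) := Real.sqrt_le_sqrt hBinv
      _ = _ := by rw [Real.sqrt_eq_rpow, ← Real.rpow_mul ht.le]; congr 1; ring
  · refine le_trans ?_ (hexp (bet k * g0 k) hbg)
    have hgcB : gc / (Bx:ℝ) ≤ 1 := by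
      rw [div_le_one hB]; simp only [gc]; exact_mod_cast Nat.le_of_dvd hBx (Nat.gcd_dvd_left _ _)
    have hgn : gc ≤ (n:ℝ) := by
      simp only [gc]; exact_mod_cast Nat.le_of_dvd hn (Nat.gcd_dvd_right _ _)
    have h1 : cg ^ 2 ≤ (Bx:ℝ) ^ (-(g0 k)) := by
      refine (pow_le_pow_left₀ hcg0 (hcg.trans (Real.rpow_le_rpow_of_nonpos (Real.sqrt_pos.2 hB)
        (hgl.le.trans hgn) (by linarith))) 2).trans (le_of_eq ?_)
      rw [← Real.rpow_natCast, ← Real.rpow_mul (Real.sqrt_nonneg _), Real.sqrt_eq_rpow,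
        ← Real.rpow_mul hB.le]
      congr 1; push_cast; ring
    calc gc / (Bx:ℝ) * cg ^ 2 ≤ 1 * (Bx:ℝ) ^ (-(g0 k)) :=
          mul_le_mul hgcB h1 (sq_nonneg _) zero_le_one
      _ = ((Bx:ℝ)⁻¹) ^ g0 k := by rw [one_mul, Real.rpow_neg hB.le, Real.inv_rpow hB.le]
      _ ≤ (t ^ bet k) ^ g0 k := Real.rpow_le_rpow (by positivity) hBinv hg0.le
      _ = _ := (Real.rpow_mul ht.le _ _).symm

/-- The bound `M ≤ K0 ρ ^ 5`. -/
lemma step_bound (hk : 100 ≤ k) (ht : 0 < t) {θ z cg X : ℝ} {M : ℕ} (hθ : 1/2 ≤ θ) (hX : 1 ≤ X)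
    (hM : (M:ℝ) ≤ X ^ θ) (hcg : cg ≤ X ^ (-(g0 k))) (hcgz : t ^ z < cg) :
    (M:ℝ) ≤ t ^ (-(θ * z / g0 k)) * (t ^ z / cg) ^ 5 := by
  obtain ⟨hg0, hg5, -, -⟩ := g0_pos hk
  have hcg0 : 0 < cg := lt_trans (Real.rpow_pos_of_pos ht z) hcgz
  have hXp : 0 < X := by linarith
  rw [div_pow, ← mul_div_assoc, le_div_iff₀ (by positivity)]
  refine (mul_le_mul hM (pow_le_pow_left₀ hcg0.le hcg 5) (by positivity) (by positivity)).trans ?_
  have hb : X ^ g0 k ≤ t ^ (-z) := by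
    have h := hcgz.le.trans hcg
    rw [Real.rpow_neg hXp.le, le_inv_comm₀ (by positivity) (by positivity)] at h
    rwa [Real.rpow_neg ht.le]
  rw [← Real.rpow_natCast (X ^ (-g0 k)), ← Real.rpow_mul hXp.le, ← Real.rpow_add hXp,
    ← Real.rpow_natCast (t ^ z), ← Real.rpow_mul ht.le, ← Real.rpow_add ht]
  push_cast
  calc X ^ (θ + -g0 k * 5) = (X ^ g0 k) ^ ((θ + -g0 k * 5) / g0 k) := by
        rw [← Real.rpow_mul hXp.le, mul_div_cancel₀ _ hg0.ne']
    _ ≤ (t ^ (-z)) ^ ((θ + -g0 k * 5) / g0 k) :=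
        Real.rpow_le_rpow (by positivity) hb (div_nonneg (by linarith) hg0.le)
    _ = _ := by rw [← Real.rpow_mul ht.le]; congr 1; field_simp; ring

/-- The count of pairs in one box, for the middle scales. -/
lemma mid_share (hk : 100 ≤ k) (hl : 0 ≤ l) (ht : 0 < t) (ht1 : t ≤ 1) {z θ cg : ℝ} (hz0 : 0 ≤ z)
    (hz : 2 * z ≤ 1) (hθ : θ = 1/2 ∨ θ = 1)
    (hKh : t ^ (-(θ * z / g0 k)) ≤ Real.exp (l / 2) / 2)
    (hKt : t ^ (-(θ * z / g0 k)) ≤ t * Real.exp l)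
    (hor : θ = 1/2 → t * (Real.exp (del k * l) * t ^ (-z)) ≤ t ^ (2 * z))
    (c e : ℕ) (hc : 0 < c) (he : 0 < e) (hcg0 : 0 < cg) (hcg : cg ≤ ((c * e : ℕ):ℝ) ^ (-(g0 k)))
    (hf : ((sel γ l).1:ℝ) ≤ t ^ (-(bet k)) → cg ≤ (Nat.gcd (sel γ l).1 (c * e) : ℝ) ^ (-(19/20 : ℝ)))
    (P : Finset (ℕ × ℕ)) (A B : ℕ) (hA : 1 ≤ A) (hB : 1 ≤ B)
    (hP : ∀ w ∈ P, 1 ≤ w.1 ∧ w.1 ≤ A ∧ 1 ≤ w.2 ∧ w.2 ≤ B ∧ e * w.2 < c * w.1 ∧
      ((c * w.1 : ℕ):ℝ) ≤ Ub k l t ∧ HitN γ t (sel γ l) (((c * w.1 : ℕ):ℤ) - ((e * w.2 : ℕ):ℤ))) :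
    (P.card : ℝ) * (damp l t c A * damp l t e B) ^ 2 * cg ^ 2 ≤ 104 * t ^ (2 * z) * ((A:ℝ) * B) := by
  set Y := Real.exp l with hY
  have hY0 : 0 < Y := Real.exp_pos _
  have hA0 : (0:ℝ) < A := by exact_mod_cast hA
  have hB0 : (0:ℝ) < B := by exact_mod_cast hB
  have hce : 1 ≤ c * e := Nat.mul_pos hc he
  have hce' : (1:ℝ) ≤ ((c * e : ℕ):ℝ) := by exact_mod_cast hce
  have htriv : (P.card:ℝ) ≤ (A:ℝ) * B := by
    have h : P ⊆ Finset.Icc 1 A ×ˢ Finset.Icc 1 B := fun w hw => by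
      obtain ⟨a1, a2, b1, b2, -⟩ := hP w hw
      exact Finset.mem_product.2 ⟨Finset.mem_Icc.2 ⟨a1, a2⟩, Finset.mem_Icc.2 ⟨b1, b2⟩⟩
    have := Finset.card_le_card h
    simp at this
    exact_mod_cast this
  have hd1 := damp_le_one (l := l) (t := t) c A
  have hd2 := damp_le_one (l := l) (t := t) e B
  have hd1' := damp_nonneg (l := l) ht c A
  have hd2' := damp_nonneg (l := l) ht e B
  set F := damp l t c A * damp l t e B
  have hF0 : 0 ≤ F := mul_nonneg hd1' hd2'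
  have hF1 : F ≤ 1 := mul_le_one₀ hd1 hd2' hd2
  have htz : t ^ (2 * z) = (t ^ z) ^ 2 := by
    rw [← Real.rpow_natCast, ← Real.rpow_mul ht.le]; ring_nf
  have hAB : 0 ≤ t ^ (2 * z) * ((A:ℝ) * B) := by positivity
  rcases le_or_gt cg (t ^ z) with hsmall | hbig
  · calc (P.card : ℝ) * F ^ 2 * cg ^ 2 ≤ ((A:ℝ) * B) * 1 * (t ^ z) ^ 2 := by
          gcongr
          exact pow_le_one₀ hF0 hF1
      _ ≤ _ := by rw [← htz]; linarith
  set ρ := t ^ z / cg with hρdef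
  have hρ0 : 0 < ρ := by positivity
  have hρ1 : ρ ≤ 1 := by rw [hρdef, div_le_one hcg0]; exact hbig.le
  have hρcg : ρ * cg = t ^ z := by rw [hρdef]; field_simp
  have hcg1 : cg ≤ 1 := hcg.trans (Real.rpow_le_one_of_one_le_of_nonpos hce' (by
    have := (g0_pos hk).1; linarith))
  have htρ : t ≤ ρ ^ 2 := by
    calc t = t ^ (1:ℝ) := (Real.rpow_one t).symm
      _ ≤ t ^ (2 * z) := Real.rpow_le_rpow_of_exponent_ge ht ht1 hz
      _ = (ρ * cg) ^ 2 := by rw [hρcg, htz]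
      _ ≤ _ := by
          rw [mul_pow]; exact mul_le_of_le_one_right (sq_nonneg _) (pow_le_one₀ hcg0.le hcg1)
  have hdsmall : F ≤ ρ → (P.card : ℝ) * F ^ 2 * cg ^ 2 ≤ 104 * t ^ (2 * z) * ((A:ℝ) * B) := fun h => by
    calc (P.card : ℝ) * F ^ 2 * cg ^ 2 ≤ ((A:ℝ) * B) * ρ ^ 2 * cg ^ 2 := by gcongr
      _ = ((A:ℝ) * B) * t ^ (2 * z) := by rw [htz, ← hρcg]; ring
      _ ≤ _ := by linarith
  -- the conclusion from a count of rows
  have hrows : ∀ (M : ℕ) (H : ℝ), 0 ≤ H → t * H ≤ t ^ (2 * z) → M ∣ c * e →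
      (P.card:ℝ) ≤ ((A:ℝ) * B) * (100 * ρ ^ 2
        + (Nat.gcd (sel γ l).1 M : ℝ) * min (1 / ((sel γ l).1:ℝ)) (4 * t * H)) →
      (P.card : ℝ) * F ^ 2 * cg ^ 2 ≤ 104 * t ^ (2 * z) * ((A:ℝ) * B) := by
    intro M H hH0 hH hdvd hcard
    set Bx := (sel γ l).1
    have hBx : 1 ≤ Bx := (sel_spec γ l).1
    have hg : (Nat.gcd Bx M : ℝ) ≤ (Nat.gcd Bx (c * e) : ℝ) :=
      Nat.cast_le.2 (Nat.le_of_dvd (Nat.gcd_pos_of_pos_left _ hBx) (Nat.gcd_dvd_gcd_of_dvd_right Bx hdvd))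
    have hgt := gcd_term hk ht ht1 hz0 hz hH hH0 hBx hce hcg0.le hcg hf
    have hm0 : 0 ≤ min (1 / (Bx:ℝ)) (4 * t * H) := le_min (by positivity) (by positivity)
    calc (P.card : ℝ) * F ^ 2 * cg ^ 2
        ≤ ((A:ℝ) * B) * (100 * ρ ^ 2 + (Nat.gcd Bx M : ℝ) * min (1 / (Bx:ℝ)) (4 * t * H)) * 1 * cg ^ 2 := by
          gcongr
          exact pow_le_one₀ hF0 hF1
      _ ≤ ((A:ℝ) * B) * (100 * (ρ * cg) ^ 2
            + cg ^ 2 * (Nat.gcd Bx (c * e) : ℝ) * min (1 / (Bx:ℝ)) (4 * t * H)) := by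
          rw [mul_one, mul_assoc ((A:ℝ) * B)]
          refine mul_le_mul_of_nonneg_left ?_ (by positivity)
          rw [add_mul, mul_pow ρ]
          have := mul_le_mul_of_nonneg_left (mul_le_mul_of_nonneg_right hg hm0) (sq_nonneg cg)
          linarith
      _ ≤ ((A:ℝ) * B) * (100 * t ^ (2 * z) + 4 * t ^ (2 * z)) := by
          rw [hρcg, ← htz]; gcongr
      _ = _ := by ring
  by_cases ha : θ = 1 ∨ c ≤ e
  · -- rows in the first coordinate
    rcases le_or_gt ((c:ℝ) * A) (ρ * t * Y) with hs | hl'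
    · refine hdsmall ((mul_le_of_le_one_right hd1' hd2).trans ((min_le_right _ _).trans ?_))
      rw [div_le_iff₀ (by positivity)]; linarith
    have hMX : (c:ℝ) ≤ ((c * e : ℕ):ℝ) ^ θ := by
      have h2 : (1:ℝ) ≤ e := by exact_mod_cast he
      rcases hθ with hθ | hθ
      · have hle : c ≤ e := ha.resolve_left (by rw [hθ]; norm_num)
        rw [hθ, ← Real.sqrt_eq_rpow]
        refine Real.le_sqrt_of_sq_le ?_
        push_cast; rw [sq]
        exact mul_le_mul_of_nonneg_left (by exact_mod_cast hle) (Nat.cast_nonneg _)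
      · rw [hθ, Real.rpow_one]; push_cast
        exact le_mul_of_one_le_right (Nat.cast_nonneg _) h2
    have hK := step_bound hk ht (by rcases hθ with h | h <;> linarith) hce' hMX hcg hbig
    have hth : t * 1 ≤ t ^ (2 * z) := by
      rw [mul_one]
      calc t = t ^ (1:ℝ) := (Real.rpow_one t).symm
        _ ≤ _ := Real.rpow_le_rpow_of_exponent_ge ht ht1 hz
    refine hrows c 1 zero_le_one hth (dvd_mul_right c e) ?_
    have hmap : ∀ w ∈ P, w.2 ∈ Finset.Icc 1 B := fun w hw => by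
      obtain ⟨-, -, b1, b2, -⟩ := hP w hw; exact Finset.mem_Icc.2 ⟨b1, b2⟩
    rw [Finset.card_eq_sum_card_fiberwise hmap]
    push_cast
    refine (Finset.sum_le_card_nsmul _ _ ((A:ℝ) * (100 * ρ ^ 2
      + (Nat.gcd (sel γ l).1 c : ℝ) * min (1 / ((sel γ l).1:ℝ)) (4 * t * 1))) fun b _ => ?_).trans ?_
    · have hinj : Set.InjOn (fun w : ℕ × ℕ => w.1) ↑(P.filter (fun w => w.2 = b)) := fun u hu v hv e' => by
        simp only [Finset.coe_filter, Set.mem_ofPred_eq] at hu hv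
        exact Prod.ext e' (hu.2.trans hv.2.symm)
      rw [← Finset.card_image_of_injOn hinj]
      refine (row_count γ t l c A ((e * b : ℕ):ℤ) ((c:ℝ) * A) ρ _ ht hc hρ0 hρ1 htρ hK hKh hKt hl'.le le_rfl
        _ fun a ha' => ?_).trans (le_of_eq ?_)
      · obtain ⟨w, hw0, rfl⟩ := Finset.mem_image.1 ha'
        obtain ⟨hw, rfl⟩ := Finset.mem_filter.1 hw0
        obtain ⟨a1, a2, -, -, h5, -, h7⟩ := hP w hw
        refine ⟨a1, a2, ?_, by push_cast at h7 ⊢; exact h7⟩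
        have h5' : ((e * w.2 : ℕ):ℝ) ≤ ((c * w.1 : ℕ):ℝ) := Nat.cast_le.2 h5.le
        have h6 : ((c * w.1 : ℕ):ℝ) ≤ (c:ℝ) * A := by exact_mod_cast Nat.mul_le_mul_left c a2
        have : (0:ℝ) ≤ ((e * w.2 : ℕ):ℝ) := Nat.cast_nonneg _
        push_cast at h5' h6 this ⊢
        rw [abs_of_nonneg (by linarith)]; linarith
      · rw [mul_add, mul_comm (A:ℝ) ((Nat.gcd (sel γ l).1 c : ℝ) * _), mul_assoc ((Nat.gcd (sel γ l).1 c : ℝ)),
          min_mul_of_nonneg _ _ hA0.le]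
        congr 1
        · ring
        · congr 2
          · ring
          · field_simp
    · rw [nsmul_eq_mul, Nat.card_Icc, Nat.add_sub_cancel]
      exact le_of_eq (by ring)
  · -- rows in the second coordinate
    push Not at ha
    obtain ⟨hθ1, hec⟩ := ha
    have hθh := hθ.resolve_right hθ1
    rcases le_or_gt ((e:ℝ) * B) (ρ * t * Y) with hs | hl'
    · refine hdsmall ((mul_le_of_le_one_left hd2' hd1).trans ((min_le_right _ _).trans ?_))
      rw [div_le_iff₀ (by positivity)]; linarith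
    have hMX : (e:ℝ) ≤ ((c * e : ℕ):ℝ) ^ θ := by
      rw [hθh, ← Real.sqrt_eq_rpow]
      refine Real.le_sqrt_of_sq_le ?_
      push_cast; rw [sq]
      exact mul_le_mul_of_nonneg_right (by exact_mod_cast hec.le) (Nat.cast_nonneg _)
    have hK := step_bound hk ht (by linarith) hce' hMX hcg hbig
    set H := Real.exp (del k * l) / ρ
    have hE1 : 1 ≤ Real.exp (del k * l) := Real.one_le_exp (mul_nonneg (del_nonneg k) hl)
    have hH1 : 1 ≤ H := by rw [le_div_iff₀ hρ0]; linarith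
    have hth : t * H ≤ t ^ (2 * z) := by
      refine le_trans (mul_le_mul_of_nonneg_left ?_ ht.le) (hor hθh)
      simp only [H]
      rw [hρdef, div_div_eq_mul_div, Real.rpow_neg ht.le, ← div_eq_mul_inv]
      exact div_le_div_of_nonneg_right (mul_le_of_le_one_right (by positivity) hcg1) (by positivity)
    refine hrows e H (by linarith) hth (dvd_mul_left e c) ?_
    have hmap : ∀ w ∈ P, w.1 ∈ Finset.Icc 1 A := fun w hw => by
      obtain ⟨a1, a2, -⟩ := hP w hw; exact Finset.mem_Icc.2 ⟨a1, a2⟩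
    rw [Finset.card_eq_sum_card_fiberwise hmap]
    push_cast
    refine (Finset.sum_le_card_nsmul _ _ ((B:ℝ) * (100 * ρ ^ 2
      + (Nat.gcd (sel γ l).1 e : ℝ) * min (1 / ((sel γ l).1:ℝ)) (4 * t * H))) fun a _ => ?_).trans ?_
    · have hinj : Set.InjOn (fun w : ℕ × ℕ => w.2) ↑(P.filter (fun w => w.1 = a)) := fun u hu v hv e' => by
        simp only [Finset.coe_filter, Set.mem_ofPred_eq] at hu hv
        exact Prod.ext (hu.2.trans hv.2.symm) e'
      rw [← Finset.card_image_of_injOn hinj]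
      refine (row_count γ t l e B ((c * a : ℕ):ℤ) (H * ((e:ℝ) * B)) ρ _ ht he hρ0 hρ1 htρ hK hKh hKt hl'.le
        (le_mul_of_one_le_left (by positivity) hH1) _ fun b hb' => ?_).trans (le_of_eq ?_)
      · obtain ⟨w, hw0, rfl⟩ := Finset.mem_image.1 hb'
        obtain ⟨hw, rfl⟩ := Finset.mem_filter.1 hw0
        obtain ⟨-, -, b1, b2, h5, h6, h7⟩ := hP w hw
        refine ⟨b1, b2, ?_, ?_⟩
        · have hU : Ub k l t ≤ H * ((e:ℝ) * B) := by
            refine le_trans (le_of_eq ?_) (mul_le_mul_of_nonneg_left hl'.le (by linarith))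
            simp only [H, Ub, hY]
            rw [show (1 + del k) * l = del k * l + l by ring, Real.exp_add]
            field_simp
          have h5' : ((e * w.2 : ℕ):ℝ) ≤ ((c * w.1 : ℕ):ℝ) := Nat.cast_le.2 h5.le
          have : (0:ℝ) ≤ ((e * w.2 : ℕ):ℝ) := Nat.cast_nonneg _
          push_cast at h5' h6 this ⊢
          rw [abs_of_nonpos (by linarith)]; linarith
        · have := h7.neg
          rw [neg_sub] at this
          push_cast at this ⊢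
          exact this
      · rw [mul_add, mul_comm (B:ℝ) ((Nat.gcd (sel γ l).1 e : ℝ) * _), mul_assoc ((Nat.gcd (sel γ l).1 e : ℝ)),
          min_mul_of_nonneg _ _ hB0.le]
        congr 1
        · ring
        · congr 2
          · ring
          · field_simp
    · rw [nsmul_eq_mul, Nat.card_Icc, Nat.add_sub_cancel]
      exact le_of_eq (by ring)

/-- A state at the middle scales. -/
lemma mid_state (hk : 100 ≤ k) (hl : 0 ≤ l) (ht : 0 < t) (ht1 : t ≤ 1) {z θ : ℝ} (hz0 : 0 ≤ z)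
    (hz : 2 * z ≤ 1) (hθ : θ = 1/2 ∨ θ = 1)
    (hKh : t ^ (-(θ * z / g0 k)) ≤ Real.exp (l / 2) / 2)
    (hKt : t ^ (-(θ * z / g0 k)) ≤ t * Real.exp l)
    (hor : θ = 1/2 → t * (Real.exp (del k * l) * t ^ (-z)) ≤ t ^ (2 * z))
    {E : Finset (ℕ × ℕ)} (hE : ∀ x ∈ E, EdgeOK k γ l t ψ x) {N : ℕ} (hN : 1 ≤ N)
    (hNU : ∀ x ∈ E, cv x.1 x.2 ≤ N) (S : Conf E) {G : ℝ} (hG0 : 0 < G)
    (hG : G / ((S.c * S.e : ℕ):ℝ) ≤ ((S.c * S.e : ℕ):ℝ) ^ (-(g0 k)))
    (hf : ((sel γ l).1:ℝ) ≤ t ^ (-(bet k)) →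
      G / ((S.c * S.e : ℕ):ℝ) ≤ (Nat.gcd (sel γ l).1 (S.c * S.e) : ℝ) ^ (-(19/20 : ℝ))) :
    (∑ x ∈ S.E2, (lam x.1 * ψ x.1) * (lam x.2 * ψ x.2)) * G
      ≤ 11000 * (t ^ 2 * t ^ z) * (1 + Real.log N) ^ 5 := by
  set cg := G / ((S.c * S.e : ℕ):ℝ)
  have hn : (0:ℝ) < ((S.c * S.e : ℕ):ℝ) := by exact_mod_cast Nat.mul_pos S.hc S.he
  have hcg0 : 0 < cg := div_pos hG0 hn
  set Φ := 104 * t ^ (2 * z) / cg ^ 2
  have hΦ : 0 ≤ Φ := by positivity
  refine (state_bound ht hE S hG0.le hΦ hN hNU fun A B hA hB _ _ => ?_).trans ?_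
  · simp only [Φ]
    rw [div_mul_eq_mul_div, le_div_iff₀ (by positivity)]
    refine mid_share hk hl ht ht1 hz0 hz hθ hKh hKt hor S.c S.e S.hc S.he hcg0 hG hf _ A B hA hB
      fun w hw => ?_
    obtain ⟨hw, a2, b2⟩ := Finset.mem_filter.1 hw
    obtain ⟨x, hx, rfl⟩ := Finset.mem_image.1 hw
    obtain ⟨e1, e2⟩ := rk_spec S hx
    have hOK := hE x (S.sub hx)
    have hu0 := hOK.pf.hu0
    have huv := hOK.pf.huv
    have hU := hOK.cv_le
    have hh := hOK.hitN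
    rw [e1] at huv hU hh
    rw [e2] at hu0 huv hh
    have p1 : 0 < (rk S x).1 := Nat.pos_of_ne_zero fun h0 => by simp [h0] at huv
    exact ⟨p1, a2, Nat.pos_of_mul_pos_left hu0, b2, huv, hU, hh⟩
  · have hs : Real.sqrt Φ ≤ 11 * t ^ z / cg := by
      rw [Real.sqrt_le_iff]
      refine ⟨by positivity, ?_⟩
      simp only [Φ]
      rw [show (11 * t ^ z / cg) ^ 2 = 11 ^ 2 * (t ^ z) ^ 2 / cg ^ 2 by ring, show t ^ (2 * z) = (t ^ z) ^ 2 by rw [← Real.rpow_natCast, ← Real.rpow_mul ht.le]; ring_nf]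
      gcongr; norm_num
    have hl0 : 0 ≤ 1 + Real.log N := by
      have := Real.log_natCast_nonneg N; linarith
    have e : G / ((S.c:ℝ) * S.e) = cg := by simp only [cg]; push_cast; rfl
    rw [e]
    calc t ^ 2 * cg * (1000 * Real.sqrt Φ * (1 + Real.log N) ^ 5)
        ≤ t ^ 2 * cg * (1000 * (11 * t ^ z / cg) * (1 + Real.log N) ^ 5) := by gcongr
      _ = _ := by field_simp; ring

/-- A state at the large scales where the cofactors carry abnormal weight. -/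
lemma large_state (hk : 100 ≤ k) (ht : 0 < t) {E : Finset (ℕ × ℕ)} (hE : ∀ x ∈ E, EdgeOK k γ l t ψ x)
    {N : ℕ} (hN : 1 ≤ N) (hNU : ∀ x ∈ E, cv x.1 x.2 ≤ N) {W : ℝ} (hW : 1 ≤ W)
    (hx1 : ∀ x ∈ E, 1 < Wide.x1 W x.1 x.2) (S : Conf E) {G : ℝ} (hG0 : 0 ≤ G)
    (hG : G / ((S.c * S.e : ℕ):ℝ) ≤ ((S.c * S.e : ℕ):ℝ) ^ (-(g0 k))) :
    (∑ x ∈ S.E2, (lam x.1 * ψ x.1) * (lam x.2 * ψ x.2)) * G
      ≤ 1000 * Real.exp 3 * t ^ 2 * Real.exp (-(g0 k * W / 6)) * (1 + Real.log N) ^ 5 := by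
  obtain ⟨hg0, hg5, -, -⟩ := g0_pos hk
  set n := S.c * S.e
  have hn0 : 0 < n := Nat.mul_pos S.hc S.he
  have hn : (1:ℝ) ≤ (n:ℝ) := by exact_mod_cast hn0
  have hl0 : 0 ≤ 1 + Real.log N := by
    have := Real.log_natCast_nonneg N; linarith
  have e : G / ((S.c:ℝ) * S.e) = G / (n:ℝ) := by simp only [n]; push_cast; rfl
  have hcg1 : G / (n:ℝ) ≤ 1 := hG.trans (Real.rpow_le_one_of_one_le_of_nonpos hn (by linarith))
  have hGn : 0 ≤ G / (n:ℝ) := by positivity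
  rcases le_or_gt (1/3) (xw W n.primeFactors) with hce | hce
  · refine (state_bound ht hE S hG0 (zero_le_one) hN hNU fun A B hA hB _ _ => ?_).trans ?_
    · refine (mul_le_of_le_one_right (Nat.cast_nonneg _) (pow_le_one₀ (mul_nonneg (damp_nonneg ht _ _)
        (damp_nonneg ht _ _)) (mul_le_one₀ (damp_le_one _ _) (damp_nonneg ht _ _) (damp_le_one _ _)))).trans ?_
      rw [one_mul]
      have h : (S.E2.image (rk S)).filter (fun z => z.1 ≤ A ∧ z.2 ≤ B) ⊆ Finset.Icc 0 A ×ˢ Finset.Icc 0 B :=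
        fun z hz => by
          obtain ⟨-, a, b⟩ := Finset.mem_filter.1 hz
          exact Finset.mem_product.2 ⟨Finset.mem_Icc.2 ⟨zero_le, a⟩, Finset.mem_Icc.2 ⟨zero_le, b⟩⟩
      have h' : (S.E2.image (rk S)).filter (fun z => z.1 ≤ A ∧ z.2 ≤ B) ⊆ Finset.Icc 1 A ×ˢ Finset.Icc 1 B :=
        fun z hz => by
          obtain ⟨hz', a, b⟩ := Finset.mem_filter.1 hz
          obtain ⟨x, hx, rfl⟩ := Finset.mem_image.1 hz'
          obtain ⟨e1, e2⟩ := rk_spec S hx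
          have P := (hE x (S.sub hx)).pf
          have huv := P.huv; have hu0 := P.hu0
          rw [e1] at huv; rw [e2] at hu0
          refine Finset.mem_product.2 ⟨Finset.mem_Icc.2 ⟨?_, a⟩, Finset.mem_Icc.2 ⟨Nat.pos_of_mul_pos_left hu0, b⟩⟩
          exact Nat.pos_of_ne_zero fun h0 => by simp [h0] at huv
      have := Finset.card_le_card h'
      simp at this
      exact_mod_cast this
    · rw [Real.sqrt_one, e, mul_one]
      have hW0 : 0 < W := by linarith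
      have hexp : G / (n:ℝ) ≤ Real.exp (-(g0 k * W / 6)) := by
        refine hG.trans ?_
        rw [Real.rpow_def_of_pos (by linarith)]
        refine Real.exp_le_exp.2 ?_
        have h1 := (xw_le_card hW0 n.primeFactors)
        have h2 := card_primeFactors_le_log n hn0
        have h3 : W / 3 ≤ (n.primeFactors.card : ℝ) := by
          have := hce.trans h1
          rw [le_div_iff₀ hW0] at this; linarith
        have h4 := Real.log_two_gt_d9
        have h5 : W / 6 ≤ Real.log n := by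
          have := mul_le_mul_of_nonneg_right h3 (by linarith : (0:ℝ) ≤ Real.log 2)
          have : W * (1/2) ≤ W * Real.log 2 := mul_le_mul_of_nonneg_left (by linarith) hW0.le
          linarith
        have := mul_le_mul_of_nonneg_left h5 hg0.le
        linarith
      calc t ^ 2 * (G / (n:ℝ)) * (1000 * (1 + Real.log N) ^ 5)
          ≤ t ^ 2 * Real.exp (-(g0 k * W / 6)) * (1000 * (1 + Real.log N) ^ 5) := by gcongr
        _ = 1000 * 1 * t ^ 2 * Real.exp (-(g0 k * W / 6)) * (1 + Real.log N) ^ 5 := by ring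
        _ ≤ _ := by gcongr; exact Real.one_le_exp (by norm_num)
  · set Φ := 2 * (Real.exp 4 * Real.exp (-(W * (1/3))))
    refine (state_bound ht hE S hG0 (Φ := Φ) (by positivity) hN hNU fun A B hA hB _ _ => ?_).trans ?_
    · refine (mul_le_of_le_one_right (Nat.cast_nonneg _) (pow_le_one₀ (mul_nonneg (damp_nonneg ht _ _)
        (damp_nonneg ht _ _)) (mul_le_one₀ (damp_le_one _ _) (damp_nonneg ht _ _) (damp_le_one _ _)))).trans ?_
      set PA := (Finset.Icc 1 A).filter (fun m => 1/3 ≤ xw W m.primeFactors)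
      set PB := (Finset.Icc 1 B).filter (fun m => 1/3 ≤ xw W m.primeFactors)
      have h : (S.E2.image (rk S)).filter (fun z => z.1 ≤ A ∧ z.2 ≤ B)
          ⊆ PA ×ˢ Finset.Icc 1 B ∪ Finset.Icc 1 A ×ˢ PB := by
        intro z hz
        obtain ⟨hz', ha, hb⟩ := Finset.mem_filter.1 hz
        obtain ⟨x, hx, rfl⟩ := Finset.mem_image.1 hz'
        obtain ⟨e1, e2⟩ := rk_spec S hx
        have hOK := hE x (S.sub hx)
        have huv := hOK.pf.huv; have hu0 := hOK.pf.hu0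
        have hx' := hx1 x (S.sub hx)
        rw [e1] at huv; rw [e2] at hu0
        unfold Wide.x1 at hx'
        rw [e1, e2] at hx'
        have p1 : 0 < (rk S x).1 := Nat.pos_of_ne_zero fun h0 => by simp [h0] at huv
        have p2 : 0 < (rk S x).2 := Nat.pos_of_mul_pos_left hu0
        have hsplit : xw W (S.e * (rk S x).2 * (S.c * (rk S x).1)).primeFactors
            ≤ xw W n.primeFactors + (xw W (rk S x).1.primeFactors + xw W (rk S x).2.primeFactors) := by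
          rw [show S.e * (rk S x).2 * (S.c * (rk S x).1) = n * ((rk S x).1 * (rk S x).2) by simp only [n]; ring,
            Nat.primeFactors_mul hn0.ne' (Nat.mul_pos p1 p2).ne', Nat.primeFactors_mul p1.ne' p2.ne']
          exact (xw_union_le W _ _).trans (add_le_add le_rfl (xw_union_le W _ _))
        have hm1 : (rk S x).1 ∈ Finset.Icc 1 A := Finset.mem_Icc.2 ⟨p1, ha⟩
        have hm2 : (rk S x).2 ∈ Finset.Icc 1 B := Finset.mem_Icc.2 ⟨p2, hb⟩
        rcases le_or_gt (1/3) (xw W (rk S x).1.primeFactors) with h1 | h1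
        · exact Finset.mem_union_left _ (Finset.mem_product.2 ⟨Finset.mem_filter.2 ⟨hm1, h1⟩, hm2⟩)
        · exact Finset.mem_union_right _ (Finset.mem_product.2 ⟨hm1, Finset.mem_filter.2 ⟨hm2, by linarith⟩⟩)
      refine (Nat.cast_le.2 ((Finset.card_le_card h).trans (Finset.card_union_le _ _))).trans ?_
      push_cast
      simp only [Finset.card_product, Nat.card_Icc, Nat.add_sub_cancel, Nat.cast_mul]
      have h1 := mul_le_mul_of_nonneg_right (card_xw_tail hW (1/3) A) (Nat.cast_nonneg (α := ℝ) B)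
      have h2 := mul_le_mul_of_nonneg_left (card_xw_tail hW (1/3) B) (Nat.cast_nonneg (α := ℝ) A)
      simp only [Φ, PA, PB]
      linarith
    · rw [e]
      have hs : Real.sqrt Φ ≤ Real.exp 3 * Real.exp (-(g0 k * W / 6)) := by
        rw [Real.sqrt_le_iff]
        refine ⟨by positivity, ?_⟩
        simp only [Φ]
        rw [mul_pow, ← Real.exp_nat_mul, ← Real.exp_nat_mul, ← Real.exp_add, ← Real.exp_add]
        calc 2 * Real.exp (4 + -(W * (1/3))) ≤ Real.exp 1 * Real.exp (4 + -(W * (1/3))) := by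
              gcongr; linarith [Real.add_one_le_exp (1:ℝ)]
          _ ≤ _ := by
              rw [← Real.exp_add]; refine Real.exp_le_exp.2 ?_
              push_cast
              have : g0 k * W ≤ 1 * W := mul_le_mul_of_nonneg_right (by linarith) (by linarith)
              linarith
      calc t ^ 2 * (G / (n:ℝ)) * (1000 * Real.sqrt Φ * (1 + Real.log N) ^ 5)
          ≤ t ^ 2 * 1 * (1000 * (Real.exp 3 * Real.exp (-(g0 k * W / 6))) * (1 + Real.log N) ^ 5) := by gcongr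
        _ = _ := by ring

end Vale.Agent.P028.Div
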